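import Vale.Agent.P168.Tree

/-!
P168, telescope: one-step marginals of the law of the trees of replicas.
-/

open Finset

noncomputable section

namespace Vale.Agent.P168

variable {K n : ℕ}

namespace Lvls

/-- The old replicas in the node at level `l` of replica `b`. -/
def node (U : Lvls K n) (b : Fin n) (l : ℕ) : Finset (Fin n) :=
  univ.filter fun x => l ≤ (U b x : ℕ)

/-- The row of a replica attached to replica `b` at level `l`. -/
def rowOf (U : Lvls K n) (b : Fin n) (l : Fin (K + 1)) : Fin n → Fin (K + 1) :=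
  fun x => min (U b x) l

/-- The levels with a new last replica. -/
def ext (U : Lvls K n) (R : Fin n → Fin (K + 1)) : Lvls K (n + 1) :=
  fun a b => Fin.lastCases (Fin.lastCases (Fin.last K) R b)
    (fun a' => Fin.lastCases (R a') (fun b' => U a' b') b) a

@[simp] theorem ext_cc (U : Lvls K n) (R : Fin n → Fin (K + 1)) (a b : Fin n) :
    ext U R a.castSucc b.castSucc = U a b := by simp [ext]

@[simp] theorem ext_cl (U : Lvls K n) (R : Fin n → Fin (K + 1)) (a : Fin n) :
    ext U R a.castSucc (Fin.last n) = R a := by simp [ext]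

@[simp] theorem ext_lc (U : Lvls K n) (R : Fin n → Fin (K + 1)) (a : Fin n) :
    ext U R (Fin.last n) a.castSucc = R a := by simp [ext]

@[simp] theorem ext_ll (U : Lvls K n) (R : Fin n → Fin (K + 1)) :
    ext U R (Fin.last n) (Fin.last n) = Fin.last K := by simp [ext]

@[simp] theorem init_ext (U : Lvls K n) (R : Fin n → Fin (K + 1)) : (ext U R).init = U := by
  funext a b; simp [Lvls.init]

theorem IsTree.init {U : Lvls K (n + 1)} (h : U.IsTree) : U.init.IsTree :=
  ⟨fun a => h.1 _, fun a b => h.2.1 _ _, fun a b c => h.2.2 _ _ _⟩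

variable {U : Lvls K n} (hU : U.IsTree)
include hU

theorem mem_node_self (b : Fin n) {l : ℕ} (hl : l ≤ K) : b ∈ U.node b l := by
  simp [node, hU.1 b, hl]

theorem node_pos (b : Fin n) {l : ℕ} (hl : l ≤ K) : 0 < (U.node b l).card :=
  card_pos.2 ⟨b, mem_node_self hU b hl⟩

theorem node_eq {a b : Fin n} {l : ℕ} (h : a ∈ U.node b l) : U.node a l = U.node b l := by
  simp only [node, mem_filter, mem_univ, true_and] at h
  ext x
  simp only [node, mem_filter, mem_univ, true_and]
  constructor <;> intro hx
  · exact le_trans (le_min h hx) (Fin.le_def.1 (hU.2.2 b a x))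
  · rw [hU.2.1 b a] at h
    exact le_trans (le_min h hx) (Fin.le_def.1 (hU.2.2 a b x))

theorem node_symm {a b : Fin n} {l : ℕ} : a ∈ U.node b l ↔ b ∈ U.node a l := by
  simp [node, hU.2.1 a b]

omit hU in
theorem node_anti (b : Fin n) {l l' : ℕ} (h : l ≤ l') : U.node b l' ⊆ U.node b l := fun x hx => by
  simp only [node, mem_filter, mem_univ, true_and] at hx ⊢
  omega

omit hU in
theorem node_zero (b : Fin n) : U.node b 0 = univ := by simp [node]

omit hU in
theorem inNode_node (b : Fin n) (l : ℕ) :
    inNode K n (U.node b l).card l = (((U.node b l).card : ℝ) - mpar K l) / n := by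
  unfold inNode
  split_ifs with h
  · subst h
    have : (n : ℝ) ≠ 0 := by exact_mod_cast (Fin.pos b).ne'
    simp [node_zero, mpar, this]
  · rfl

theorem isTree_rowOf (b : Fin n) (l : Fin (K + 1)) : (ext U (U.rowOf b l)).IsTree := by
  refine ⟨fun a => ?_, fun a c => ?_, fun a c e => ?_⟩
  · cases a using Fin.lastCases <;> simp [hU.1]
  · cases a using Fin.lastCases <;> cases c using Fin.lastCases <;> simp
    exact hU.2.1 _ _
  · cases a using Fin.lastCases <;> cases c using Fin.lastCases <;>
      cases e using Fin.lastCases <;> simp [rowOf, Fin.le_last]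
    case last.cast.cast a c =>
      have h := hU.2.2 b a c
      simp only [Fin.le_def, Fin.coe_min] at h ⊢
      omega
    case cast.last.cast a c =>
      have h := hU.2.2 a b c
      rw [hU.2.1 a b] at h
      simp only [Fin.le_def, Fin.coe_min] at h ⊢
      omega
    case cast.cast.last a c =>
      have h := hU.2.2 b c a
      rw [hU.2.1 c a] at h
      simp only [Fin.le_def, Fin.coe_min] at h ⊢
      omega
    case cast.cast.cast a c e =>
      simpa using hU.2.2 a c e

omit hU in
theorem eq_ext_rowOf {U' : Lvls K (n + 1)} (h : U'.IsTree) (hi : U'.init = U) {b : Fin n}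
    (hb : ∀ x : Fin n, U' x.castSucc (Fin.last n) ≤ U' b.castSucc (Fin.last n)) :
    ext U (U.rowOf b (U' b.castSucc (Fin.last n))) = U' := by
  have key : ∀ x : Fin n, U.rowOf b (U' b.castSucc (Fin.last n)) x
      = U' x.castSucc (Fin.last n) := by
    intro x
    have e : U b x = U' b.castSucc x.castSucc := by rw [← hi]; rfl
    simp only [rowOf, e]
    have h1 := h.2.2 x.castSucc b.castSucc (Fin.last n)
    have h2 := h.2.2 b.castSucc (Fin.last n) x.castSucc
    rw [h.2.1 x.castSucc b.castSucc] at h1
    rw [h.2.1 (Fin.last n) x.castSucc] at h2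
    have h3 := hb x
    simp only [Fin.le_def, Fin.coe_min] at h1 h2 h3
    ext
    simp only [Fin.coe_min]
    omega
  funext a c
  cases a using Fin.lastCases <;> cases c using Fin.lastCases
  · simp [h.1]
  · rw [ext_lc, key, h.2.1]
  · rw [ext_cl, key]
  · rw [ext_cc, ← hi]; rfl

omit hU in
theorem sup_rowOf {U : Lvls K n} (hU : U.IsTree) (b : Fin n) (l : Fin (K + 1)) :
    (univ.sup fun a : Fin n => (ext U (U.rowOf b l) a.castSucc (Fin.last n) : ℕ)) = l := by
  refine le_antisymm (Finset.sup_le fun a _ => ?_) ?_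
  · simp only [ext_cl, rowOf, Fin.coe_min]; omega
  · refine le_trans ?_ (Finset.le_sup (mem_univ b))
    simp [rowOf, hU.1 b, Fin.le_last]

omit hU in
theorem filter_rowOf (b : Fin n) (l : Fin (K + 1)) :
    (univ.filter fun a : Fin n => (ext U (U.rowOf b l) a.castSucc (Fin.last n) : ℕ) = l)
      = U.node b l := by
  ext a
  simp only [node, mem_filter, mem_univ, true_and, ext_cl, rowOf, Fin.coe_min]
  omega

/-- The weight of the row `(b, l)`. -/
theorem attach_rowOf (b : Fin n) (l : Fin (K + 1)) :
    attach (ext U (U.rowOf b l)) =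
      (((U.node b l).card : ℝ) - mpar K l) / n -
        if (l : ℕ) < K then ∑ a ∈ U.node b l,
          ((((U.node a (l + 1)).card : ℝ) - mpar K (l + 1)) / n) / (U.node a (l + 1)).card
        else 0 := by
  simp only [attach, sup_rowOf hU, filter_rowOf, init_ext]
  rw [inNode_node]
  congr 1

end Lvls

open Lvls

theorem mpar_succ (K l : ℕ) : mpar K (l + 1) = mpar K l + gapK K := by
  unfold mpar gapK; push_cast; ring

theorem gapK_pos (K : ℕ) : 0 < gapK K := by unfold gapK; positivity

theorem mpar_mem (K : ℕ) {l : ℕ} (hl : l ≤ K) : 0 ≤ mpar K l ∧ mpar K l + gapK K ≤ 1 := by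
  unfold mpar gapK
  refine ⟨by positivity, ?_⟩
  rw [← add_div, div_le_one (by positivity)]
  exact_mod_cast Nat.succ_le_succ hl

/-- New replicas attach with positive weight. -/
theorem attach_pos {U : Lvls K n} (hU : U.IsTree) (b : Fin n) (l : Fin (K + 1)) :
    0 < attach (ext U (U.rowOf b l)) := by
  have hn : (0 : ℝ) < n := by exact_mod_cast Fin.pos b
  have hl : (l : ℕ) ≤ K := Fin.is_le l
  rw [attach_rowOf hU]
  split_ifs with h
  · have e : ∀ a, ((((U.node a (l + 1)).card : ℝ) - mpar K (l + 1)) / n) /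
        (U.node a (l + 1)).card = (1 - mpar K (l + 1) * ((U.node a (l + 1)).card : ℝ)⁻¹) / n := by
      intro a
      have := node_pos hU a (Nat.succ_le_of_lt h)
      have h' : ((U.node a (l + 1)).card : ℝ) ≠ 0 := by exact_mod_cast this.ne'
      field_simp
    simp only [e, ← sum_div, ← sub_div]
    refine div_pos ?_ hn
    rw [sum_sub_distrib, ← mul_sum, sum_const, nsmul_eq_mul, mul_one]
    have h1 : (1 : ℝ) ≤ ∑ a ∈ U.node b l, ((U.node a (l + 1)).card : ℝ)⁻¹ := by
      calc (1 : ℝ) = ∑ a ∈ U.node b (l + 1), ((U.node a (l + 1)).card : ℝ)⁻¹ := by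
            rw [sum_congr rfl fun a ha => by rw [node_eq hU ha], sum_const, nsmul_eq_mul,
              mul_inv_cancel₀]
            exact_mod_cast (node_pos hU b (Nat.succ_le_of_lt h)).ne'
        _ ≤ _ := sum_le_sum_of_subset_of_nonneg (node_anti b (by omega))
            fun a _ _ => by positivity
    have := (mpar_mem K hl).1
    have := gapK_pos K
    have h2 := mpar_succ K (l : ℕ)
    nlinarith
  · rw [sub_zero]
    refine div_pos ?_ hn
    have := (mpar_mem K hl).2
    have := gapK_pos K
    have : (1 : ℝ) ≤ (U.node b l).card := by exact_mod_cast node_pos hU b hl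
    linarith

theorem treeW_succ {U : Lvls K (n + 1)} (hn : 1 ≤ n) (hU : U.IsTree) :
    treeW K (n + 1) U = treeW K n U.init * attach U := by
  obtain ⟨m, rfl⟩ := Nat.exists_eq_add_of_le' hn
  simp [treeW, hU]

theorem treeW_eq_zero : ∀ {n : ℕ} {U : Lvls K n}, ¬ U.IsTree → treeW K n U = 0
  | 0, U, h => absurd ⟨fun a => a.elim0, fun a => a.elim0, fun a => a.elim0⟩ h
  | 1, U, h => by
    simp only [treeW]
    rw [if_neg]
    intro h0
    refine h ⟨fun a => ?_, fun a b => ?_, fun a b c => ?_⟩
    · rw [Subsingleton.elim a 0, h0]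
    · rw [Subsingleton.elim a b]
    · rw [Subsingleton.elim a 0, Subsingleton.elim b 0, Subsingleton.elim c 0, min_self]
  | n + 2, U, h => by simp [treeW, h]

theorem exists_rowOf {U : Lvls K (n + 1)} (hn : 1 ≤ n) (hU : U.IsTree) :
    ∃ b : Fin n, ∃ l, ext U.init (U.init.rowOf b l) = U := by
  have : Nonempty (Fin n) := ⟨⟨0, hn⟩⟩
  obtain ⟨b, hb⟩ := Finite.exists_max fun x : Fin n => U x.castSucc (Fin.last n)
  exact ⟨b, _, eq_ext_rowOf hU rfl hb⟩

theorem treeW_pos : ∀ {n : ℕ} {U : Lvls K n}, U.IsTree → 0 < treeW K n U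
  | 0, U, _ => by simp [treeW]
  | 1, U, h => by simp [treeW, h.1 0]
  | n + 2, U, h => by
    rw [treeW_succ (Nat.succ_pos n) h]
    obtain ⟨b, l, e⟩ := exists_rowOf (Nat.succ_pos n) h
    refine mul_pos (treeW_pos h.init) ?_
    rw [← e]
    exact attach_pos h.init b l

theorem treeW_nonneg (U : Lvls K n) : 0 ≤ treeW K n U := by
  by_cases h : U.IsTree
  · exact (treeW_pos h).le
  · rw [treeW_eq_zero h]

open Classical in
/-- The probability that a new replica falls in the node at level `L` of replica `c`. -/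
theorem treeW_marg {U : Lvls K n} (hU : U.IsTree) (c : Fin n) {L : ℕ} (hL : L ≤ K) :
    ∑ U' : Lvls K (n + 1), (if U'.init = U ∧ L ≤ (U' c.castSucc (Fin.last n) : ℕ)
        then treeW K (n + 1) U' else 0) =
      treeW K n U * ((((U.node c L).card : ℝ) - mpar K L) / n) := by
  have hn : 1 ≤ n := Fin.pos c
  set φ : Fin n × Fin (K + 1) → Lvls K (n + 1) := fun p => ext U (U.rowOf p.1 p.2) with hφ
  set A : ℕ → Fin n → ℝ := fun l b =>
    ((((U.node b l).card : ℝ) - mpar K l) / n) / (U.node b l).card with hA
  -- the fibres of the parametrisation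
  have hfib : ∀ U', U'.IsTree → U'.init = U →
      ∑ p ∈ univ.filter (fun p => φ p = U'), ((U.node p.1 p.2).card : ℝ)⁻¹ = 1 := by
    intro U' hU' hi
    obtain ⟨b, l, e⟩ := exists_rowOf hn hU'
    rw [hi] at e
    have hset : univ.filter (fun p => φ p = U') = U.node b l ×ˢ {l} := by
      ext ⟨b', l'⟩
      simp only [mem_filter, mem_univ, true_and, mem_product, mem_singleton, hφ, ← e]
      constructor
      · intro h
        have hl : l' = l := by
          have h1 := sup_rowOf hU b' l'
          rw [h, sup_rowOf hU b l] at h1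
          exact Fin.ext h1.symm
        subst hl
        have h1 := filter_rowOf (U := U) b' l'
        rw [h, filter_rowOf (U := U) b l'] at h1
        exact ⟨by rw [h1]; exact mem_node_self hU b' (Fin.is_le _), rfl⟩
      · rintro ⟨hb, rfl⟩
        congr 1
        funext x
        have he := node_eq hU hb
        simp only [node, mem_filter, mem_univ, true_and] at hb
        have h1 := hU.2.2 b b' x
        have h2 := hU.2.2 b' b x
        rw [hU.2.1 b' b] at h2
        simp only [Fin.le_def, Fin.coe_min] at h1 h2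
        ext
        simp only [rowOf, Fin.coe_min]
        omega
    rw [hset, sum_product, sum_congr rfl fun a ha => by rw [sum_singleton, node_eq hU ha],
      sum_const, nsmul_eq_mul, mul_inv_cancel₀]
    exact_mod_cast (node_pos hU b (Fin.is_le _)).ne'
  -- change of variables
  have hchg : ∑ U' : Lvls K (n + 1), (if U'.init = U ∧ L ≤ (U' c.castSucc (Fin.last n) : ℕ)
        then treeW K (n + 1) U' else 0) =
      ∑ p : Fin n × Fin (K + 1), if L ≤ (U.rowOf p.1 p.2 c : ℕ) then
        treeW K n U * attach (φ p) * ((U.node p.1 p.2).card : ℝ)⁻¹ else 0 := by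
    rw [← sum_fiberwise univ φ]
    refine sum_congr rfl fun U' _ => ?_
    by_cases h : U'.IsTree ∧ U'.init = U
    · rw [sum_congr rfl (g := fun p => (if L ≤ (U' c.castSucc (Fin.last n) : ℕ) then
          treeW K n U * attach U' else 0) * ((U.node p.1 p.2).card : ℝ)⁻¹) fun p hp => by
        rw [mem_filter] at hp
        rw [← hp.2, ite_mul, zero_mul]
        simp [hφ], ← mul_sum, hfib U' h.1 h.2, mul_one]
      rw [treeW_succ hn h.1, h.2]
      by_cases hc : L ≤ (U' c.castSucc (Fin.last n) : ℕ) <;> simp [hc]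
    · rw [sum_eq_zero fun p hp => absurd (by
        rw [mem_filter] at hp
        exact hp.2 ▸ ⟨isTree_rowOf hU p.1 p.2, init_ext U _⟩) h]
      split_ifs with h'
      · exact treeW_eq_zero fun ht => h ⟨ht, h'.1⟩
      · rfl
  -- telescoping over the levels
  have hsum : ∀ l : Fin (K + 1), L ≤ (l : ℕ) →
      ∑ b ∈ U.node c L, attach (φ (b, l)) * ((U.node b l).card : ℝ)⁻¹ =
        (∑ b ∈ U.node c L, A l b) -
          if (l : ℕ) < K then ∑ b ∈ U.node c L, A (l + 1) b else 0 := by
    intro l hl
    simp only [hφ, attach_rowOf hU, sub_mul, sum_sub_distrib, ite_mul, zero_mul]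
    refine congrArg₂ _ (sum_congr rfl fun b _ => by simp [hA, div_eq_mul_inv]) ?_
    split_ifs with hlK
    · simp only [sum_mul]
      calc ∑ b ∈ U.node c L, ∑ a ∈ U.node b l,
            ((((U.node a (l + 1)).card : ℝ) - mpar K (l + 1)) / n) / (U.node a (l + 1)).card *
              ((U.node b l).card : ℝ)⁻¹
          = ∑ a ∈ U.node c L, ∑ b ∈ U.node a l, A (l + 1) a * ((U.node b l).card : ℝ)⁻¹ := by
            refine sum_comm' fun b a => ⟨fun h => ⟨(node_symm hU).1 h.2, ?_⟩, fun h => ⟨?_,
              (node_symm hU).2 h.1⟩⟩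
            · exact node_eq hU h.1 ▸ node_anti b hl h.2
            · exact node_eq hU h.2 ▸ node_anti a hl h.1
        _ = ∑ a ∈ U.node c L, A (l + 1) a := by
            refine sum_congr rfl fun a _ => ?_
            rw [sum_congr rfl fun b hb => by rw [node_eq hU hb], sum_const, nsmul_eq_mul,
              mul_left_comm, mul_inv_cancel₀, mul_one]
            exact_mod_cast (node_pos hU a (Fin.is_le l)).ne'
    · simp
  have htel : ∀ j, j ≤ K - L →
      ∑ l ∈ Icc (K - j) K, ((∑ b ∈ U.node c L, A l b) -
          if l < K then ∑ b ∈ U.node c L, A (l + 1) b else 0) = ∑ b ∈ U.node c L, A (K - j) b := by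
    intro j hj
    induction j with
    | zero => simp
    | succ j ih =>
      have e : Icc (K - (j + 1)) K = insert (K - (j + 1)) (Icc (K - j) K) := by
        ext x; simp only [mem_Icc, mem_insert]; omega
      rw [e, sum_insert (by simp; omega), ih (by omega), if_pos (by omega),
        show K - (j + 1) + 1 = K - j by omega]
      ring
  have hAL : ∑ b ∈ U.node c L, A L b = (((U.node c L).card : ℝ) - mpar K L) / n := by
    rw [sum_congr rfl fun b hb => by simp only [hA]; rw [node_eq hU hb], sum_const, nsmul_eq_mul,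
      mul_div_cancel₀]
    exact_mod_cast (node_pos hU c hL).ne'
  rw [hchg, Fintype.sum_prod_type_right, ← hAL]
  have : ∀ l : Fin (K + 1), (∑ b : Fin n, if L ≤ (U.rowOf b l c : ℕ) then
      treeW K n U * attach (φ (b, l)) * ((U.node b l).card : ℝ)⁻¹ else 0) =
      if L ≤ (l : ℕ) then treeW K n U * ((∑ b ∈ U.node c L, A l b) -
          if (l : ℕ) < K then ∑ b ∈ U.node c L, A (l + 1) b else 0) else 0 := by
    intro l
    by_cases hl : L ≤ (l : ℕ)
    · rw [if_pos hl, ← hsum l hl, mul_sum, ← sum_filter]
      refine sum_congr ?_ fun b _ => mul_assoc _ _ _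
      ext b
      have e := congrArg Fin.val (hU.2.1 c b)
      simp [rowOf, node]
      omega
    · rw [if_neg hl]
      exact sum_eq_zero fun b _ => if_neg (by simp only [rowOf, Fin.coe_min]; omega)
  simp only [this]
  rw [← sum_filter, ← mul_sum]
  congr 1
  have h0 := htel (K - L) le_rfl
  rw [Nat.sub_sub_self hL] at h0
  rw [← h0]
  refine sum_bij (fun l _ => (l : ℕ)) (fun l hl => ?_) (fun a _ b _ h => Fin.ext h)
    (fun l hl => ?_) fun l _ => rfl
  · simp only [mem_filter, mem_univ, true_and] at hl
    simp only [mem_Icc]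
    have := Fin.is_le l
    omega
  · simp only [mem_Icc] at hl
    exact ⟨⟨l, by omega⟩, by simp; omega, rfl⟩

end Vale.Agent.P168
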