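import Vale.Agent.P168.ArrBasic
import Vale.Agent.P168.Tel.Marg

/-!
P168, telescope: placed replicas have the prescribed levels, and one new replica integrates out of
an array mean.
-/

open Finset MeasureTheory

noncomputable section

namespace Vale.Agent.P168

variable {K n : ℕ}

/-- The label of replica `a` at coordinate `l` of its placement. -/
theorem place_fst (U : Lvls K n) (a : Fin n) (l : Fin K) :
    (place U a).1 l = (((U.node a (l + 1)).min.getD a : Fin n) : ℕ) := rfl

theorem place_mem {U : Lvls K n} (hU : U.IsTree) (a : Fin n) {l : ℕ} (hl : l ≤ K) :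
    (U.node a l).min.getD a ∈ U.node a l := by
  obtain ⟨b, hb⟩ := Finset.min_of_nonempty ⟨a, Lvls.mem_node_self hU a hl⟩
  rw [hb]
  exact Finset.mem_of_min hb

theorem com'_place {U : Lvls K n} (hU : U.IsTree) (a b : Fin n) :
    com' (place U a).1 (place U b).1 = (U a b : ℕ) := by
  have key : ∀ l : Fin K, (∀ i : Fin K, i ≤ l → (place U a).1 i = (place U b).1 i) ↔
      (l : ℕ) < (U a b : ℕ) := by
    intro l
    constructor
    · intro h
      have h1 := h l le_rfl
      simp only [place_fst] at h1
      have h2 := place_mem hU a (Nat.succ_le_of_lt l.isLt)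
      have h3 := place_mem hU b (Nat.succ_le_of_lt l.isLt)
      rw [← Fin.ext h1] at h3
      have hb : b ∈ U.node a (l + 1) := by
        rw [← Lvls.node_eq hU h2, Lvls.node_eq hU h3]
        exact Lvls.mem_node_self hU b (Nat.succ_le_of_lt l.isLt)
      simp only [Lvls.node, mem_filter, mem_univ, true_and] at hb
      omega
    · intro h i hi
      have hb : b ∈ U.node a (i + 1) := by
        simp only [Lvls.node, mem_filter, mem_univ, true_and]
        have : (i : ℕ) ≤ l := hi
        omega
      simp only [place_fst, Lvls.node_eq hU hb]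
      obtain ⟨c, hc⟩ := Finset.min_of_nonempty ⟨a, Lvls.mem_node_self hU a (Nat.succ_le_of_lt i.isLt)⟩
      rw [hc]; rfl
  unfold com'
  rw [Finset.filter_congr fun l _ => key l]
  have := Fin.is_le (U a b)
  calc (univ.filter fun l : Fin K => (l : ℕ) < (U a b : ℕ)).card
      = (Finset.range (U a b : ℕ)).card := Finset.card_bij (fun l _ => (l : ℕ))
        (fun l hl => by simpa using hl) (fun x _ y _ h => Fin.ext h) fun l hl => by
          simp only [mem_range] at hl
          exact ⟨⟨l, by omega⟩, by simpa using hl, rfl⟩
    _ = _ := card_range _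

theorem place_injective (U : Lvls K n) : Function.Injective (place U) := fun a b h => by
  have := congrArg Prod.snd h
  exact Fin.ext (by simpa [place] using this)

namespace Arr

variable (A : Arr K)

/-- Replicas placed along an injection keep the law of their own levels. -/
theorem integral_place {m : ℕ} {U : Lvls K m} {U0 : Lvls K n} (hU : U.IsTree) (hU0 : U0.IsTree)
    (χ : Fin n → Fin m) (hχ : Function.Injective χ) (h : ∀ a b, U (χ a) (χ b) = U0 a b)
    {g : (Fin n → ℕ → Bool) → ℝ} (hg : Measurable g) :
    ∫ σ, g (fun a => σ (place U (χ a))) ∂A.law = ∫ σ, g (fun a => σ (place U0 a)) ∂A.law :=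
  A.integral_congr (p := fun a => place U0 a) (q := fun a => place U (χ a))
    (fun a b => by rw [com'_place hU0, com'_place hU, h])
    (fun a b => by
      rw [(place_injective U0).eq_iff, (place_injective U).eq_iff, hχ.eq_iff])
    (τ := id) Function.injective_id hg

/-- A new replica in the node at level `L` of replica `c` integrates out. -/
theorem rep_marg (c : Fin n) {L : ℕ} (hL : L ≤ K) (G : Lvls K n → (Fin n → ℕ → Bool) → ℝ)
    (hG : ∀ U, Measurable (G U)) :
    A.rep (fun (U : Lvls K (n + 1)) σ =>
      if L ≤ (U c.castSucc (Fin.last n) : ℕ) then G U.init (fun a => σ a.castSucc) else 0) =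
    A.rep fun U σ => (((U.node c L).card : ℝ) - mpar K L) / n * G U σ := by
  classical
  simp only [rep]
  rw [← sum_fiberwise univ (Lvls.init : Lvls K (n + 1) → Lvls K n)]
  refine sum_congr rfl fun U _ => ?_
  rw [integral_const_mul]
  by_cases hU : U.IsTree
  · calc ∑ U' ∈ univ.filter (fun U' : Lvls K (n + 1) => U'.init = U), treeW K (n + 1) U' *
          ∫ σ, (if L ≤ (U' c.castSucc (Fin.last n) : ℕ) then
            G U'.init (fun a => σ (place U' a.castSucc)) else 0) ∂A.law
        = ∑ U' : Lvls K (n + 1), (if U'.init = U ∧ L ≤ (U' c.castSucc (Fin.last n) : ℕ) then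
            treeW K (n + 1) U' else 0) * ∫ σ, G U (fun a => σ (place U a)) ∂A.law := by
          rw [sum_filter]
          refine sum_congr rfl fun U' _ => ?_
          by_cases hi : U'.init = U
          · by_cases hc : L ≤ (U' c.castSucc (Fin.last n) : ℕ)
            · simp only [hi, hc, and_self, if_true]
              by_cases hU' : U'.IsTree
              · rw [A.integral_place hU' hU Fin.castSucc (Fin.castSucc_injective n)
                  (fun a b => by rw [← hi]; rfl) (hG U)]
              · simp [treeW_eq_zero hU']
            · simp [hi, hc]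
          · simp [hi]
      _ = _ := by rw [← sum_mul, treeW_marg hU c hL]; ring
  · rw [treeW_eq_zero hU, zero_mul]
    refine sum_eq_zero fun U' hU' => ?_
    rw [mem_filter] at hU'
    rw [treeW_eq_zero fun h => hU (hU'.2 ▸ h.init), zero_mul]

/-- A new replica at exact level `h < K` from replica `c` integrates out. -/
theorem rep_marg_eq (c : Fin n) {h : ℕ} (hh : h < K) (G : Lvls K n → (Fin n → ℕ → Bool) → ℝ)
    (hG : ∀ U, Measurable (G U)) :
    A.rep (fun (U : Lvls K (n + 1)) σ =>
      if (U c.castSucc (Fin.last n) : ℕ) = h then G U.init (fun a => σ a.castSucc) else 0) =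
    A.rep fun U σ => (gapK K + ((univ.filter fun x => (U c x : ℕ) = h).card : ℝ)) / n * G U σ := by
  classical
  have e : ∀ U : Lvls K n, ((U.node c h).card : ℝ) =
      (U.node c (h + 1)).card + ((univ.filter fun x => (U c x : ℕ) = h).card : ℝ) := by
    intro U
    rw [← Nat.cast_add, ← card_union_of_disjoint (disjoint_left.2 fun x hx hx' => by
      simp [Lvls.node] at hx hx'; omega)]
    congr 2
    ext x
    simp [Lvls.node]
    omega
  have h1 := A.rep_marg c hh.le G hG
  have h2 := A.rep_marg c (Nat.succ_le_of_lt hh) G hG
  simp only [rep] at h1 h2 ⊢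
  calc ∑ U : Lvls K (n + 1), treeW K (n + 1) U * ∫ σ, (if (U c.castSucc (Fin.last n) : ℕ) = h then
        G U.init (fun a => σ (place U a.castSucc)) else 0) ∂A.law
      = ∑ U : Lvls K (n + 1), (treeW K (n + 1) U * (∫ σ, (if h ≤ (U c.castSucc (Fin.last n) : ℕ)
          then G U.init (fun a => σ (place U a.castSucc)) else 0) ∂A.law) -
          treeW K (n + 1) U * ∫ σ, (if h + 1 ≤ (U c.castSucc (Fin.last n) : ℕ)
          then G U.init (fun a => σ (place U a.castSucc)) else 0) ∂A.law) := by
        refine sum_congr rfl fun U _ => ?_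
        rcases lt_trichotomy (U c.castSucc (Fin.last n) : ℕ) h with hlt | heq | hgt
        · simp [hlt.ne, show ¬ h ≤ (U c.castSucc (Fin.last n) : ℕ) by omega,
            show ¬ h + 1 ≤ (U c.castSucc (Fin.last n) : ℕ) by omega]
        · simp [heq]
        · simp [hgt.ne', hgt.le, show h + 1 ≤ (U c.castSucc (Fin.last n) : ℕ) by omega]
    _ = _ := by
        rw [sum_sub_distrib, h1, h2, ← sum_sub_distrib]
        refine sum_congr rfl fun U _ => ?_
        simp only [integral_const_mul]
        rw [e U, mpar_succ]
        ring

end Arr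

end Vale.Agent.P168
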