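import Vale.Agent.P168.Tel.Same

/-!
P168, telescope: a duo of branching tuples attached to a duo at the same level.
-/

open Finset MeasureTheory

noncomputable section

namespace Vale.Agent.P168.Tel

variable {K a h : ℕ} {L R s : Sh} {A : Arr K}

theorem com'_pth23_congr (hv : (Sh.node h L R).Valid K (a + 1)) (x y : Fin K → ℕ)
    (u v : Fin (L.size + R.size)) :
    com' (pth23 h L R x u) (pth23 h L R x v) = com' (pth23 h L R y u) (pth23 h L R y v) := by
  have hx : ∀ (w : Fin K → ℕ) i j, com' (pth L (put w h 2) i) (pth R (put w h 3) j) = h :=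
    fun w i j => com'_children hv.2.1 w (by norm_num : (2 : ℕ) ≠ 3)
      (le_com'_pth L _ hv.2.2.1 hv.2.1 i) (le_com'_pth R _ hv.2.2.2 hv.2.1 j)
  induction u using Fin.addCases <;> induction v using Fin.addCases <;>
    simp only [pth23, Fin.append_left, Fin.append_right]
  · exact com'_pth_congr L _ _ hv.2.2.1 _ _
  · rw [hx, hx]
  · rw [com'_comm, hx, com'_comm, hx]
  · exact com'_pth_congr R _ _ hv.2.2.2 _ _

/-- The levels from an old replica to the node of the second tuple. -/
theorem com'_old_xc (hah : a < h) (hhK : h ≤ K) {c : ℕ} (hc : a ≤ c) {w : Fin K → ℕ} :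
    (a + 1 ≤ com' w (put (fun _ => 0) a 0) → min (com' w (xc K a h c)) h = a) ∧
      (h ≤ com' w (put (fun _ => 0) a 1) → min (com' w (xc K a h c)) h = min c h) := by
  have h0 := com'_xc_zero (K := K) hah hhK c
  have h1 := com'_xc_one (K := K) hah hhK hc
  constructor
  · intro hw
    have a1 := com'_ultra (put (fun _ : Fin K => (0 : ℕ)) a 0) w (xc K a h c)
    have a2 := com'_ultra w (put (fun _ : Fin K => (0 : ℕ)) a 0) (xc K a h c)
    rw [com'_comm (put (fun _ : Fin K => (0 : ℕ)) a 0) w] at a1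
    omega
  · intro hw
    have a1 := com'_ultra (put (fun _ : Fin K => (0 : ℕ)) a 1) w (xc K a h c)
    have a2 := com'_ultra w (put (fun _ : Fin K => (0 : ℕ)) a 1) (xc K a h c)
    rw [com'_comm (put (fun _ : Fin K => (0 : ℕ)) a 1) w] at a1
    omega

theorem mean_node (hv : (Sh.node h L R).Valid K (a + 1)) (c : ℕ) :
    A.mean (Uat a (.node h L R) (xc K a h c)) =
      A.mean (Uat a (.node h L R) (put (fun _ => 0) a 1)) := by
  set t := Sh.node h L R
  have hah : a < h := hv.1
  have hhK : h < K := hv.2.1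
  have haK : a < K := hah.trans hhK
  have e : ∀ y : Fin K → ℕ, Uat a t y = spinProd fun i : Fin 2 × Fin (L.size + R.size) =>
      (pth23 h L R (![put (fun _ => 0) a 0, y] i.1) i.2, 0) := fun y => by
    funext σ
    show tupF 2 3 t _ σ * tupF 2 3 t y σ = _
    simp only [t, tupF_eq, spinProd, Fintype.prod_prod_type, Fin.prod_univ_two,
      Matrix.cons_val_zero, Matrix.cons_val_one]
  rw [e, e]
  refine mean_congr_paths ?_
  rintro ⟨i, u⟩ ⟨j, v⟩
  have hx : ∀ (y : Fin K → ℕ), com' (put (fun _ => 0) a 0) y = a → ∀ u v : Fin (L.size + R.size),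
      com' (pth23 h L R (put (fun _ => 0) a 0) u) (pth23 h L R y v) = a := by
    intro y hy u v
    obtain ⟨k, -, hk⟩ := le_com'_pth23 hv (put (fun _ : Fin K => (0 : ℕ)) a 0) u
    obtain ⟨k', -, hk'⟩ := le_com'_pth23 hv y v
    have b1 := com'_put_self (put (fun _ : Fin K => (0 : ℕ)) a 0) hhK.le k
    have b2 := com'_put_self y hhK.le k'
    have c1 := com'_ultra (pth23 h L R (put (fun _ => 0) a 0) u)
      (put (put (fun _ : Fin K => (0 : ℕ)) a 0) h k) (put (fun _ => 0) a 0)
    have c2 := com'_ultra (pth23 h L R y v) (put y h k') y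
    have h1 := com'_min_congr (pth23 h L R (put (fun _ : Fin K => (0 : ℕ)) a 0) u)
      (show a + 1 ≤ com' (pth23 h L R y v) y by omega)
    have h2 := com'_min_congr y
      (show a + 1 ≤ com' (pth23 h L R (put (fun _ => 0) a 0) u) (put (fun _ => 0) a 0) by omega)
    rw [com'_comm y (put (fun _ => 0) a 0), hy, com'_comm y] at h2
    omega
  fin_cases i <;> fin_cases j <;> simp only [Fin.zero_eta, Fin.mk_one, Fin.isValue,
    Matrix.cons_val_zero, Matrix.cons_val_one]
  · rw [hx _ (com'_xc_zero hah hhK.le c), hx _ (com'_put_put _ haK zero_ne_one)]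
  · rw [com'_comm, hx _ (com'_put_put _ haK zero_ne_one), com'_comm,
      hx _ (com'_xc_zero hah hhK.le c)]
  · exact com'_pth23_congr hv _ _ u v

/-- The leaf `u` of the copy `i` of a shape. -/
def cpN (a : ℕ) (t : Sh) : Fin 2 → Fin t.size → Fin (Sh.node a t t).size := cp t.size

/-- The first leaf of the copy `i`. -/
def first (a : ℕ) (t : Sh) (i : Fin 2) : Fin (Sh.node a t t).size := cpN a t i ⟨0, t.size_pos⟩

theorem old_top (S : Olds K a s) (i : Fin 2) (u : Fin s.size) :
    s.top K ≤ com' (pth (K := K) (Sh.node a s s) (fun _ => 0) (cpN a s i u)) (put (fun _ => 0) a i) := by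
  fin_cases i
  · show s.top K ≤ com' (Fin.append _ _ (Fin.castAdd s.size u)) _
    rw [Fin.append_left]
    exact le_com'_pth s _ S.valid.at_top S.valid.top_le u
  · show s.top K ≤ com' (Fin.append _ _ (Fin.natAdd s.size u)) _
    rw [Fin.append_right]
    exact le_com'_pth s _ S.valid.at_top S.valid.top_le u

theorem old_levels (S : Olds K a s) (i j : Fin 2) (u v : Fin s.size) :
    (i = j → s.top K ≤ com' (pth (K := K) (Sh.node a s s) (fun _ => 0) (cpN a s i u))
        (pth (Sh.node a s s) (fun _ => 0) (cpN a s j v))) ∧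
      (i ≠ j → com' (pth (K := K) (Sh.node a s s) (fun _ => 0) (cpN a s i u))
        (pth (Sh.node a s s) (fun _ => 0) (cpN a s j v)) = a) := by
  refine ⟨fun hij => ?_, fun hij => (com'_cp S.valid S.lt i j u v).trans (if_neg hij)⟩
  subst hij
  have h1 := old_top S i u
  have h2 := old_top S i v
  have h3 := com'_ultra (pth (K := K) (Sh.node a s s) (fun _ => 0) (cpN a s i u))
    (put (fun _ => 0) a i) (pth (Sh.node a s s) (fun _ => 0) (cpN a s i v))
  rw [com'_comm (put (fun _ : Fin K => (0 : ℕ)) a i)] at h3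
  omega

/-- One completion has the value of its level from the second copy. -/
theorem node_value (S : Olds K a s) (hv : (Sh.node h L R).Valid K (a + 1)) (htop : h < s.top K)
    {F : (Fin (Sh.node a s s).size → Bool) → ℝ} (hF : ∀ v, |F v| ≤ 1)
    (e : Equiv.Perm (Fin (Sh.node a (.node h L R) (.node h L R)).size)) {c0 c1 : Fin 2}
    (hc01 : c0 ≠ c1) {u0 u1 : Fin (Sh.node h L R).size}
    (hq : 1 < (Sh.node a (.node h L R) (.node h L R)).size)
    (he0 : e ⟨0, zero_lt_one.trans hq⟩ = cpN a _ c0 u0) (he1 : e ⟨1, hq⟩ = cpN a _ c1 u1) {j : ℕ}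
    {χ : Fin (Sh.node a (.node h L R) (.node h L R)).size → Fin ((Sh.node a s s).size + j)}
    {U : Lvls K ((Sh.node a s s).size + j)} (hU : U.IsTree)
    (hf : Fits (levs (pth (Sh.node a s s) fun _ => 0))
      (rel (patOf K (.node a (.node h L R) (.node h L R))) e) χ U)
    (hχ0 : χ ⟨0, zero_lt_one.trans hq⟩ = Fin.castAdd j (first a s 0)) :
    |A.pair (obsAt F fun b => place U (Fin.castAdd j b)) (spinProd fun y => place U (χ y)) -
        A.pair (obsAt F fun b => (pth (Sh.node a s s) (fun _ => 0) b, 0))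
          (Uat a (.node h L R) (xc K a h (U (χ ⟨1, hq⟩) (Fin.castAdd j (first a s 1)) : ℕ)))| ≤
      4 * A.half (.node h L R) := by
  classical
  set o := pth (K := K) (Sh.node a s s) fun _ => 0
  have hah : a < h := hv.1
  have hhK : h < K := hv.2.1
  have hT : (Sh.node a (Sh.node h L R) (Sh.node h L R)).Valid K a := ⟨le_rfl, S.lt, hv, hv⟩
  set z0 := first a s 0
  set b1 := first a s 1
  set σ : Equiv.Perm (Fin 2) := Equiv.swap 0 c0
  have hσ0 : σ 0 = c0 := Equiv.swap_apply_left _ _
  have hσ1 : σ 1 = c1 := by fin_cases c0 <;> fin_cases c1 <;> simp [σ] at hc01 ⊢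
  have hVcp : ∀ (i i' : Fin 2) (u v : Fin (Sh.node h L R).size),
      (patOf K (.node a (Sh.node h L R) (Sh.node h L R)) (cpN a (Sh.node h L R) i u) (cpN a (Sh.node h L R) i' v) : ℕ) =
        if i = i' then com' (pth (K := K) (Sh.node h L R) (fun _ => 0) u) (pth (Sh.node h L R) (fun _ => 0) v) else a :=
    fun i i' u v => (patOf_apply _ _ _).trans (com'_cp hv S.lt i i' u v)
  have hinner : ∀ u v : Fin (Sh.node h L R).size,
      h ≤ com' (pth (K := K) (Sh.node h L R) (fun _ => 0) u) (pth (Sh.node h L R) (fun _ => 0) v) := by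
    intro u v
    have h1 := le_com'_pth (Sh.node h L R) (fun _ : Fin K => (0 : ℕ)) hv.at_top hhK.le u
    have h2 := le_com'_pth (Sh.node h L R) (fun _ : Fin K => (0 : ℕ)) hv.at_top hhK.le v
    have := com'_ultra (pth (K := K) (Sh.node h L R) (fun _ => 0) u) (fun _ => 0) (pth (Sh.node h L R) (fun _ => 0) v)
    rw [com'_comm (fun _ : Fin K => (0 : ℕ))] at this
    simp only [Sh.top] at *
    omega
  set χ1 := χ ⟨1, hq⟩
  set c : ℕ := (U χ1 (Fin.castAdd j b1) : ℕ) with hcdef
  have hU0b : ∀ b b', (U (Fin.castAdd j b) (Fin.castAdd j b') : ℕ) = com' (o b) (o b') :=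
    fun b b' => by rw [hf.1]; rfl
  have h01 : (U (Fin.castAdd j z0) χ1 : ℕ) = a := by
    rw [← hχ0, hf.2, rel_apply, he0, he1, hVcp, if_neg hc01]
  have hzb' : (U (Fin.castAdd j z0) (Fin.castAdd j b1) : ℕ) = a := by
    rw [hU0b]; exact (old_levels S 0 1 _ _).2 zero_ne_one
  have hca : a ≤ c := by
    have h2 := hU.2.2 χ1 (Fin.castAdd j z0) (Fin.castAdd j b1)
    rw [hU.2.1 χ1 (Fin.castAdd j z0)] at h2
    simp only [Fin.le_def, Fin.coe_min] at h2
    omega
  set x : Fin 2 → Fin K → ℕ := ![put (fun _ => 0) a 0, xc K a h c]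
  have hx01 : com' (x 0) (x 1) = a := com'_xc_zero hah hhK.le c
  have hxa : ∀ i i' : Fin 2, i ≠ i' → com' (x i) (x i') = a := by
    intro i i' hii'
    fin_cases i <;> fin_cases i' <;> simp at hii' ⊢
    · exact hx01
    · rw [com'_comm]; exact hx01
  set p : Fin 2 × Fin (Sh.node h L R).size → Pt K := fun w => place U (χ (e.symm (cpN a (Sh.node h L R) (σ w.1) w.2)))
  have hUp : ∀ w w' : Fin 2 × Fin (Sh.node h L R).size,
      (U (χ (e.symm (cpN a (Sh.node h L R) (σ w.1) w.2))) (χ (e.symm (cpN a (Sh.node h L R) (σ w'.1) w'.2))) : ℕ) =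
        if w.1 = w'.1 then com' (pth (K := K) (Sh.node h L R) (fun _ => 0) w.2) (pth (Sh.node h L R) (fun _ => 0) w'.2)
        else a := by
    intro w w'
    rw [hf.2, rel_apply, e.apply_symm_apply, e.apply_symm_apply, hVcp]
    exact if_congr σ.injective.eq_iff rfl rfl
  have hval := A.value_le hv x (fun i i' hii' => (hxa i i' hii').trans_lt hah) hF (o := o)
    (o' := fun b => place U (Fin.castAdd j b)) (pth_injective S.node_valid _)
    ((place_injective U).comp (Fin.castAdd_injective _ _))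
    (fun b b' => by rw [com'_place hU, hU0b]) (p := p) ?_ ?_ ?_
    (fun b i k hk => com'_fresh_le (fun l => pth_le_one _ (fun _ => zero_le_one) b l) _ hhK hk)
  · rw [show (spinProd fun y => place U (χ y)) = spinProd p from ?_]
    · refine le_of_eq_of_le ?_ (hval.trans (le_of_eq ?_))
      · simp only [Fin.prod_univ_two]
        rfl
      · simp only [Arr.half]; push_cast; ring
    · funext τ
      have e2 : ∏ w : Fin 2 × Fin (Sh.node h L R).size, sgn (τ (p w)) =
          ∏ y : Fin ((Sh.node h L R).size + (Sh.node h L R).size), sgn (τ (place U (χ (e.symm y)))) := by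
        rw [Fintype.prod_prod_type, Equiv.prod_comp σ fun i => ∏ v : Fin (Sh.node h L R).size,
            sgn (τ (place U (χ (e.symm (cpN a (Sh.node h L R) i v))))), Fin.prod_univ_two, Fin.prod_univ_add]
        rfl
      simp only [spinProd]
      rw [e2]
      exact (e.symm.prod_comp fun y => sgn (τ (place U (χ y)))).symm
  · intro w w' hww
    have h1 := hUp w w'
    rw [place_injective U hww, hU.1, Fin.val_last] at h1
    by_contra hne'
    split_ifs at h1 with hw
    · have hu : w.2 ≠ w'.2 := fun e' => hne' (Prod.ext hw e')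
      have := (com'_pth_lt (fun _ : Fin K => (0 : ℕ)) hv hu).2
      omega
    · omega
  · intro w w'
    rw [com'_place hU, hUp]
    split_ifs with hw
    · rw [hw]; exact (com'_pth_congr (Sh.node h L R) _ _ hv _ _).symm
    · have h1 := le_com'_pth (Sh.node h L R) (x w.1) hv.at_top hhK.le w.2
      have h2 := le_com'_pth (Sh.node h L R) (x w'.1) hv.at_top hhK.le w'.2
      have a1 := com'_min_congr (pth (Sh.node h L R) (x w.1) w.2) h2
      have a2 := com'_min_congr (x w'.1) h1
      rw [com'_comm (x w'.1) (x w.1), hxa _ _ hw, com'_comm (x w'.1)] at a2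
      simp only [Sh.top] at *
      omega
  · rintro b ⟨i, u⟩
    obtain ⟨ib, ub, rfl⟩ : ∃ ib ub, b = cpN a s ib ub := exists_cp (k := s.size) b
    rw [com'_place hU]
    show min (U (Fin.castAdd j (cpN a s ib ub)) (χ (e.symm (cpN a (Sh.node h L R) (σ i) u))) : ℕ) h =
      min (com' (o (cpN a s ib ub)) (x i)) h
    set bb := Fin.castAdd j (cpN a s ib ub)
    set y := χ (e.symm (cpN a (Sh.node h L R) (σ i) u))
    have hsh : h ≤ s.top K := htop.le
    fin_cases i
    · have hrep : h ≤ (U y (Fin.castAdd j z0) : ℕ) := by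
        have := hUp (0, u) (0, u0)
        rw [if_pos rfl] at this
        simp only [hσ0, ← he0, e.symm_apply_apply, hχ0] at this
        simp only [y, Fin.zero_eta, Fin.isValue, hσ0]
        rw [this]
        exact hinner _ _
      have g1 := hU.2.2 bb (Fin.castAdd j z0) y
      have g2 := hU.2.2 bb y (Fin.castAdd j z0)
      rw [hU.2.1 (Fin.castAdd j z0) y] at g1
      simp only [Fin.le_def, Fin.coe_min] at g1 g2
      have g3 := com'_min_congr (o (cpN a s ib ub)) (hsh.trans (old_top S 0 ⟨0, s.size_pos⟩))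
      have g4 := hU0b (cpN a s ib ub) z0
      show min (U bb y : ℕ) h = min (com' (o (cpN a s ib ub)) (put (fun _ => 0) a 0)) h
      simp only [bb, z0, first, o, Fin.val_zero] at g1 g2 g3 g4 hrep ⊢
      omega
    · have hrep : h ≤ (U y χ1 : ℕ) := by
        have := hUp (1, u) (1, u1)
        rw [if_pos rfl] at this
        simp only [hσ1, ← he1, e.symm_apply_apply] at this
        simp only [y, χ1, Fin.mk_one, Fin.isValue, hσ1]
        rw [this]
        exact hinner _ _
      have g1 := hU.2.2 bb χ1 y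
      have g2 := hU.2.2 bb y χ1
      rw [hU.2.1 χ1 y] at g1
      have k1 := hU.2.2 bb (Fin.castAdd j z0) χ1
      have k2 := hU.2.2 (Fin.castAdd j z0) bb χ1
      have k3 := hU.2.2 bb (Fin.castAdd j b1) χ1
      have k4 := hU.2.2 (Fin.castAdd j b1) bb χ1
      rw [hU.2.1 (Fin.castAdd j z0) bb] at k2
      rw [hU.2.1 (Fin.castAdd j b1) χ1] at k3 k4
      rw [hU.2.1 (Fin.castAdd j b1) bb] at k4
      simp only [Fin.le_def, Fin.coe_min] at g1 g2 k1 k2 k3 k4
      show min (U bb y : ℕ) h = min (com' (o (cpN a s ib ub)) (xc K a h c)) h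
      have hxc := com'_old_xc (K := K) hah hhK.le hca (w := o (cpN a s ib ub))
      have htp := old_top S ib ub
      fin_cases ib
      · rw [hxc.1 (le_trans (Nat.succ_le_of_lt hah) (hsh.trans htp))]
        have h4 := (hU0b (cpN a s 0 ub) z0).trans_ge ((old_levels S 0 0 ub _).1 rfl)
        simp only [bb, Fin.zero_eta, Fin.isValue] at g1 g2 k1 k2 h4 ⊢
        omega
      · rw [hxc.2 (hsh.trans htp)]
        have h4 := (hU0b (cpN a s 1 ub) b1).trans_ge ((old_levels S 1 1 ub _).1 rfl)
        simp only [bb, Fin.mk_one, Fin.isValue] at g1 g2 k3 k4 h4 ⊢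
        omega

theorem sep_same (hv : (Sh.node h L R).Valid K (a + 1)) (S : Olds K a s)
    (hdis : Disjoint s.levels (Sh.node h L R).levels)
    (e : Equiv.Perm (Fin (Sh.node a (.node h L R) (.node h L R)).size)) :
    Sep (levs (pth (Sh.node a s s) fun _ => 0))
      (rel (patOf K (.node a (.node h L R) (.node h L R))) e) a
      (Sh.node a (.node h L R) (.node h L R)).size := by
  intro u hu v hv' huv b b' hbb
  have hT : (Sh.node a (Sh.node h L R) (Sh.node h L R)).Valid K a := ⟨le_rfl, S.lt, hv, hv⟩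
  rw [show rel (patOf K (Sh.node a (Sh.node h L R) (Sh.node h L R))) e u v = patOf K (Sh.node a (Sh.node h L R) (Sh.node h L R)) (e ⟨u, hu⟩) (e ⟨v, hv'⟩) from
    rel_apply _ e ⟨u, hu⟩ ⟨v, hv'⟩] at hbb ⊢
  have hne' : e ⟨u, hu⟩ ≠ e ⟨v, hv'⟩ := fun h' => huv (Fin.val_eq_of_eq (e.injective h'))
  rw [patOf_apply]
  have hb' := (congrArg Fin.val hbb).trans (patOf_apply _ _ _)
  have hm := com'_pth_mem (Sh.node a (Sh.node h L R) (Sh.node h L R)) (fun _ : Fin K => (0 : ℕ)) hT _ _ hne'
  simp only [Sh.levels, mem_insert, mem_union, or_self] at hm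
  rcases hm with hm | hm
  · exact hm
  rcases eq_or_ne b b' with rfl | hbne
  · have h1 := com'_pth_lt (fun _ : Fin K => (0 : ℕ)) hT hne'
    rw [← hb'] at h1
    simp [levs, com'_self] at h1
  · have h2 := com'_pth_mem (Sh.node a s s) (fun _ : Fin K => (0 : ℕ)) S.node_valid b b' hbne
    rw [show com' (pth (Sh.node a s s) (fun _ => 0) b) (pth (Sh.node a s s) (fun _ => 0) b') = _
      from hb'] at h2
    simp only [Sh.levels, mem_insert, mem_union, or_self] at h2
    rcases h2 with h2 | h2
    · exact h2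
    · exact absurd hm fun hm => disjoint_left.1 hdis h2 (by simpa [Sh.levels] using hm)

/-- Both tuples branch. -/
theorem same_node (hA : A.Ident) (S : Olds K a s) (hv : (Sh.node h L R).Valid K (a + 1))
    (hsize : s.size = (Sh.node h L R).size) (htop : h < s.top K)
    (hdis : Disjoint s.levels (Sh.node h L R).levels) :
    |br K a h (fun c => A.pair (duo s s (fun _ => 0) a 0 1) (Uat a (.node h L R) (xc K a h c))) +
        gapK K * A.mean (duo s s (fun _ => 0) a 0 1) *
          A.mean (Uat a (.node h L R) (put (fun _ => 0) a 1))| ≤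
      64 * (s.size : ℝ) ^ 2 * A.half (.node h L R) := by
  classical
  set t := Sh.node h L R
  have hah : a < h := hv.1
  have hhK : h < K := hv.2.1
  have hT : (Sh.node a t t).Valid K a := ⟨le_rfl, S.lt, hv, hv⟩
  obtain ⟨r, hr⟩ : ∃ r, (Sh.node a t t).size = r + 2 :=
    ⟨(Sh.node a t t).size - 2, by
      have := t.size_pos
      simp only [Sh.size] at this ⊢
      omega⟩
  set ε : ℝ := 4 * A.half t with hεdef
  have hε : 0 ≤ ε := mul_nonneg (by norm_num) (A.half_nonneg t)
  refine (same_finish hA hah S hr hv S.lt (E := (Sh.node a s s).size * (2 + 2 * r) * ε)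
    (fun c => mean_node hv c) ?_).trans ?_
  swap
  · have hN : ((Sh.node a s s).size : ℝ) = 2 * s.size := by simp [Sh.size]; ring
    have hr' : (r : ℝ) + 2 = 2 * s.size := by
      have : r + 2 = 2 * s.size := by
        rw [← hr, hsize]; simp only [t, Sh.size]; omega
      exact_mod_cast this
    rw [hN, hεdef, show (2 : ℝ) + 2 * r = 4 * s.size - 2 by linarith]
    have h1 : (0 : ℝ) ≤ (s.size : ℝ) * A.half t := mul_nonneg (Nat.cast_nonneg' _) (A.half_nonneg t)
    nlinarith
  intro F hF
  set o := pth (K := K) (Sh.node a s s) fun _ => 0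
  set U0 := levs o with hU0def
  have hU0 : U0.IsTree := levs_tree o
  set V := patOf K (.node a t t)
  have hV : Pat K (Sh.node a t t).size V := pat_patOf hT
  set b1 := first a s 1
  have hz : (⟨0, Olds.size_pos'⟩ : Fin (Sh.node a s s).size) = first a s 0 := Fin.ext rfl
  have hzb : (U0 (first a s 0) b1 : ℕ) = a := (old_levels S 0 1 _ _).2 zero_ne_one
  have hlev : ∀ b : Fin (Sh.node a s s).size, (U0 (first a s 0) b : ℕ) = a ↔
      ∃ u, b = cpN a s 1 u := by
    intro b
    obtain ⟨i, u, rfl⟩ : ∃ i u, b = cpN a s i u := exists_cp (k := s.size) b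
    fin_cases i
    · refine iff_of_false (fun e' => ?_) ?_
      · have := (old_levels S 0 0 ⟨0, s.size_pos⟩ u).1 rfl
        have e'' : com' (o (first a s 0)) (o (cpN a s 0 u)) = a := e'
        simp only [first, o] at e''
        omega
      · rintro ⟨v, e'⟩
        exact absurd (cp_inj e').1 (by decide)
    · exact iff_of_true ((old_levels S 0 1 _ u).2 zero_ne_one) ⟨u, rfl⟩
  have hcard : (univ.filter fun b => (U0 (first a s 0) b : ℕ) = a).card = s.size := by
    rw [show univ.filter (fun b => (U0 (first a s 0) b : ℕ) = a) = univ.image (cpN a s 1) from by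
        ext b; simp only [mem_filter, mem_univ, true_and, mem_image, hlev, eq_comm],
      card_image_of_injective _ (f := cpN a s 1) fun u v e' => (cp_inj e').2, card_univ, Fintype.card_fin]
  have hin : ∀ b, (U0 (first a s 0) b : ℕ) = a → h ≤ (U0 b b1 : ℕ) := fun b hb => by
    obtain ⟨u, rfl⟩ := (hlev b).1 hb
    exact htop.le.trans ((old_levels S 1 1 u _).1 rfl)
  set P : ℕ → ℝ := fun c => A.pair (obsAt F fun b => (o b, 0)) (Uat a t (xc K a h c))
  have hPh : ∀ c, h ≤ c → P c = P h := fun c hc => by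
    simp only [P, xc, show ¬ c ≤ a by omega, show ¬ h ≤ a by omega, show ¬ c < h by omega,
      lt_irrefl, if_false]
  have hq : 1 + ((Sh.node a t t).size - 1) = (Sh.node a t t).size := by omega
  refine identSum_close hA.1 hF Olds.size_pos' hU0 hV hq fun i₀ => ?_
  obtain ⟨i₁, hi₁⟩ := exists_opp hT i₀
  obtain ⟨c0, u0, hi0⟩ : ∃ i u, i₀ = cpN a t i u := exists_cp (k := t.size) i₀
  obtain ⟨c1, u1, hi1⟩ : ∃ i u, i₁ = cpN a t i u := exists_cp (k := t.size) i₁
  have hc01 : c0 ≠ c1 := by
    intro e'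
    have e'' := ((patOf_apply (K := K) (Sh.node a t t) i₀ i₁).symm.trans hi₁)
    rw [hi0, hi1, e'] at e''
    have h2 := (com'_cp hv S.lt c1 c1 u0 u1).symm.trans e''
    rw [if_pos rfl] at h2
    rcases eq_or_ne u0 u1 with hu | hu
    · rw [hu, com'_self] at h2; omega
    · have := (com'_pth_lt (fun _ : Fin K => (0 : ℕ)) hv hu).1
      omega
  have hne : i₀ ≠ i₁ := fun e' => hc01 (cp_inj (hi0.symm.trans (e'.trans hi1))).1
  obtain ⟨e, he0, he1⟩ := exists_perm₂ (by omega : 1 < (Sh.node a t t).size) hne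
  refine ⟨e, he0, ?_⟩
  have hV' : Pat K (Sh.node a t t).size (rel V e) := Pat.rel hV e
  have hV01 : (rel V e 0 1 : ℕ) = a := by
    show (rel V e (⟨0, by omega⟩ : Fin (Sh.node a t t).size)
      (⟨1, by omega⟩ : Fin (Sh.node a t t).size) : ℕ) = a
    rw [rel_apply, he0, he1, hi₁]
  have hclose := cmp_close (A := A) (U0 := U0) (V := rel V e) (F := F) hF
    (ζ := fun R => P (R b1 : ℕ)) (η := fun _ => ε * 1) (by omega : 1 < (Sh.node a t t).size) (r + 1)
    (show 1 + (r + 1) = (Sh.node a t t).size by omega) (good_χ₀ ⟨0, Olds.size_pos'⟩)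
    fun j χ _ hχ U hU hf => by
      have hχ0 : χ ⟨0, by omega⟩ = Fin.castAdd j (first a s 0) := by
        have hz' : typ χ ⟨0, by omega⟩ = some (⟨0, Olds.size_pos'⟩ : Fin (Sh.node a s s).size) :=
          (hχ 0).trans (dif_pos Olds.size_pos')
        unfold typ at hz'
        split_ifs at hz' with hlt
        rw [← hz]
        exact Fin.ext (Fin.val_eq_of_eq (Option.some.inj hz') : _)
      exact (node_value S hv htop hF e hc01 _ (he0.trans hi0) (he1.trans hi1) hU hf hχ0).trans
        (le_of_eq (mul_one ε).symm)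
  rw [cmp_congr _ _ (show 1 + (r + 1) = (Sh.node a t t).size by omega)]
  rw [Sg_root Olds.size_pos' (hV'.mono (by omega)) ⟨0, Olds.size_pos'⟩,
    root_sum hU0 (hV'.mono (by omega)) ⟨0, Olds.size_pos'⟩ b1 hah hhK.le hV01 hzb hcard hin P hPh,
    Sg_smul] at hclose
  have hb := mul_le_mul_of_nonneg_left
    (Sg_root_le (a := a) (r := r) Olds.size_pos' hU0 (hV'.mono (by omega))
      (fun u hu v hv' => sep_same hv S hdis e u (hu.trans_eq hr.symm) v (hv'.trans_eq hr.symm)) ⟨0, Olds.size_pos'⟩) hε
  exact (hclose.trans hb).trans (le_of_eq (by ring))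

end Vale.Agent.P168.Tel
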