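import Vale.Agent.P168.Core.Decouple
import Vale.Agent.P168.Tel.SameNode

/-!
P168, telescope: the limit arrays satisfy the telescoped identities.
-/

open Finset MeasureTheory

noncomputable section

namespace Vale.Agent.P168.Tel

variable {K : ℕ} {A : Arr K}

/-- Means over one replica. -/
theorem rep_single (A : Arr K) : ∀ {m : ℕ}, m = 1 → ∀ (g : Lvls K m → (Fin m → ℕ → Bool) → ℝ),
    (∀ U, Measurable (g U)) →
      A.rep g = ∫ σ, g (fun _ _ => Fin.last K) (fun _ => σ (fun _ => 0, 0)) ∂A.law
  | _, rfl, g, hg => by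
    classical
    unfold Arr.rep
    rw [Fintype.sum_eq_single (fun _ _ => Fin.last K : Lvls K 1) fun U hU => ?_]
    · simp only [treeW, if_true, one_mul]
      refine A.integral_congr (fun _ : Fin 1 => ((fun _ => 0, 0) : Pt K))
        (fun a : Fin 1 => place (fun _ _ => Fin.last K : Lvls K 1) a) (fun a b => ?_) (fun a b => ?_)
        (τ := id) Function.injective_id (hg _)
      · rw [Subsingleton.elim a b, com'_self, com'_self]
      · simp [Subsingleton.elim a b]
    · have : U 0 0 ≠ Fin.last K := fun h => hU (funext fun a => funext fun b => by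
        rw [Subsingleton.elim a 0, Subsingleton.elim b 0, h])
      simp [treeW, this]

/-- The spin of one replica does not depend on the configuration. -/
theorem pair_leaf (hA : A.Ident) :
    A.pair (tup Sh.leaf fun _ => 0) (tup Sh.leaf fun _ => 0) =
      A.mean (tup Sh.leaf fun _ => 0) * A.mean (tup Sh.leaf fun _ => 0) := by
  classical
  obtain ⟨c, hc⟩ := hA.2 1 le_rfl (fun _ => 1)
    ⟨fun _ _ => rfl, fun _ a b hab => absurd (Subsingleton.elim a b) hab⟩
  have key : ∀ G : Bool → ℝ, ∫ σ, G (σ ((fun _ => 0, 0) : Pt K) 1) *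
      sgn (σ (fun _ => 0, 0) 0) ∂A.law = c * ∫ σ, G (σ ((fun _ => 0, 0) : Pt K) 0) ∂A.law := by
    intro G
    have h := hc 1 zero_lt_one 1 (fun _ τ => G (τ 0 0))
      (fun _ σ τ h => by rw [h 0 0 zero_lt_one])
    have hm : Measurable fun τ : Fin 1 → ℕ → Bool => G (τ 0 0) :=
      (Measurable.of_discrete (f := G)).comp (by fun_prop)
    rw [rep_single A rfl _ (fun _ => hm)] at h
    rw [← h]
    unfold Arr.identSum
    rw [Fintype.sum_eq_single ({0} : Finset (Fin 1)) fun O hO => ?_]
    · rw [dif_pos ⟨mem_singleton_self _, le_rfl⟩, rep_single A (by simp) _ fun U => ?_]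
      · simp
      · exact (((Measurable.of_discrete (f := G)).comp (by fun_prop)).mul measurable_const).mul
          (Finset.measurable_prod _ fun i _ => (Measurable.of_discrete (f := sgn)).comp (by fun_prop))
    · refine dif_neg fun h' => hO ?_
      ext x
      simp [Subsingleton.elim x 0, show (0 : Fin 1) ∈ O from h'.1]
  have h1 := key (fun _ => 1)
  have h2 := key sgn
  have := A.prob
  simp only [one_mul, integral_const, probReal_univ, one_smul, mul_one] at h1
  rw [← h1] at h2
  rw [A.pair_comm (unit_tup Sh.leaf _).1 (unit_tup Sh.leaf _).1]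
  refine Eq.trans ?_ h2
  exact integral_congr_ae (.of_forall fun σ => mul_comm _ _)

theorem one_tel (hA : A.Ident) : A.fluctuation Sh.leaf = 0 := by
  show A.nrm (A.centred (tup Sh.leaf fun _ => 0)) = 0
  rw [Arr.nrm, A.pair_centred (unit_tup _ _).bdd (unit_tup _ _).bdd, pair_leaf hA, sub_self,
    Real.sqrt_zero]

theorem same_tel (hA : A.Ident) {a : ℕ} {s t : Sh} (ha : a < K) (hs : s.Valid K (a + 1))
    (ht : t.Valid K (a + 1)) (hsz : s.size = t.size)
    (hd : t = Sh.leaf ∨ (t.top K < s.top K ∧ Disjoint s.levels t.levels)) :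
    |br K a (t.top K)
        (fun c => A.pair (duo s s (fun _ => 0) a 0 1) (Uat a t (xc K a (t.top K) c))) +
        gapK K * A.mean (duo s s (fun _ => 0) a 0 1) *
          A.mean (Uat a t (put (fun _ => 0) a 1))| ≤
      (64 * (s.size : ℝ) ^ 2 + 4) * (gapK K + A.half t) := by
  have hg := gapK_pos K
  cases t with
  | leaf =>
    obtain rfl : s = Sh.leaf := by
      cases s with
      | leaf => rfl
      | node x L R =>
        have := L.size_pos
        have := R.size_pos
        simp only [Sh.size] at hsz
        omega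
    refine (same_leaf hA ha).trans ?_
    simp only [Arr.half, add_zero]
    nlinarith [sq_nonneg ((Sh.leaf.size : ℕ) : ℝ)]
  | node h L R =>
    rcases hd with hd | ⟨htop, hdis⟩
    · exact absurd hd (by simp)
    refine (same_node hA ⟨hs, ha⟩ ht hsz htop hdis).trans ?_
    have hh := A.half_nonneg (Sh.node h L R)
    nlinarith [mul_nonneg (mul_nonneg (sq_nonneg (s.size : ℝ)) hg.le) (by norm_num : (0 : ℝ) ≤ 64),
      hh, hg.le]

end Tel

/-- The limit arrays have the telescoped identities. -/
theorem telescope : Telescope := by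
  refine ⟨fun k => 64 * (k : ℝ) ^ 2 + 4, fun K _ A hA => ⟨Tel.one_tel hA, ?_, ?_⟩⟩
  · intro a s t ha hs ht hsz hd
    have hat : a < t.top K := (ht.le_top ha)
    have h := Tel.same_tel hA ha hs ht hsz hd
    unfold Tel.br at h
    simp only [Tel.xc, le_refl, if_true, lt_irrefl, if_false, show ¬ t.top K ≤ a by omega] at h
    rw [Finset.sum_congr rfl (g := fun c =>
        A.pair (duo s s (fun _ => 0) a 0 1) (Tel.Uat a t (put (put (fun _ => 0) a 1) c 2))) fun c hc => by
      rw [Finset.mem_Ioo] at hc
      rw [if_neg (show ¬ c ≤ a by omega), if_pos hc.2]] at h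
    exact h
  · intro a b L R L' R' hab hL hR hL' hR' hd
    exact Tel.below_tel hA hab hL hR hL' hR' hd (le_add_of_nonneg_left (by positivity))

end Vale.Agent.P168
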