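import Vale.Agent.P168.Tel.Shape

/-!
P168, telescope: a duo at a deeper level is uncorrelated with the duo above it.
-/

open Finset MeasureTheory

noncomputable section

namespace Vale.Agent.P168.Tel

variable {K n a b : ℕ} {L R L' R' : Sh} {A : Arr K}

/-- The product of all spins. -/
def allF (n : ℕ) : (Fin n → Bool) → ℝ := fun v => ∏ i, sgn (v i)

theorem allF_le (v : Fin n → Bool) : |allF n v| ≤ 1 := by
  simp [allF, Finset.abs_prod, sgn_abs]

theorem cmp_congr {i j q : ℕ} (G : (j : ℕ) → (Fin q → Fin (n + j)) → ℝ) {r r' : ℕ} (h : i + r = q)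
    (h' : i + r' = q) (χ : Fin i → Fin (n + j)) : Cmp G r h χ = Cmp G r' h' χ := by
  obtain rfl : r = r' := by omega
  rfl

theorem put_le_one {x : Fin K → ℕ} (hx : ∀ l, x l ≤ 1) {k : ℕ} (hk : k ≤ 1) (h : ℕ) :
    ∀ l, put x h k l ≤ 1 := fun l => by
  unfold put; split_ifs
  exacts [hx l, hk, zero_le_one]

theorem below_core (hA : A.Ident) (hab : a < b) (hb : b < K) (hL : L.Valid K (b + 1))
    (hR : R.Valid K (a + 1)) (hL' : L'.Valid K (b + 1)) (hR' : R'.Valid K (b + 1))
    (hd : Disjoint (L.levels ∪ R.levels) (L'.levels ∪ R'.levels)) :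
    |A.pair (duo L R (fun _ => 0) a 0 1) (duo L' R' (put (fun _ => 0) a 0) b 2 3) -
        A.mean (duo L R (fun _ => 0) a 0 1) *
          A.mean (duo L' R' (put (fun _ => 0) a 0) b 2 3)| ≤
      4 * (√(A.dev L' b) + √(A.dev R' b)) := by
  classical
  set z : Fin K → ℕ := fun _ => 0
  have haK : a < K := hab.trans hb
  have hS : (Sh.node a L R).Valid K a := ⟨le_rfl, haK, hL.mono (by omega), hR⟩
  have hT : (Sh.node b L' R').Valid K b := ⟨le_rfl, hb, hL', hR'⟩
  set o := pth (Sh.node a L R) z with hodef
  have hoinj : Function.Injective o := pth_injective hS z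
  set U0 := levs o with hU0def
  have hU0 : U0.IsTree := levs_tree o
  set m0 : Fin (Sh.node a L R).size := Fin.castAdd R.size ⟨0, L.size_pos⟩
  have hm0 : b + 1 ≤ com' (o m0) (put z a 0) := by
    have := le_com'_pth L (put z a 0) hL hb ⟨0, L.size_pos⟩
    simp only [hodef, m0, pth, Fin.append_left]
    exact this
  have hn : 0 < (Sh.node a L R).size := Fin.pos m0
  have hmark : (⟨0, hn⟩ : Fin (Sh.node a L R).size) = m0 := Fin.ext rfl
  set q := (Sh.node b L' R').size
  have hq2 : 2 ≤ q := Nat.add_le_add L'.size_pos R'.size_pos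
  obtain ⟨r, hr⟩ : ∃ r, q = r + 2 := ⟨q - 2, by omega⟩
  set V := patOf K (Sh.node b L' R')
  have hV : Pat K q V := pat_patOf hT
  -- levels of the pattern are unseen from the mark
  have hVb : ∀ u v : Fin q, u ≠ v → b ≤ (V u v : ℕ) ∧ (V u v : ℕ) ∈ insert b (L'.levels ∪ R'.levels) :=
    fun u v huv => by
      rw [patOf_apply]
      exact ⟨(com'_pth_lt _ hT huv).1, com'_pth_mem _ _ hT u v huv⟩
  have hsep : ∀ c (u v : Fin q), u ≠ v → U0 m0 c ≠ V u v := by
    intro c u v huv e
    obtain ⟨h1, h2⟩ := hVb u v huv
    have e' : com' (o m0) (o c) = V u v := congrArg Fin.val e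
    rcases eq_or_ne m0 c with rfl | hne
    · rw [com'_self] at e'
      have := hV.off _ u.isLt _ v.isLt (Fin.val_ne_of_ne huv)
      omega
    · have h3 := com'_pth_mem _ z hS m0 c hne
      rw [← hodef, e'] at h3
      simp only [Sh.levels, mem_insert, mem_union] at h2 h3
      rcases h3 with h3 | h3 | h3
      · omega
      · rcases h2 with h2 | h2
        · have := hL.levels_ge h3; omega
        · exact (disjoint_left.1 hd (mem_union_left _ h3)) (by simpa using h2)
      · rcases h2 with h2 | h2
        · induction c using Fin.addCases with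
          | left i =>
            simp only [hodef, m0, pth, Fin.append_left] at e'
            rcases eq_or_ne (⟨0, L.size_pos⟩ : Fin L.size) i with rfl | hi
            · exact hne rfl
            · have := (com'_pth_lt (put z a 0) hL hi).1
              omega
          | right i =>
            simp only [hodef, m0, pth, Fin.append_left, Fin.append_right, com'_halves hS] at e'
            omega
        · exact (disjoint_left.1 hd (mem_union_right _ h3)) (by simpa using h2)
  set x : Fin 1 → Fin K → ℕ := fun _ => put z a 0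
  set ε := 2 * (√(A.dev L' b) + √(A.dev R' b))
  set g : Obs K := duo L' R' (put z a 0) b 2 3
  set T0 := treeW K (Sh.node a L R).size U0
  have hp := gapK_pos K
  -- the identity for one test
  have key : ∀ F : (Fin (Sh.node a L R).size → Bool) → ℝ, (∀ v, |F v| ≤ 1) →
      |A.identSum hn (patFun q V) (fun U τ => if U = U0 then fv F τ else 0) -
        q * ((-1) * (-gapK K) ^ r * (gapK K * T0) * A.pair (obsAt F fun c => (o c, 0)) g)| ≤
      q * (gapK K ^ r * (gapK K * T0) * ε) := by
    intro F hF
    refine identSum_close hA.1 hF hn hU0 hV (by omega) fun i₀ => ?_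
    obtain ⟨i₁, hi₁⟩ : ∃ i₁ : Fin q, (V i₀ i₁ : ℕ) = b := exists_opp hT i₀
    have hne : i₀ ≠ i₁ := fun e => by
      rw [← e] at hi₁
      have := congrArg Fin.val (hV.diag _ i₀.isLt)
      rw [hi₁, Fin.val_last] at this
      omega
    obtain ⟨e, he0, he1⟩ := exists_perm₂ hq2 hne
    refine ⟨e, he0, ?_⟩
    have hV' : Pat K q (rel V e) := Pat.rel hV e
    have hV01 : ((rel V e) 0 1 : ℕ) = b := by
      show (rel V e (⟨0, by omega⟩ : Fin q) (⟨1, hq2⟩ : Fin q) : ℕ) = b
      rw [rel_apply, he0, he1, hi₁]
    set P := A.pair (obsAt F fun c => (o c, 0)) g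
    have hclose := cmp_close (A := A) (U0 := U0) (V := (rel V e)) (F := F) hF (ζ := fun _ => P)
      (η := fun _ => ε) hq2 (r + 1) (by omega : 1 + (r + 1) = q) (good_χ₀ (⟨0, hn⟩ : Fin _))
      fun j χ _ hχ U hU hfit => ?_
    swap
    · have hχ0 : χ ⟨0, by omega⟩ = Fin.castAdd j m0 := by
        have hz : typ χ ⟨0, by omega⟩ = some ⟨0, hn⟩ := (hχ 0).trans (dif_pos hn)
        unfold typ at hz
        split_ifs at hz with hlt
        exact Fin.ext (Fin.val_eq_of_eq (Option.some.inj hz) : _)
      have hval := A.value_le hT x (fun i j' h => absurd (Subsingleton.elim i j') h) hF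
        (o := o) (o' := fun c => place U (Fin.castAdd j c)) hoinj
        ((place_injective U).comp (Fin.castAdd_injective _ _))
        (fun c d => by rw [com'_place hU, hfit.1]; rfl)
        (p := fun u => place U (χ (e.symm u.2)))
        (fun u v huv => ?_) (fun u v => ?_) (fun c u => ?_)
        (fun c _ k hk => com'_fresh_le (fun l => pth_le_one _ (fun _ => zero_le_one) c l) _ hb hk)
      · rw [show (spinProd fun y => place U (χ y)) =
            spinProd fun u : Fin 1 × Fin q => place U (χ (e.symm u.2)) from ?_]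
        · refine le_of_eq_of_le ?_ (hval.trans (by simp [ε]))
          simp only [Fin.prod_univ_one]
          rfl
        · funext σ
          simp only [spinProd, Fintype.prod_prod_type, Fin.prod_univ_one]
          exact (e.symm.prod_comp fun y => sgn (σ (place U (χ y)))).symm
      · have := place_injective U huv
        refine Prod.ext (Subsingleton.elim _ _) ?_
        by_contra h
        have h' := hfit.2 (e.symm u.2) (e.symm v.2)
        rw [this, hU.1, rel_apply, e.apply_symm_apply, e.apply_symm_apply] at h'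
        have := hV.off _ u.2.isLt _ v.2.isLt (Fin.val_ne_of_ne h)
        rw [← h', Fin.val_last] at this
        omega
      · rw [com'_place hU, hfit.2, rel_apply, e.apply_symm_apply, e.apply_symm_apply, patOf_apply,
          com'_pth_congr _ z (put z a 0) hT]
      · have hb1 : b ≤ (U (Fin.castAdd j m0) (χ (e.symm u.2)) : ℕ) := by
          rw [← hχ0, hfit.2, rel_apply, e.apply_symm_apply, he0]
          rcases eq_or_ne i₀ u.2 with h | h
          · rw [h, hV.diag _ u.2.isLt, Fin.val_last]; omega
          · exact (hVb _ _ h).1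
        have h2 := hU.2.2 (Fin.castAdd j c) (Fin.castAdd j m0) (χ (e.symm u.2))
        have h3 := hU.2.2 (Fin.castAdd j c) (χ (e.symm u.2)) (Fin.castAdd j m0)
        rw [hU.2.1 (χ (e.symm u.2)) (Fin.castAdd j m0)] at h3
        simp only [Fin.le_def, Fin.coe_min] at h2 h3
        have h4 : (U (Fin.castAdd j c) (Fin.castAdd j m0) : ℕ) = com' (o c) (o m0) := by
          rw [hfit.1]; rfl
        have h5 := com'_min_congr (o c) hm0
        rw [com'_place hU]
        show min _ b = min (com' (o c) (put z a 0)) b
        omega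
    rw [cmp_congr _ _ (by omega : 1 + (r + 1) = q)]
    -- both sums at the root of the pattern
    have hnone : ∀ x < 2 + r, x ≠ 0 → ∀ c, U0 m0 c ≠ (rel V e) 0 x := by
      intro y hy hy0 c
      show U0 m0 c ≠ rel V e (⟨0, by omega⟩ : Fin q) (⟨y, by omega⟩ : Fin q)
      rw [rel_apply]
      exact hsep c _ _ fun h => hy0 (congrArg Fin.val (e.injective h)).symm
    have hcount : (univ.filter fun c => (U0 m0 c : ℕ) = b).card = 0 := by
      refine card_eq_zero.2 (filter_eq_empty_iff.2 fun c _ h => hnone 1 (by omega) one_ne_zero c ?_)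
      exact Fin.ext (h.trans hV01.symm)
    have hSg : ∀ (s c : ℝ), Sg U0 (rel V e) (fun _ => c) s (r + 1) (χ₀ ⟨0, hn⟩) =
        s * (s * gapK K) ^ r * (gapK K * T0) * c := by
      intro s c
      rw [Sg]
      change (∑ c', _) + Sg U0 (rel V e) _ s r (addNew (χ₀ _)) = _
      rw [sum_eq_zero fun c' _ => Sg_noFit r fun U _ hf => ?_, zero_add,
        Sg_none hn m0 r le_rfl (hV'.mono (by omega)) (good_χ₀ _).new.1 (by rw [← hmark]; rfl) hnone,
        wt_new (hV'.mono hq2)]
      · have h1 := sum_exact hU0 m0 hb
        rw [hcount, Nat.cast_zero, add_zero] at h1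
        have h2 : ∀ U' : Lvls K ((Sh.node a L R).size + 1),
            (if U'.init = U0 ∧ U' (Fin.castSucc ⟨0, hn⟩) (Fin.last _) = (rel V e) 0 1 then
              treeW K _ U' * c else 0) =
            c * (if U'.init = U0 ∧ (U' m0.castSucc (Fin.last _) : ℕ) = b then
              treeW K _ U' else 0) := fun U' => by
          rw [mul_ite, mul_zero, ← hmark]
          exact if_congr (and_congr_right fun _ =>
            ⟨fun h => (congrArg Fin.val h).trans hV01, fun h => Fin.ext (h.trans hV01.symm)⟩)
            (mul_comm _ _) rfl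
        rw [sum_congr rfl fun U' _ => h2 U', ← mul_sum, ← mul_assoc _ c, mul_comm _ c, mul_assoc c,
          h1]
        ring
      · have h1 := hf.2 0 1
        refine hnone 1 (by omega) one_ne_zero c' ?_
        rw [← hmark]
        exact (hf.1 _ _).symm.trans h1
    rw [hSg, hSg] at hclose
    simpa only [one_mul, one_pow, mul_assoc, neg_mul, neg_one_mul] using hclose
  have h1 := key (fun _ => 1) fun _ => le_of_eq abs_one
  have h2 := key (allF _) allF_le
  have h := ident_core hA hn (Fin.pos ⟨0, by omega⟩ : 1 ≤ q) hV allF_le h1 h2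
  rw [mean_place A _ hoinj] at h
  have hf : obsAt (allF _) (fun c => (o c, 0)) = duo L R z a 0 1 := (tup_eq (.node a L R) z).symm
  rw [hf, show obsAt (fun _ : Fin (Sh.node a L R).size → Bool => (1 : ℝ)) (fun c => (o c, 0)) =
      fun _ => 1 from rfl, A.pair_const 1 (unit_duo L' R' _ b 2 3).bdd, one_mul] at h
  have hT0 : 0 < T0 := treeW_pos hU0
  have e : (-1) * (-gapK K) ^ r * (gapK K * T0) * A.pair (duo L R z a 0 1) g -
      (-1) * (-gapK K) ^ r * (gapK K * T0) * A.mean g * A.mean (duo L R z a 0 1) =
      (-1) * (-gapK K) ^ r * (gapK K * T0) *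
        (A.pair (duo L R z a 0 1) g - A.mean (duo L R z a 0 1) * A.mean g) := by ring
  rw [e, abs_mul, abs_mul, abs_mul, abs_neg, abs_one, one_mul, abs_pow, abs_neg, abs_of_pos hp,
    abs_of_pos (mul_pos hp hT0), mul_left_comm 2] at h
  have := le_of_mul_le_mul_left h (by positivity)
  linarith

/-- The identity between a duo and a duo below it. -/
theorem below_tel (hA : A.Ident) (hab : a < b) (hL : L.Valid K (b + 1)) (hR : R.Valid K (a + 1))
    (hL' : L'.Valid K (b + 1)) (hR' : R'.Valid K (b + 1))
    (hd : Disjoint (L.levels ∪ R.levels) (L'.levels ∪ R'.levels)) {C : ℝ} (hC : 4 ≤ C) :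
    |A.pair (duo L R (fun _ => 0) a 0 1) (duo L' R' (put (fun _ => 0) a 0) b 2 3) -
        A.mean (duo L R (fun _ => 0) a 0 1) *
          A.mean (duo L' R' (put (fun _ => 0) a 0) b 2 3)| ≤
      C * (gapK K + √(A.dev L' b) + √(A.dev R' b)) := by
  have h0 := gapK_pos K
  have h1 := Real.sqrt_nonneg (A.dev L' b)
  have h2 := Real.sqrt_nonneg (A.dev R' b)
  rcases lt_or_ge b K with hb | hb
  · exact (below_core hA hab hb hL hR hL' hR' hd).trans (by nlinarith)
  · have leaf : ∀ {X : Sh}, X.Valid K (b + 1) → X = Sh.leaf := by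
      intro X hX
      cases X with
      | leaf => rfl
      | node h _ _ =>
        have := hX.1
        have := hX.2.1
        omega
    obtain rfl := leaf hL'
    obtain rfl := leaf hR'
    set g : Obs K := duo Sh.leaf Sh.leaf (put (fun _ => 0) a 0) b 2 3
    have hg : g = fun _ => 1 := funext fun σ => by
      have hput : ∀ (w : Fin K → ℕ) k, put w b k = w := fun w k => funext fun l => by
        rw [put_of_lt _ _ (lt_of_lt_of_le l.isLt hb)]
      simp only [g, duo, tup, hput, sgn]
      split_ifs <;> norm_num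
    rw [hg, A.pair_comm (unit_duo L R _ a 0 1).1 measurable_const,
      A.pair_const 1 (unit_duo L R _ a 0 1).bdd]
    have hm : A.mean (fun _ : Pt K → Bool => (1 : ℝ)) = 1 := by
      have := A.prob
      simp [Arr.mean]
    rw [hm]
    simp only [one_mul, mul_one, sub_self, abs_zero]
    positivity

end Vale.Agent.P168.Tel
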