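import Vale.Agent.P168.Tel.Sums
import Vale.Agent.P168.Tel.Step

/-!
P168, telescope: the identity as a sum over the assignments of the leaves of a pattern.
-/

open Finset MeasureTheory

noncomputable section

namespace Vale.Agent.P168.Tel

variable {K n i j q : ℕ} (A : Arr K) (U0 : Lvls K n) (V : ℕ → ℕ → Fin (K + 1))
  (f₀ : (Fin n → ℕ → Bool) → ℝ)

/-- The kind of each leaf: an old replica or a new one. -/
def typ (χ : Fin i → Fin (n + j)) : Fin i → Option (Fin n) :=
  fun x => if h : (χ x : ℕ) < n then some ⟨χ x, h⟩ else none

/-- The new replicas are in bijection with the leaves of new kind. -/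
def Good (χ : Fin i → Fin (n + j)) : Prop :=
  Cov χ ∧ ∀ x y, n ≤ (χ x : ℕ) → χ x = χ y → x = y

open Classical in
/-- The signed term of an assignment in the identity. -/
def term (χ : Fin q → Fin (n + j)) : ℝ :=
  (-1) ^ j * (n.ascFactorial j : ℝ) * A.rep fun (U : Lvls K (n + j)) σ =>
    if Fits U0 V χ U then
      f₀ (fun a i => σ (Fin.castAdd j a) (i + 1)) * ∏ x, sgn (σ (χ x) 0)
    else 0

/-- The sum of a functional over all completions. -/
def Cmp (F : (j : ℕ) → (Fin q → Fin (n + j)) → ℝ) :
    (r : ℕ) → {i j : ℕ} → i + r = q → (Fin i → Fin (n + j)) → ℝ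
  | 0, _, j, h, χ => F j fun x => χ ⟨x, by omega⟩
  | r + 1, i, j, h, χ =>
      (∑ b : Fin n, Cmp F r (by omega : i + 1 + r = q) (Fin.snoc χ (Fin.castAdd j b))) +
        Cmp F r (by omega : i + 1 + r = q) (addNew χ)

open Classical in
/-- The term of an assignment of kinds. -/
def termT (φ : Fin q → Option (Fin n)) : ℝ :=
  term A U0 V f₀ (j := Fintype.card {x // φ x = none}) fun x =>
    if h : φ x = none then Fin.natAdd n (Fintype.equivFin _ ⟨x, h⟩)
    else Fin.castAdd _ ((φ x).get (Option.isSome_iff_ne_none.2 h))

variable {A U0 V f₀}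

open Classical in
theorem measurable_body (hf : Measurable f₀) (χ : Fin q → Fin (n + j)) (U : Lvls K (n + j)) :
    Measurable fun σ : Fin (n + j) → ℕ → Bool =>
      if Fits U0 V χ U then
        f₀ (fun a i => σ (Fin.castAdd j a) (i + 1)) * ∏ x, sgn (σ (χ x) 0) else 0 := by
  classical
  by_cases h : Fits U0 V χ U
  · simp only [if_pos h]
    refine (hf.comp (by fun_prop)).mul (Finset.measurable_prod _ fun x _ => ?_)
    exact (Measurable.of_discrete (f := sgn)).comp (by fun_prop)
  · simp only [if_neg h]; exact measurable_const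

theorem term_congr (hA : A.RepSym) (hn : 0 < n) (hf : Measurable f₀) {χ χ' : Fin q → Fin (n + j)}
    (h : Good χ) (h' : Good χ') (ht : typ χ = typ χ') :
    term A U0 V f₀ χ = term A U0 V f₀ χ' := by
  classical
  have hold : ∀ x, (χ' x : ℕ) < n → χ x = χ' x := by
    intro x hx
    have := congrFun ht x
    simp only [typ, dif_pos hx] at this
    split_ifs at this with h1
    exact Fin.ext (by simpa [Fin.ext_iff] using this)
  have hnew : ∀ x, n ≤ (χ' x : ℕ) → n ≤ (χ x : ℕ) := by
    intro x hx
    by_contra hc
    have := congrFun ht x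
    simp [typ, not_le.1 hc, not_lt.2 hx] at this
  set p : Fin (n + j) → Fin (n + j) := fun z =>
    if hz : (z : ℕ) < n then z else χ (h'.1 z (not_lt.1 hz)).choose with hp
  have hpχ : ∀ x, p (χ' x) = χ x := by
    intro x
    by_cases hx : (χ' x : ℕ) < n
    · simp only [hp, dif_pos hx, hold x hx]
    · simp only [hp, dif_neg hx]
      congr 1
      have e := (h'.1 (χ' x) (not_lt.1 hx)).choose_spec
      exact (h'.2 x _ (not_lt.1 hx) e.symm).symm
  have hpinj : Function.Injective p := by
    intro z w hzw
    by_cases hz : (z : ℕ) < n <;> by_cases hw : (w : ℕ) < n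
    · simpa [hp, hz, hw] using hzw
    · simp only [hp, dif_pos hz, dif_neg hw] at hzw
      have e := (h'.1 w (not_lt.1 hw)).choose_spec
      have := hnew _ (le_of_le_of_eq (not_lt.1 hw) (congrArg Fin.val e.symm))
      rw [← hzw] at this
      omega
    · simp only [hp, dif_neg hz, dif_pos hw] at hzw
      have e := (h'.1 z (not_lt.1 hz)).choose_spec
      have := hnew _ (le_of_le_of_eq (not_lt.1 hz) (congrArg Fin.val e.symm))
      rw [hzw] at this
      omega
    · simp only [hp, dif_neg hz, dif_neg hw] at hzw
      have ez := (h'.1 z (not_lt.1 hz)).choose_spec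
      have ew := (h'.1 w (not_lt.1 hw)).choose_spec
      have := h.2 _ _ (hnew _ (le_of_le_of_eq (not_lt.1 hz) (congrArg Fin.val ez.symm))) hzw
      rw [← ez, ← ew, this]
  set π : Equiv.Perm (Fin (n + j)) := Equiv.ofBijective p
    (Finite.injective_iff_bijective.1 hpinj) with hπ
  have hπc : ∀ a, π (Fin.castAdd j a) = Fin.castAdd j a := fun a => by
    show p _ = _
    simp [hp]
  have hπχ : ∀ x, π (χ' x) = χ x := hpχ
  unfold term
  congr 1
  rw [← hA (n + j) (by omega) π _ fun U => measurable_body hf χ' U]
  congr 1
  funext U σ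
  simp only [hπc, hπχ]
  refine if_congr ?_ rfl rfl
  simp only [Fits, hπc, hπχ]

theorem Good.card_none {χ : Fin i → Fin (n + j)} (h : Good χ) :
    Fintype.card {x // typ χ x = none} = j := by
  classical
  have hn : ∀ x, typ χ x = none ↔ n ≤ (χ x : ℕ) := fun x => by
    simp only [typ]; split_ifs with h1 <;> simp <;> omega
  let g : {x // typ χ x = none} → Fin j := fun x => ⟨(χ x : ℕ) - n, by
    have := (hn _).1 x.2; omega⟩
  have hg : Function.Bijective g := by
    refine ⟨fun x y hxy => Subtype.ext (h.2 _ _ ((hn _).1 x.2) (Fin.ext ?_)), fun z => ?_⟩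
    · have := (hn _).1 x.2
      have := (hn _).1 y.2
      simp [g, Fin.ext_iff] at hxy
      omega
    · obtain ⟨k, hk⟩ := h.1 (Fin.natAdd n z) (by simp)
      exact ⟨⟨k, (hn k).2 (by simp [hk])⟩, Fin.ext (by simp [g, hk])⟩
  rw [Fintype.card_of_bijective hg, Fintype.card_fin]

theorem term_eq_termT (hA : A.RepSym) (hn : 0 < n) (hf : Measurable f₀)
    {χ : Fin q → Fin (n + j)} (h : Good χ) : term A U0 V f₀ χ = termT A U0 V f₀ (typ χ) := by
  classical
  suffices ∀ φ, typ χ = φ → term A U0 V f₀ χ = termT A U0 V f₀ φ from this _ rfl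
  intro φ hφ
  have hcard := h.card_none
  rw [hφ] at hcard
  subst hcard
  refine term_congr hA hn hf h ⟨fun z hz => ?_, fun x y hx hxy => ?_⟩ ?_
  · set w : Fin (Fintype.card {x // φ x = none}) := ⟨(z : ℕ) - n, by omega⟩
    refine ⟨((Fintype.equivFin _).symm w).1, ?_⟩
    simp only [dif_pos ((Fintype.equivFin _).symm w).2, Subtype.coe_eta, Equiv.apply_symm_apply]
    exact Fin.ext (by simp [w]; omega)
  · by_cases hx' : φ x = none <;> by_cases hy' : φ y = none
    · simp only [dif_pos hx', dif_pos hy'] at hxy
      have := congrArg Subtype.val ((Fintype.equivFin _).injective ((Fin.natAdd_injective _ _) hxy))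
      exact this
    · simp only [dif_pos hx', dif_neg hy'] at hxy
      simp [Fin.ext_iff] at hxy
      omega
    all_goals
      simp only [dif_neg hx', Fin.val_castAdd] at hx
      omega
  · rw [hφ]
    funext x
    by_cases hx : φ x = none
    · simp [typ, hx]
    · obtain ⟨b, hb⟩ := Option.ne_none_iff_exists'.1 hx
      simp [typ, hb]

theorem Good.old {χ : Fin i → Fin (n + j)} (h : Good χ) (b : Fin n) :
    Good (Fin.snoc χ (Fin.castAdd j b)) := by
  refine ⟨h.1.old b, fun x y hx hxy => ?_⟩
  induction x using Fin.lastCases with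
  | last => simp at hx; omega
  | cast x =>
    induction y using Fin.lastCases with
    | last => simp at hx hxy; rw [hxy] at hx; simp at hx; omega
    | cast y => simp at hx hxy; rw [h.2 x y hx hxy]

theorem Good.new {χ : Fin i → Fin (n + j)} (h : Good χ) : Good (addNew χ) := by
  refine ⟨h.1.new, fun x y hx hxy => ?_⟩
  induction x using Fin.lastCases with
  | last =>
    induction y using Fin.lastCases with
    | last => rfl
    | cast y =>
      simp [addNew, Fin.ext_iff] at hxy
      have := (χ y).isLt
      omega
  | cast x =>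
    induction y using Fin.lastCases with
    | last =>
      simp [addNew, Fin.ext_iff] at hxy
      have := (χ x).isLt
      omega
    | cast y =>
      simp [addNew, Fin.ext_iff] at hx hxy
      rw [h.2 x y hx (Fin.ext hxy)]

theorem typ_old (χ : Fin i → Fin (n + j)) (b : Fin n) :
    typ (Fin.snoc χ (Fin.castAdd j b)) = Fin.snoc (typ χ) (some b) := by
  funext x
  induction x using Fin.lastCases <;> simp [typ]

theorem typ_new (χ : Fin i → Fin (n + j)) :
    typ (addNew χ) = Fin.snoc (typ χ) none := by
  funext x
  induction x using Fin.lastCases <;> simp [typ, addNew]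

/-- Completions run over all extensions of the kinds. -/
theorem Cmp_term (hA : A.RepSym) (hn : 0 < n) (hf : Measurable f₀) :
    ∀ (r : ℕ) {i j : ℕ} (h : i + r = q) {χ : Fin i → Fin (n + j)}, Good χ →
    Cmp (fun _ χ => term A U0 V f₀ χ) r h χ =
      ∑ ψ : Fin r → Option (Fin n),
        termT A U0 V f₀ fun x : Fin q => if hx : (x : ℕ) < i then typ χ ⟨x, hx⟩
          else ψ ⟨x - i, by omega⟩
  | 0, i, j, h, χ, hg => by
    obtain rfl : i = q := by omega
    rw [Cmp, term_eq_termT hA hn hf hg, Fintype.sum_unique]
    congr 1
    funext x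
    simp [x.isLt]
  | r + 1, i, j, h, χ, hg => by
    rw [Cmp, Finset.sum_congr rfl fun b _ => Cmp_term hA hn hf r (by omega) (hg.old b),
      Cmp_term hA hn hf r (by omega) hg.new, ← Equiv.sum_comp (Fin.consEquiv fun _ => Option (Fin n)),
      Fintype.sum_prod_type, Fintype.sum_option, add_comm]
    simp only [typ_old, typ_new]
    refine congrArg₂ (· + ·) ?_ (sum_congr rfl fun b _ => ?_)
    all_goals
      refine sum_congr rfl fun ψ _ => congrArg _ (funext fun x => ?_)
      rcases lt_trichotomy (x : ℕ) i with hx | hx | hx
      · simp only [hx, show (x : ℕ) < i + 1 by omega, dif_pos]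
        exact Fin.snoc_castSucc (α := fun _ => Option (Fin n)) _ _ ⟨x, hx⟩
      · simp [hx, Fin.consEquiv, show (⟨i, Nat.lt_succ_self i⟩ : Fin (i + 1)) = Fin.last i from rfl]
      · simp only [show ¬ (x : ℕ) < i by omega, show ¬ (x : ℕ) < i + 1 by omega, dif_neg,
          not_false_iff, Fin.consEquiv, Equiv.coe_fn_mk]
        rw [show (⟨(x : ℕ) - i, by omega⟩ : Fin (r + 1)) = Fin.succ ⟨(x : ℕ) - (i + 1), by omega⟩
          from Fin.ext (by simp; omega), Fin.cons_succ]

open Classical in
/-- The symmetrised indicator of a pattern. -/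
def patFun (q : ℕ) (V : ℕ → ℕ → Fin (K + 1)) (U : Lvls K q) : ℝ :=
  ∑ e : Equiv.Perm (Fin q), if ∀ x y, U (e x) (e y) = V x y then 1 else 0

theorem patFun_shape (hV : Pat K q V) : Arr.ShapeFun (patFun q V) := by
  classical
  refine ⟨fun e U => ?_, fun U a b hab h => ?_⟩
  · unfold patFun
    rw [← Equiv.sum_comp (Equiv.mulLeft e⁻¹)]
    simp [Equiv.Perm.mul_apply]
  · refine sum_eq_zero fun e _ => if_neg fun hc => ?_
    have := hc (e.symm a) (e.symm b)
    simp only [Equiv.apply_symm_apply, h] at this
    have h1 := hV.off _ (e.symm a).isLt _ (e.symm b).isLt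
      fun h' => hab (e.symm.injective (Fin.ext h'))
    rw [← this] at h1
    simp at h1

theorem termT_eq_zero {φ : Fin q → Option (Fin n)} (hU0 : U0.IsTree) (hV : Pat K q V) {x y : Fin q}
    (hxy : x ≠ y) {b : Fin n} (hx : φ x = some b) (hy : φ y = some b) :
    termT A U0 V f₀ φ = 0 := by
  classical
  unfold termT term Arr.rep
  refine mul_eq_zero_of_right _ (sum_eq_zero fun U _ => ?_)
  beta_reduce
  split_ifs with hf
  swap
  · simp
  exfalso
  have h1 := hf.2 x y
  simp only [hx, hy, reduceCtorEq, dif_neg, not_false_iff, Option.get_some, hf.1, hU0.1] at h1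
  have h2 := hV.off x x.isLt y y.isLt (Fin.val_ne_of_ne hxy)
  rw [← h1] at h2
  simp at h2

open Classical in
/-- The identity for a pattern is the sum over kinds with the mark chosen. -/
theorem identSum_eq (hA : A.RepSym) (hn : 0 < n) (hU0 : U0.IsTree) (hV : Pat K q V)
    (hf : Measurable f₀) (hbound : ∃ B, ∀ σ : Fin n → ℕ → Bool, |f₀ σ| ≤ B) :
    A.identSum hn (patFun q V) (fun U σ => if U = U0 then f₀ σ else 0) =
      ∑ i₀ : Fin q, ∑ φ ∈ univ.filter (fun φ : Fin q → Option (Fin n) => φ i₀ = some ⟨0, hn⟩),
        termT A U0 V f₀ φ := by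
  set z : Fin n := ⟨0, hn⟩
  have hterm : ∀ (O : Finset (Fin n)) (h : O.card ≤ q) (e : Equiv.Perm (Fin q)),
      Good (fun x => Arr.pick O h (e x)) := by
    intro O h e
    refine ⟨fun w hw => ⟨e.symm ⟨O.card + ((w : ℕ) - n), by omega⟩, ?_⟩, fun x y hx hxy => ?_⟩
    · simp only [Equiv.apply_symm_apply, Arr.pick]
      rw [dif_neg (by omega)]
      exact Fin.ext (by simp; omega)
    · refine e.injective (Fin.ext ?_)
      simp only [Arr.pick] at hx hxy
      split_ifs at hx hxy with h1 h2 <;> simp [Fin.ext_iff] at hx hxy <;> omega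
  -- expand the symmetrised indicator
  have hexp : A.identSum hn (patFun q V) (fun U σ => if U = U0 then f₀ σ else 0) =
      ∑ p ∈ univ.filter (fun p : Finset (Fin n) × Equiv.Perm (Fin q) => z ∈ p.1 ∧ p.1.card ≤ q),
        if h : p.1.card ≤ q then
          (((q - p.1.card).factorial : ℝ))⁻¹ * term A U0 V f₀ (fun x => Arr.pick p.1 h (p.2 x))
        else 0 := by
    rw [sum_filter, Fintype.sum_prod_type]
    unfold Arr.identSum
    refine sum_congr rfl fun O _ => ?_
    by_cases h : z ∈ O ∧ O.card ≤ q
    swap
    · rw [dif_neg h]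
      simp [h]
    rw [dif_pos h]
    simp only [h, and_self, if_true]
    have hrep : ∀ (g : Equiv.Perm (Fin q) → Lvls K (n + (q - O.card)) →
        (Fin (n + (q - O.card)) → ℕ → Bool) → ℝ),
        (∀ e U, Integrable (fun σ => g e U fun a => σ (place U a)) A.law) →
        A.rep (fun U σ => ∑ e, g e U σ) = ∑ e, A.rep (g e) := by
      intro g hg
      simp only [Arr.rep]
      rw [sum_comm]
      refine sum_congr rfl fun U _ => ?_
      rw [integral_finsetSum _ fun e _ => hg e U, mul_sum]
    have := A.prob
    have hkey : ∀ (U : Lvls K (n + (q - O.card))) (σ : Fin (n + (q - O.card)) → ℕ → Bool),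
        (if (fun a b => U (Fin.castAdd _ a) (Fin.castAdd _ b)) = U0 then
            f₀ (fun a i => σ (Fin.castAdd _ a) (i + 1)) else 0) *
          patFun q V (fun i k => U (Arr.pick O h.2 i) (Arr.pick O h.2 k)) *
          ∏ i, sgn (σ (Arr.pick O h.2 i) 0) =
        ∑ e : Equiv.Perm (Fin q), if Fits U0 V (fun x => Arr.pick O h.2 (e x)) U then
          f₀ (fun a i => σ (Fin.castAdd _ a) (i + 1)) *
            ∏ x, sgn (σ (Arr.pick O h.2 (e x)) 0) else 0 := by
      intro U σ
      rw [patFun, mul_sum, sum_mul]
      refine sum_congr rfl fun e _ => ?_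
      rw [Equiv.prod_comp e fun i => sgn (σ (Arr.pick O h.2 i) 0)]
      have hiff : Fits U0 V (fun x => Arr.pick O h.2 (e x)) U ↔
          (fun a b => U (Fin.castAdd _ a) (Fin.castAdd _ b)) = U0 ∧
            ∀ x y, U (Arr.pick O h.2 (e x)) (Arr.pick O h.2 (e y)) = V x y :=
        and_congr ⟨fun h' => funext fun a => funext fun b => h' a b,
          fun h' a b => congrFun (congrFun h' a) b⟩ Iff.rfl
      simp only [hiff, ite_and]
      split_ifs <;> ring
    calc (-1 : ℝ) ^ (q - O.card) *
          ((n + (q - O.card) - 1).choose (q - O.card) : ℝ) * A.rep _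
        = (-1 : ℝ) ^ (q - O.card) * ((n + (q - O.card) - 1).choose (q - O.card) : ℝ) *
            A.rep (fun (U : Lvls K (n + (q - O.card))) σ => ∑ e : Equiv.Perm (Fin q),
              if Fits U0 V (fun x => Arr.pick O h.2 (e x)) U then
                f₀ (fun a i => σ (Fin.castAdd _ a) (i + 1)) *
                  ∏ x, sgn (σ (Arr.pick O h.2 (e x)) 0) else 0) := by
          simp only [hkey]
      _ = _ := by
          rw [hrep, mul_sum]
          · refine sum_congr rfl fun e _ => ?_
            unfold term
            rw [Nat.ascFactorial_eq_factorial_mul_choose' n (q - O.card), Nat.cast_mul]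
            field_simp
            simp
          · intro e U
            obtain ⟨B, hB⟩ : ∃ B, ∀ σ : Fin n → ℕ → Bool, |f₀ σ| ≤ B := hbound
            refine Integrable.of_bound ?_
              (max B 0) (Filter.Eventually.of_forall fun σ => ?_)
            · exact ((measurable_body (U0 := U0) (V := V) hf (fun x => Arr.pick O h.2 (e x)) U).comp
                (show Measurable fun (σ : Pt K → ℕ → Bool) a => σ (place U a) from by
                  fun_prop)).aestronglyMeasurable
            split_ifs
            · simp only [Real.norm_eq_abs, abs_mul, Finset.abs_prod, sgn_abs, Finset.prod_const_one,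
                mul_one]
              exact le_max_of_le_left (hB _)
            · simp
  rw [hexp]
  -- group by kinds
  set T : Finset (Fin n) × Equiv.Perm (Fin q) → Fin q → Option (Fin n) := fun p x =>
    if h : p.1.card ≤ q then typ (fun x => Arr.pick p.1 h (p.2 x)) x else none with hT
  have hLHS : ∀ p ∈ univ.filter (fun p : Finset (Fin n) × Equiv.Perm (Fin q) =>
      z ∈ p.1 ∧ p.1.card ≤ q), (if h : p.1.card ≤ q then
        (((q - p.1.card).factorial : ℝ))⁻¹ * term A U0 V f₀ (fun x => Arr.pick p.1 h (p.2 x))
      else 0) = (((q - p.1.card).factorial : ℝ))⁻¹ * termT A U0 V f₀ (T p) := by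
    intro p hp
    rw [mem_filter] at hp
    rw [dif_pos hp.2.2, term_eq_termT hA hn hf (hterm _ hp.2.2 _)]
    simp [hT, hp.2.2]
  rw [sum_congr rfl hLHS, ← sum_fiberwise _ T]
  have hmem : ∀ (O : Finset (Fin n)) (h : O.card ≤ q) (e : Equiv.Perm (Fin q)) (b : Fin n),
      b ∈ O ↔ ∃ x, T (O, e) x = some b := by
    intro O h e b
    simp only [hT, dif_pos h, typ, Arr.pick]
    constructor
    · intro hb
      obtain ⟨k, hk⟩ : ∃ k, O.orderEmbOfFin rfl k = b := by
        have : b ∈ Set.range (O.orderEmbOfFin rfl) := by rw [range_orderEmbOfFin]; exact hb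
        exact this
      refine ⟨e.symm ⟨k, by omega⟩, ?_⟩
      simp [hk]
    · rintro ⟨x, hx⟩
      split_ifs at hx with h1 h2
      · have hb := Option.some.inj hx
        rw [← hb]
        simp
      · rename_i h3
        rw [Fin.val_natAdd] at h3
        omega
  calc ∑ φ, ∑ p ∈ (univ.filter fun p : Finset (Fin n) × Equiv.Perm (Fin q) =>
        z ∈ p.1 ∧ p.1.card ≤ q).filter (fun p => T p = φ),
          (((q - p.1.card).factorial : ℝ))⁻¹ * termT A U0 V f₀ (T p)
      = ∑ φ, (∑ i₀ : Fin q, if φ i₀ = some z then 1 else 0) * termT A U0 V f₀ φ := by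
        refine sum_congr rfl fun φ _ => ?_
        rw [sum_congr rfl fun p hp => by rw [(mem_filter.1 hp).2], ← sum_mul]
        by_cases hinj : ∀ x y b, φ x = some b → φ y = some b → x = y
        swap
        · push Not at hinj
          obtain ⟨x, y, b, hx, hy, hne⟩ := hinj
          rw [termT_eq_zero hU0 hV hne hx hy]
          ring
        congr 1
        set O : Finset (Fin n) := univ.filter fun b => ∃ x, φ x = some b with hO
        set j : ℕ := Fintype.card {x // φ x = none}
        have hOcard : O.card + j = q := by
          have e1 : O.card = (univ.filter fun x => φ x ≠ none).card := by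
            refine (Finset.card_bij (fun x hx => (φ x).get
              (Option.isSome_iff_ne_none.2 (mem_filter.1 hx).2)) (fun x hx => ?_) (fun x hx y hy h => ?_)
              fun b hb => ?_).symm
            · simp only [hO, mem_filter, mem_univ, true_and]; exact ⟨x, (Option.some_get _).symm⟩
            · exact hinj x y _ (Option.some_get _).symm (by rw [h]; exact (Option.some_get _).symm)
            · obtain ⟨x, hx⟩ := (mem_filter.1 hb).2
              exact ⟨x, by simp [hx], by simp [hx]⟩
          rw [e1, show j = (univ.filter fun x => φ x = none).card from Fintype.card_subtype _,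
            add_comm, card_filter_add_card_filter_not, card_univ, Fintype.card_fin]
        have hOle : O.card ≤ q := by omega
        set h0 : Fin q → Option (Fin n) := fun y => typ (fun x => Arr.pick O hOle x) y with hh0
        have hTO : ∀ e : Equiv.Perm (Fin q), T (O, e) = h0 ∘ e := by
          intro e; funext x; simp [hT, hh0, hOle, typ]
        have hh0some : ∀ b, b ∈ O ↔ ∃ y, h0 y = some b := fun b => by
          rw [hmem O hOle 1 b, hTO]; simp
        by_cases hz : z ∈ O
        swap
        · rw [Finset.sum_eq_zero fun p hp => ?_, Finset.sum_eq_zero fun i₀ _ => ?_]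
          · exact if_neg fun h => hz (by simp only [hO, mem_filter, mem_univ, true_and]; exact ⟨i₀, h⟩)
          · simp only [mem_filter, mem_univ, true_and] at hp
            obtain ⟨x, hx⟩ := (hmem p.1 hp.1.2 p.2 z).1 hp.1.1
            rw [Prod.mk.eta, hp.2] at hx
            exact absurd (mem_filter.2 ⟨mem_univ _, x, hx⟩) hz
        have hset : ((univ.filter fun p : Finset (Fin n) × Equiv.Perm (Fin q) =>
            z ∈ p.1 ∧ p.1.card ≤ q).filter fun p => T p = φ) =
            ({O} : Finset _) ×ˢ univ.filter fun e : Equiv.Perm (Fin q) => h0 ∘ e = φ := by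
          ext ⟨O', e⟩
          simp only [mem_filter, mem_univ, true_and, mem_product, mem_singleton]
          constructor
          · rintro ⟨⟨_, h2⟩, h3⟩
            have hO' : O' = O := by
              ext b
              rw [hmem O' h2 e b, h3]
              simp [hO]
            subst hO'
            exact ⟨rfl, (hTO e).symm.trans h3⟩
          · rintro ⟨rfl, h3⟩
            exact ⟨⟨hz, hOle⟩, (hTO e).trans h3⟩
        rw [hset, sum_product, sum_singleton]
        simp only [sum_const, nsmul_eq_mul]
        have hcount : (univ.filter fun e : Equiv.Perm (Fin q) => h0 ∘ e = φ).card = j.factorial := by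
          have hj0 : Fintype.card {y // h0 y = none} = j := by
            have hg : Good (fun x => Arr.pick O hOle x) := by simpa using hterm O hOle 1
            have := hg.card_none
            simp only [hh0]
            omega
          have hkey0 : ∀ x b, h0 x = some b →
              ∃ hx : (x : ℕ) < O.card, O.orderEmbOfFin rfl ⟨x, hx⟩ = b := by
            intro x b hx
            by_cases h1 : (x : ℕ) < O.card
            · exact ⟨h1, by simpa [hh0, typ, Arr.pick, h1, Fin.ext_iff] using hx⟩
            · simp [hh0, typ, Arr.pick, h1] at hx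
          have hh0inj : ∀ x y b, h0 x = some b → h0 y = some b → x = y := by
            intro x y b hx hy
            obtain ⟨h1, e1⟩ := hkey0 x b hx
            obtain ⟨h2, e2⟩ := hkey0 y b hy
            have := (O.orderEmbOfFin rfl).injective (e1.trans e2.symm)
            exact Fin.ext (congrArg Fin.val this :)
          have hfib : ∀ c, Fintype.card {x // φ x = c} = Fintype.card {y // h0 y = c} := by
            rintro (_ | b)
            · rw [hj0]
            · have hle : ∀ g : Fin q → Option (Fin n), (∀ x y c, g x = some c → g y = some c → x = y) →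
                  Fintype.card {x // g x = some b} = if ∃ x, g x = some b then 1 else 0 := by
                intro g hg
                split_ifs with h
                · obtain ⟨x, hx⟩ := h
                  exact Fintype.card_eq_one_iff.2 ⟨⟨x, hx⟩, fun y => Subtype.ext (hg _ _ _ y.2 hx)⟩
                · rw [Fintype.card_eq_zero_iff]
                  exact ⟨fun y => h ⟨y.1, y.2⟩⟩
              rw [hle φ hinj, hle h0 hh0inj]
              exact if_congr ((by simp [hO] : (∃ x, φ x = some b) ↔ b ∈ O).trans (hh0some b)) rfl rfl
          set e0 : Equiv.Perm (Fin q) := Equiv.ofFiberEquiv fun c => Fintype.equivOfCardEq (hfib c)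
          have he0 : h0 ∘ e0 = φ := funext fun x => Equiv.ofFiberEquiv_map _ x
          calc (univ.filter fun e : Equiv.Perm (Fin q) => h0 ∘ e = φ).card
              = (univ.filter fun g : Equiv.Perm (Fin q) => h0 ∘ g = h0).card := by
                refine Finset.card_equiv (Equiv.mulRight e0⁻¹) fun e => ?_
                simp only [mem_filter, mem_univ, true_and, ← he0, Equiv.coe_mulRight,
                  Equiv.Perm.coe_mul, Equiv.Perm.coe_inv, ← Function.comp_assoc]
                constructor
                · intro h
                  rw [h]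
                  funext x; simp
                · intro h
                  funext x
                  have := congrFun h (e0 x)
                  simpa using this
            _ = ∏ c, (Fintype.card {y // h0 y = c}).factorial := by
                rw [← Fintype.card_subtype]
                exact DomMulAct.stabilizer_card h0
            _ = j.factorial := by
                rw [Fintype.prod_option, hj0, prod_eq_one fun b _ => ?_, mul_one]
                refine Nat.factorial_eq_one.2 (Fintype.card_le_one_iff.2 fun x y => ?_)
                exact Subtype.ext (hh0inj _ _ _ x.2 y.2)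
        rw [hcount, show q - O.card = j by omega,
          mul_inv_cancel₀ (by exact_mod_cast j.factorial_ne_zero)]
        obtain ⟨x, hx⟩ := (mem_filter.1 hz).2
        rw [sum_eq_single x (fun y _ hy => if_neg fun h => hy (hinj y x z h hx))
          (fun h => absurd (mem_univ _) h), if_pos hx]
    _ = _ := by
        simp only [sum_mul, ite_mul, one_mul, zero_mul]
        rw [sum_comm]
        simp only [sum_filter]

end Vale.Agent.P168.Tel
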