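import Vale.Agent.P168.Tel.Marg

/-!
P168, telescope: placing the leaves of a binary pattern among old and new replicas; peeling the
last leaf.
-/

open Finset

noncomputable section

namespace Vale.Agent.P168

variable {K n i j : ℕ}

/-- A binary pattern on the first `q` labels, with all leaves distinct. -/
structure Pat (K q : ℕ) (V : ℕ → ℕ → Fin (K + 1)) : Prop where
  diag : ∀ a < q, V a a = Fin.last K
  symm : ∀ a < q, ∀ b < q, V a b = V b a
  ultra : ∀ a < q, ∀ b < q, ∀ c < q, min (V a b) (V b c) ≤ V a c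
  off : ∀ a < q, ∀ b < q, a ≠ b → (V a b : ℕ) < K
  binary : ∀ a < q, ∀ b < q, ∀ c < q, a ≠ b → b ≠ c → a ≠ c →
    ¬(V a b = V b c ∧ V a b = V a c)

theorem Pat.mono {q q' : ℕ} {V : ℕ → ℕ → Fin (K + 1)} (h : Pat K q V) (hq : q' ≤ q) :
    Pat K q' V where
  diag a ha := h.diag a (by omega)
  symm a ha b hb := h.symm a (by omega) b (by omega)
  ultra a ha b hb c hc := h.ultra a (by omega) b (by omega) c (by omega)
  off a ha b hb := h.off a (by omega) b (by omega)
  binary a ha b hb c hc := h.binary a (by omega) b (by omega) c (by omega)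

namespace Tel

variable (U0 : Lvls K n) (V : ℕ → ℕ → Fin (K + 1)) (ζ : (Fin n → Fin (K + 1)) → ℝ)

/-- The old replicas have levels `U0` and the chosen ones follow the pattern. -/
def Fits (χ : Fin i → Fin (n + j)) (U : Lvls K (n + j)) : Prop :=
  (∀ a b, U (Fin.castAdd j a) (Fin.castAdd j b) = U0 a b) ∧ ∀ x y, U (χ x) (χ y) = V x y

/-- The value attached to the levels between the second leaf and the old replicas. -/
def val (χ : Fin i → Fin (n + j)) (U : Lvls K (n + j)) : ℝ :=
  if h : 1 < i then ζ fun b => U (χ ⟨1, h⟩) (Fin.castAdd j b) else 0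

open Classical in
/-- The weight of an assignment, with values. -/
def W (χ : Fin i → Fin (n + j)) : ℝ :=
  ∑ U : Lvls K (n + j), if Fits U0 V χ U then treeW K (n + j) U * val ζ χ U else 0

/-- The sum over all completions by `r` further leaves, each an old or a new replica; new
replicas carry the sign `s`. -/
def Sg (s : ℝ) : (r : ℕ) → {i j : ℕ} → (Fin i → Fin (n + j)) → ℝ
  | 0, _, j, χ => s ^ j * (n.ascFactorial j : ℝ) * W U0 V ζ χ
  | r + 1, _, j, χ =>
      (∑ b : Fin n, Sg s r (Fin.snoc χ (Fin.castAdd j b))) +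
        Sg s r (j := j + 1) (Fin.snoc (fun x => (χ x).castSucc) (Fin.last (n + j)))

variable {U0 V ζ}

theorem fits_iff_row {χ : Fin i → Fin (n + j)} {U : Lvls K (n + j)} (hU : U.IsTree)
    (hV : Pat K (i + 1) V) {c : Fin i} (hc : ∀ x : Fin i, V x i ≤ V c i)
    (h : ∀ x y, U (χ x) (χ y) = V x y) (d : Fin (n + j)) :
    (∀ x, U (χ x) d = V x i) ↔ U (χ c) d = V c i := by
  refine ⟨fun h' => h' c, fun h' x => ?_⟩
  by_cases hxc : x = c
  · rw [hxc, h']
  have hne : V (x : ℕ) c ≠ V (c : ℕ) i := by
    intro e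
    have hx : (x : ℕ) < i + 1 := Nat.lt_succ_of_lt x.isLt
    have hc' : (c : ℕ) < i + 1 := Nat.lt_succ_of_lt c.isLt
    have h1 := hV.ultra x hx c hc' i (Nat.lt_succ_self i)
    rw [e, min_self] at h1
    exact hV.binary x hx c hc' i (Nat.lt_succ_self i) (Fin.val_ne_of_ne hxc) c.isLt.ne x.isLt.ne
      ⟨e, e.trans (le_antisymm h1 (hc x))⟩
  have hlt : ∀ {N : ℕ} (W' : Lvls K N), W'.IsTree → ∀ p q r, W' p q ≠ W' q r →
      W' p r = min (W' p q) (W' q r) := by
    intro N W' hW p q r hpq
    have h1 := hW.2.2 p q r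
    have h2 := hW.2.2 q p r
    have h3 := hW.2.2 p r q
    rw [hW.2.1 q p] at h2
    rw [hW.2.1 r q] at h3
    simp only [Fin.le_def, Fin.coe_min] at h1 h2 h3
    have : (W' p q : ℕ) ≠ W' q r := Fin.val_ne_of_ne hpq
    ext
    simp only [Fin.coe_min]
    omega
  rw [hlt U hU (χ x) (χ c) d (by rw [h, h']; exact hne), h, h']
  have hx : (x : ℕ) < i + 1 := Nat.lt_succ_of_lt x.isLt
  have hc' : (c : ℕ) < i + 1 := Nat.lt_succ_of_lt c.isLt
  have h1 := hV.ultra x hx c hc' i (Nat.lt_succ_self i)
  have h2 := hV.ultra x hx i (Nat.lt_succ_self i) c hc'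
  have h3 := hV.ultra c hc' x hx i (Nat.lt_succ_self i)
  rw [hV.symm i (Nat.lt_succ_self i) c hc'] at h2
  rw [hV.symm c hc' x hx] at h3
  simp only [Fin.le_def, Fin.coe_min] at h1 h2 h3
  have : (V x c : ℕ) ≠ V c i := Fin.val_ne_of_ne hne
  ext
  simp only [Fin.coe_min]
  omega

theorem val_snoc {χ : Fin i → Fin (n + j)} (hi : 2 ≤ i) (d : Fin (n + j)) (U : Lvls K (n + j)) :
    val ζ (Fin.snoc χ d) U = val ζ χ U := by
  have h : 1 < i := hi
  simp only [val, dif_pos h, dif_pos (Nat.lt_succ_of_lt h)]
  rw [show (⟨1, Nat.lt_succ_of_lt h⟩ : Fin (i + 1)) = (⟨1, h⟩ : Fin i).castSucc from rfl,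
    Fin.snoc_castSucc]

/-- Peeling the last leaf: it is a new replica with weight `gap`, up to the terms where it is an
old replica. -/
theorem peel {χ : Fin i → Fin (n + j)} (hi : 2 ≤ i) (hV : Pat K (i + 1) V)
    (hcov : ∀ x : Fin (n + j), n ≤ (x : ℕ) → ∃ k, χ k = x) :
    ((n + j : ℕ) : ℝ) * W U0 V ζ (j := j + 1) (Fin.snoc (fun x => (χ x).castSucc) (Fin.last (n + j)))
      = gapK K * W U0 V ζ χ + ∑ b : Fin n, W U0 V ζ (Fin.snoc χ (Fin.castAdd j b)) := by
  classical
  have : Nonempty (Fin i) := ⟨⟨0, by omega⟩⟩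
  obtain ⟨c, hc⟩ := Finite.exists_max fun x : Fin i => V x i
  set h : ℕ := (V c i : ℕ) with hh
  have hhK : h < K := hV.off c (Nat.lt_succ_of_lt c.isLt) i (Nat.lt_succ_self i) c.isLt.ne
  have hN : ((n + j : ℕ) : ℝ) ≠ 0 := by exact_mod_cast (Fin.pos (χ c)).ne'
  set χ' : Fin (i + 1) → Fin (n + (j + 1)) :=
    Fin.snoc (fun x => (χ x).castSucc) (Fin.last (n + j)) with hχ'
  -- the fibre over the levels of the other replicas
  have hfib : ∀ U : Lvls K (n + j), ∑ U' ∈ univ.filter (fun U' : Lvls K (n + j + 1) => U'.init = U),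
      (if Fits U0 V χ' U' then treeW K (n + j + 1) U' * val ζ χ' U' else 0) =
      if Fits U0 V χ U then treeW K (n + j) U * val ζ χ U *
        ((gapK K + ((univ.filter fun x => (U (χ c) x : ℕ) = h).card : ℝ)) / (n + j : ℕ))
      else 0 := by
    intro U
    by_cases hU : U.IsTree
    swap
    · rw [sum_eq_zero fun U' hU' => ?_]
      · simp [treeW_eq_zero hU]
      · rw [mem_filter] at hU'
        simp [treeW_eq_zero fun h' : U'.IsTree => hU (hU'.2 ▸ h'.init)]
    have hval : ∀ U' : Lvls K (n + j + 1), U'.init = U → val ζ χ' U' = val ζ χ U := by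
      intro U' e
      have h1 : 1 < i := hi
      simp only [val, dif_pos h1, dif_pos (Nat.lt_succ_of_lt h1), ← e]
      rw [show (⟨1, Nat.lt_succ_of_lt h1⟩ : Fin (i + 1)) = (⟨1, h1⟩ : Fin i).castSucc from rfl,
        hχ', Fin.snoc_castSucc]
      rfl
    have hfit : ∀ U' : Lvls K (n + j + 1), U'.IsTree → U'.init = U →
        (Fits U0 V χ' U' ↔ Fits U0 V χ U ∧ (U' (χ c).castSucc (Fin.last (n + j)) : ℕ) = h) := by
      intro U' hU' e
      have hpre : ∀ x y, U' (χ' (Fin.castSucc x)) (χ' (Fin.castSucc y)) = U (χ x) (χ y) := by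
        intro x y; rw [hχ', Fin.snoc_castSucc, Fin.snoc_castSucc, ← e]; rfl
      constructor
      · intro hf
        refine ⟨⟨fun a b => by rw [← hf.1 a b, ← e]; rfl, fun x y => ?_⟩, ?_⟩
        · rw [← hpre]; exact hf.2 x.castSucc y.castSucc
        · have := hf.2 c.castSucc (Fin.last i)
          rw [hχ', Fin.snoc_castSucc, Fin.snoc_last] at this
          rw [hh, this]; rfl
      · rintro ⟨hf, he⟩
        refine ⟨fun a b => by rw [← hf.1 a b, ← e]; rfl, ?_⟩
        have hrow := (fits_iff_row (χ := fun x => (χ x).castSucc) (j := j + 1) hU' hV hc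
          (fun x y => by rw [← hf.2 x y, ← e]; rfl) (Fin.last (n + j))).2 (Fin.ext he)
        intro x y
        induction x using Fin.lastCases <;> induction y using Fin.lastCases
        · rw [hU'.1]; exact (hV.diag i (Nat.lt_succ_self i)).symm
        · rename_i y
          rw [hχ', Fin.snoc_last, Fin.snoc_castSucc, hU'.2.1, hrow y]
          exact hV.symm y (Nat.lt_succ_of_lt y.isLt) i (Nat.lt_succ_self i)
        · rename_i x
          rw [hχ', Fin.snoc_last, Fin.snoc_castSucc, hrow x]
          rfl
        · rename_i x y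
          rw [hpre]; exact hf.2 x y
    rw [sum_filter]
    by_cases hf : Fits U0 V χ U
    · rw [if_pos hf]
      have h1 := treeW_marg hU (χ c) (L := h) hhK.le
      have h2 := treeW_marg hU (χ c) (L := h + 1) hhK
      calc ∑ U' : Lvls K (n + j + 1), (if U'.init = U then (if Fits U0 V χ' U' then
            treeW K (n + j + 1) U' * val ζ χ' U' else 0) else 0)
          = ∑ U' : Lvls K (n + j + 1), val ζ χ U *
              ((if U'.init = U ∧ h ≤ (U' (χ c).castSucc (Fin.last (n + j)) : ℕ) then
                treeW K (n + j + 1) U' else 0) -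
              (if U'.init = U ∧ h + 1 ≤ (U' (χ c).castSucc (Fin.last (n + j)) : ℕ) then
                treeW K (n + j + 1) U' else 0)) := by
            refine sum_congr rfl fun U' _ => ?_
            by_cases e : U'.init = U
            swap
            · simp [e]
            by_cases hU' : U'.IsTree
            swap
            · simp [treeW_eq_zero hU']
            simp only [e, true_and, if_true, hfit U' hU' e, hf, hval U' e]
            rcases lt_trichotomy (U' (χ c).castSucc (Fin.last (n + j)) : ℕ) h with hl | he | hg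
            · simp [hl.ne, show ¬ h ≤ (U' (χ c).castSucc (Fin.last (n + j)) : ℕ) by omega,
                show ¬ h + 1 ≤ (U' (χ c).castSucc (Fin.last (n + j)) : ℕ) by omega]
            · simp [he, mul_comm]
            · simp [hg.ne', hg.le, show h + 1 ≤ (U' (χ c).castSucc (Fin.last (n + j)) : ℕ) by omega]
        _ = _ := by
            rw [← mul_sum, sum_sub_distrib, h1, h2]
            have e : ((U.node (χ c) h).card : ℝ) = (U.node (χ c) (h + 1)).card +
                ((univ.filter fun x => (U (χ c) x : ℕ) = h).card : ℝ) := by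
              rw [← Nat.cast_add, ← card_union_of_disjoint (disjoint_left.2 fun x hx hx' => by
                simp [Lvls.node] at hx hx'; omega)]
              congr 2
              ext x
              simp [Lvls.node]
              omega
            rw [e, mpar_succ]
            field_simp
            ring
    · rw [if_neg hf]
      refine sum_eq_zero fun U' _ => ?_
      split_ifs with e hfit'
      · by_cases hU' : U'.IsTree
        · exact absurd ((hfit U' hU' e).1 hfit').1 hf
        · simp [treeW_eq_zero hU']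
      all_goals rfl
  -- old replicas at the exact level
  have hold : ∀ U : Lvls K (n + j), U.IsTree → Fits U0 V χ U →
      ((univ.filter fun x => (U (χ c) x : ℕ) = h).card : ℝ) =
        ∑ b : Fin n, if Fits U0 V (Fin.snoc χ (Fin.castAdd j b)) U then (1 : ℝ) else 0 := by
    intro U hU hf
    rw [← sum_filter, sum_const, nsmul_one]
    refine congrArg Nat.cast (Finset.card_bij' (fun x hx => (⟨(x : ℕ), ?_⟩ : Fin n))
      (fun b _ => Fin.castAdd j b) ?_ ?_ (fun x _ => Fin.ext rfl) (fun b _ => Fin.ext rfl))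
    · by_contra hx'
      obtain ⟨k, hk⟩ := hcov x (Nat.le_of_not_lt hx')
      simp only [mem_filter, mem_univ, true_and, ← hk, hf.2] at hx
      have hci : (c : ℕ) < i + 1 := Nat.lt_succ_of_lt c.isLt
      have hki : (k : ℕ) < i + 1 := Nat.lt_succ_of_lt k.isLt
      have hkc : (k : ℕ) ≠ c := fun e => by
        rw [e, hV.diag c hci] at hx
        simp at hx
        omega
      have e : V (k : ℕ) c = V (c : ℕ) i := by
        rw [hV.symm k hki c hci]; exact Fin.ext hx
      have h1 := hV.ultra k hki c hci i (Nat.lt_succ_self i)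
      rw [e, min_self] at h1
      exact hV.binary k hki c hci i (Nat.lt_succ_self i) hkc c.isLt.ne k.isLt.ne
        ⟨e, e.trans (le_antisymm h1 (hc k))⟩
    · intro x hx
      simp only [mem_filter, mem_univ, true_and] at hx ⊢
      refine ⟨hf.1, ?_⟩
      have hrow := (fits_iff_row hU hV hc hf.2 x).2 (Fin.ext hx)
      intro y z
      induction y using Fin.lastCases <;> induction z using Fin.lastCases
      · rw [hU.1]; exact (hV.diag i (Nat.lt_succ_self i)).symm
      · rename_i z
        rw [Fin.snoc_last, Fin.snoc_castSucc, hU.2.1]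
        exact (hrow z).trans (hV.symm z (Nat.lt_succ_of_lt z.isLt) i (Nat.lt_succ_self i))
      · rename_i y
        rw [Fin.snoc_last, Fin.snoc_castSucc]
        exact hrow y
      · rename_i y z
        rw [Fin.snoc_castSucc, Fin.snoc_castSucc]
        exact hf.2 y z
    · intro b hb
      simp only [mem_filter, mem_univ, true_and] at hb ⊢
      have := hb.2 c.castSucc (Fin.last i)
      rw [Fin.snoc_last, Fin.snoc_castSucc] at this
      rw [hh, this]; rfl
  have hlhs : W U0 V ζ (j := j + 1) χ' = ∑ U : Lvls K (n + j), if Fits U0 V χ U then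
      treeW K (n + j) U * val ζ χ U *
        ((gapK K + ((univ.filter fun x => (U (χ c) x : ℕ) = h).card : ℝ)) / (n + j : ℕ)) else 0 := by
    unfold W
    refine Eq.trans (sum_fiberwise (univ : Finset (Lvls K (n + j + 1)))
      (Lvls.init : Lvls K (n + j + 1) → Lvls K (n + j)) _).symm ?_
    exact sum_congr rfl fun U _ => hfib U
  rw [hlhs]
  simp only [W]
  rw [mul_sum, mul_sum, sum_comm, ← sum_add_distrib]
  refine sum_congr rfl fun U _ => ?_
  have hmono : ∀ b, Fits U0 V (Fin.snoc χ (Fin.castAdd j b)) U → Fits U0 V χ U := fun b hb =>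
    ⟨hb.1, fun x y => by simpa using hb.2 x.castSucc y.castSucc⟩
  by_cases hf : Fits U0 V χ U
  · simp only [if_pos hf, val_snoc hi]
    by_cases hU : U.IsTree
    · rw [hold U hU hf, mul_left_comm, mul_div_assoc', mul_div_cancel_left₀ _ hN, mul_add, mul_sum]
      refine congrArg₂ (· + ·) (by ring) (sum_congr rfl fun b _ => ?_)
      split_ifs <;> ring
    · simp [treeW_eq_zero hU]
  · rw [if_neg hf, if_neg hf, mul_zero, mul_zero, zero_add]
    exact (sum_eq_zero fun b _ => if_neg fun hb => hf (hmono b hb)).symm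

end Tel

end Vale.Agent.P168
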