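import Vale.Agent.P168.ArrBasic
import Vale.Agent.P168.Core.Shift

/-!
P168, telescope: the leaves of a shape as points of the tree.
-/

open Finset

noncomputable section

namespace Vale.Agent.P168

variable {K : ℕ}

theorem le_com'_iff (x y : Fin K → ℕ) {g : ℕ} (hg : g ≤ K) : g ≤ com' x y ↔ Agree g x y := by
  rcases Nat.eq_zero_or_pos g with rfl | hpos
  · simp [Agree]
  · have h := lt_com'_iff x y ⟨g - 1, by omega⟩
    simp only [Fin.le_def] at h
    constructor
    · intro h' i hi
      exact h.1 (by omega) i (by omega)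
    · intro h'
      have := h.2 fun i hi => h' i (by omega)
      omega

theorem com'_ultra (x y z : Fin K → ℕ) : min (com' x y) (com' y z) ≤ com' x z := by
  have hg : min (com' x y) (com' y z) ≤ K := (min_le_left _ _).trans (com'_le _ _)
  exact (le_com'_iff _ _ hg).2 (((le_com'_iff _ _ hg).1 (min_le_left _ _)).trans
    ((le_com'_iff _ _ hg).1 (min_le_right _ _)))

/-- Levels to two paths that agree to `g` agree below `g`. -/
theorem com'_min_congr (w : Fin K → ℕ) {x y : Fin K → ℕ} {g : ℕ} (h : g ≤ com' x y) :
    min (com' w x) g = min (com' w y) g := by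
  have h1 := com'_ultra w x y
  have h2 := com'_ultra w y x
  rw [com'_comm y x] at h2
  omega

theorem com'_put_self (x : Fin K → ℕ) {a : ℕ} (ha : a ≤ K) (j : ℕ) : a ≤ com' (put x a j) x :=
  (le_com'_iff _ _ ha).2 (agree_put x j le_rfl)

theorem com'_put_put (x : Fin K → ℕ) {a : ℕ} (ha : a < K) {i j : ℕ} (hij : i ≠ j) :
    com' (put x a i) (put x a j) = a := by
  refine le_antisymm ?_ ?_
  · by_contra h
    have := (le_com'_iff _ _ ha).1 (Nat.succ_le_of_lt (not_le.1 h)) ⟨a, ha⟩ (Nat.lt_succ_self a)
    rw [put_of_eq x i (l := ⟨a, ha⟩) rfl, put_of_eq x j (l := ⟨a, ha⟩) rfl] at this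
    exact hij this
  · exact (le_com'_iff _ _ ha.le).2 ((agree_put x i le_rfl).trans (agree_put x j le_rfl).symm)

/-- The paths of the leaves of a shape below a path. -/
def pth : (t : Sh) → (Fin K → ℕ) → Fin t.size → Fin K → ℕ
  | .leaf, x => fun _ => x
  | .node h L R, x => Fin.append (pth L (put x h 0)) (pth R (put x h 1))

/-- The product of the spins at given replicas. -/
def spinProd {ι : Type*} [Fintype ι] (p : ι → Pt K) : Obs K := fun σ => ∏ i, sgn (σ (p i))

theorem unit_spinProd {ι : Type*} [Fintype ι] (p : ι → Pt K) : Unit1 (spinProd p) := by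
  refine ⟨Finset.measurable_prod _ fun i _ =>
    (Measurable.of_discrete (f := sgn)).comp (measurable_pi_apply _), fun σ => le_of_eq ?_⟩
  simp [spinProd, Finset.abs_prod, sgn_abs]

theorem tup_eq : ∀ (t : Sh) (x : Fin K → ℕ), tup t x = spinProd fun u => (pth t x u, 0)
  | .leaf, x => funext fun σ => (Fin.prod_univ_one fun u => sgn (σ (pth .leaf x u, 0))).symm
  | .node h L R, x => by
    funext σ
    show tup L (put x h 0) σ * tup R (put x h 1) σ =
      ∏ u : Fin (L.size + R.size), sgn (σ (pth (.node h L R) x u, 0))
    rw [Fin.prod_univ_add, tup_eq L, tup_eq R]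
    simp only [pth, Fin.append_left, Fin.append_right, spinProd]

/-- The leaves agree with the path up to the first level allowed. -/
theorem le_com'_pth : ∀ (t : Sh) {g : ℕ} (x : Fin K → ℕ), t.Valid K g → g ≤ K →
    ∀ u, g ≤ com' (pth t x u) x
  | .leaf, g, x, _, hg, u => by simpa [pth, com'_self] using hg
  | .node h L R, g, x, hv, hg, u => by
    obtain ⟨h1, h2, h3, h4⟩ := hv
    induction u using Fin.addCases with
    | left i =>
      have := le_com'_pth L (put x h 0) h3 h2 i
      have := com'_put_self x h2.le 0
      have := com'_ultra (pth L (put x h 0) i) (put x h 0) x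
      simp only [pth, Fin.append_left]
      omega
    | right i =>
      have := le_com'_pth R (put x h 1) h4 h2 i
      have := com'_put_self x h2.le 1
      have := com'_ultra (pth R (put x h 1) i) (put x h 1) x
      simp only [pth, Fin.append_right]
      omega

/-- Leaves in two children of a node. -/
theorem com'_children {h : ℕ} (hh : h < K) (x : Fin K → ℕ) {i j : ℕ} (hij : i ≠ j)
    {p q : Fin K → ℕ} (hp : h + 1 ≤ com' p (put x h i)) (hq : h + 1 ≤ com' q (put x h j)) :
    com' p q = h := by
  have := com'_put_put x hh hij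
  have h1 := com'_ultra (put x h i) p (put x h j)
  have h2 := com'_ultra p q (put x h j)
  have h3 := com'_ultra p (put x h i) (put x h j)
  have h4 := com'_ultra p (put x h j) q
  rw [com'_comm (put x h i) p] at h1
  rw [com'_comm (put x h j) q] at h4
  omega

theorem com'_halves {h g : ℕ} {L R : Sh} (hv : (Sh.node h L R).Valid K g) (x : Fin K → ℕ)
    (u : Fin L.size) (v : Fin R.size) :
    com' (pth L (put x h 0) u) (pth R (put x h 1) v) = h :=
  com'_children hv.2.1 x zero_ne_one (le_com'_pth L _ hv.2.2.1 hv.2.1 u)
    (le_com'_pth R _ hv.2.2.2 hv.2.1 v)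

/-- The levels among the leaves do not depend on the path. -/
theorem com'_pth_congr : ∀ (t : Sh) {g : ℕ} (x y : Fin K → ℕ), t.Valid K g →
    ∀ u v, com' (pth t x u) (pth t x v) = com' (pth t y u) (pth t y v)
  | .leaf, _, x, y, _, u, v => by simp [pth, com'_self]
  | .node h L R, g, x, y, hv, u, v => by
    induction u using Fin.addCases <;> induction v using Fin.addCases <;>
      simp only [pth, Fin.append_left, Fin.append_right]
    · exact com'_pth_congr L _ _ hv.2.2.1 _ _
    · rw [com'_halves hv, com'_halves hv]
    · rw [com'_comm, com'_halves hv, com'_comm, com'_halves hv]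
    · exact com'_pth_congr R _ _ hv.2.2.2 _ _

/-- Different leaves branch at one of the levels of the shape. -/
theorem com'_pth_mem : ∀ (t : Sh) {g : ℕ} (x : Fin K → ℕ), t.Valid K g → ∀ u v, u ≠ v →
    com' (pth t x u) (pth t x v) ∈ t.levels
  | .leaf, _, x, _, u, v, huv => absurd (Fin.ext (by have := u.isLt; have := v.isLt
                                                     simp only [Sh.size] at *; omega)) huv
  | .node h L R, g, x, hv, u, v, huv => by
    induction u using Fin.addCases <;> induction v using Fin.addCases <;>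
      simp only [pth, Fin.append_left, Fin.append_right, Sh.levels, mem_insert, mem_union]
    · exact .inr (.inl (com'_pth_mem L _ hv.2.2.1 _ _ fun e => huv (by rw [e])))
    · exact .inl (com'_halves hv _ _ _)
    · exact .inl (by rw [com'_comm, com'_halves hv])
    · exact .inr (.inr (com'_pth_mem R _ hv.2.2.2 _ _ fun e => huv (by rw [e])))

theorem com'_pth_lt {t : Sh} {g : ℕ} (x : Fin K → ℕ) (hv : t.Valid K g) {u v : Fin t.size}
    (huv : u ≠ v) : g ≤ com' (pth t x u) (pth t x v) ∧ com' (pth t x u) (pth t x v) < K := by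
  suffices ∀ (t : Sh) (g : ℕ), t.Valid K g → ∀ l ∈ t.levels, g ≤ l ∧ l < K from
    this t g hv _ (com'_pth_mem t x hv u v huv)
  intro t
  induction t with
  | leaf => simp [Sh.levels]
  | node h L R ihL ihR =>
    rintro g ⟨h1, h2, h3, h4⟩ l hl
    simp only [Sh.levels, mem_insert, mem_union] at hl
    rcases hl with rfl | hl | hl
    · exact ⟨h1, h2⟩
    · have := ihL _ h3 l hl; omega
    · have := ihR _ h4 l hl; omega

/-- No three leaves are pairwise at one level. -/
theorem com'_pth_binary : ∀ (t : Sh) {g : ℕ} (x : Fin K → ℕ), t.Valid K g → ∀ u v w,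
    u ≠ v → v ≠ w → u ≠ w → ¬(com' (pth t x u) (pth t x v) = com' (pth t x v) (pth t x w) ∧
      com' (pth t x u) (pth t x v) = com' (pth t x u) (pth t x w))
  | .leaf, _, x, _, u, v, w, huv, _, _ => absurd (Fin.ext (by have := u.isLt; have := v.isLt
                                                              simp only [Sh.size] at *; omega)) huv
  | .node h L R, g, x, hv, u, v, w, huv, hvw, huw => by
    have hL := fun (a b : Fin L.size) (hab : a ≠ b) => (com'_pth_lt (put x h 0) hv.2.2.1 hab).1
    have hR := fun (a b : Fin R.size) (hab : a ≠ b) => (com'_pth_lt (put x h 1) hv.2.2.2 hab).1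
    have hX := fun a b => com'_halves hv x a b
    have hX' : ∀ a b, com' (pth R (put x h 1) b) (pth L (put x h 0) a) = h := fun a b => by
      rw [com'_comm, hX]
    induction u using Fin.addCases <;> induction v using Fin.addCases <;>
      induction w using Fin.addCases <;>
      simp only [pth, Fin.append_left, Fin.append_right, hX, hX'] <;>
      have hne := fun {α β : Type} (f : α → β) {a b : α} (h : f a ≠ f b) (e : a = b) =>
        h (congrArg f e)
    · exact com'_pth_binary L _ hv.2.2.1 _ _ _ (hne _ huv) (hne _ hvw) (hne _ huw)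
    · rintro ⟨e, -⟩; have := hL _ _ (hne _ huv); omega
    · rintro ⟨-, e⟩; have := hL _ _ (hne _ huw); omega
    · rintro ⟨e, -⟩; have := hR _ _ (hne _ hvw); omega
    · rintro ⟨e, -⟩; have := hL _ _ (hne _ hvw); omega
    · rintro ⟨-, e⟩; have := hR _ _ (hne _ huw); omega
    · rintro ⟨e, -⟩; have := hR _ _ (hne _ huv); omega
    · exact com'_pth_binary R _ hv.2.2.2 _ _ _ (hne _ huv) (hne _ hvw) (hne _ huw)

end Vale.Agent.P168
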