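import Vale.Agent.P168.Core.Same
import Vale.Agent.P168.Tel.Geo

/-!
P168, telescope: replicas following a pattern may be moved to fresh children of their nodes, at
the cost of the deviations of the halves.
-/

open Finset MeasureTheory

noncomputable section

namespace Vale.Agent.P168

variable {K n m h : ℕ} {L R : Sh}

/-- An observable of the spins at given replicas. -/
def obsAt (F : (Fin n → Bool) → ℝ) (o : Fin n → Pt K) : Obs K := fun σ => F fun b => σ (o b)

theorem unit_obsAt {F : (Fin n → Bool) → ℝ} (hF : ∀ v, |F v| ≤ 1) (o : Fin n → Pt K) :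
    Unit1 (obsAt F o) :=
  ⟨(Measurable.of_discrete (f := F)).comp (measurable_pi_lambda _ fun _ => measurable_pi_apply _),
    fun _ => hF _⟩

theorem Avoid.prod {ι : Type*} {S : Set (Fin K → ℕ)} (s : Finset ι) {x : ι → Obs K}
    (h : ∀ i ∈ s, Avoid S (x i)) : Avoid S (∏ i ∈ s, x i) := fun σ σ' hσ => by
  rw [Finset.prod_apply, Finset.prod_apply]
  exact prod_congr rfl fun i hi => h i hi σ σ' hσ

theorem Unit1.prod {ι : Type*} (s : Finset ι) {x : ι → Obs K} (h : ∀ i ∈ s, Unit1 (x i)) :
    Unit1 (∏ i ∈ s, x i) :=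
  ⟨by
    rw [show (∏ i ∈ s, x i) = fun σ => ∏ i ∈ s, x i σ from funext fun σ => Finset.prod_apply σ s x]
    exact Finset.measurable_prod _ fun i hi => (h i hi).1, fun σ => by
    rw [Finset.prod_apply, Finset.abs_prod]
    exact prod_le_one (fun i _ => abs_nonneg _) fun i hi => (h i hi).2 σ⟩

namespace Arr

variable (A : Arr K)

theorem pair_sub_le_nrm {O x y : Obs K} (hO : Unit1 O) (hx : Bdd x) (hy : Bdd y) :
    |A.pair O x - A.pair O y| ≤ A.nrm (x - y) := by
  rw [← A.pair_sub_right hO.bdd hx hy]
  exact (A.abs_pair_le hO.bdd (hx.sub hy)).trans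
    (mul_le_of_le_one_left (A.nrm_nonneg _) (A.nrm_le_one hO))

/-- The configurations of an observable and of a product of spins may be relabelled. -/
theorem pair_congr {ι : Type*} [Fintype ι] (F : (Fin n → Bool) → ℝ) {o o' : Fin n → Pt K}
    {p p' : ι → Pt K}
    (hoo : ∀ a b, com' (o a).1 (o b).1 = com' (o' a).1 (o' b).1 ∧ (o a = o b ↔ o' a = o' b))
    (hpp : ∀ a b, com' (p a).1 (p b).1 = com' (p' a).1 (p' b).1 ∧ (p a = p b ↔ p' a = p' b))
    (hop : ∀ a b, com' (o a).1 (p b).1 = com' (o' a).1 (p' b).1 ∧ (o a = p b ↔ o' a = p' b)) :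
    A.pair (obsAt F o') (spinProd p') = A.pair (obsAt F o) (spinProd p) := by
  refine A.integral_congr (Sum.elim o p) (Sum.elim o' p') ?_ ?_ (τ := id) Function.injective_id
    (g := fun τ => F (fun b => τ (.inl b) 0) * ∏ i, sgn (τ (.inr i) 1)) ?_
  · rintro (a | a) (b | b)
    · exact (hoo a b).1
    · exact (hop a b).1
    · simp only [Sum.elim_inl, Sum.elim_inr]
      rw [com'_comm, (hop b a).1, com'_comm]
    · exact (hpp a b).1
  · rintro (a | a) (b | b)
    · exact (hoo a b).2
    · exact (hop a b).2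
    · exact ⟨fun e => ((hop b a).2.1 e.symm).symm, fun e => ((hop b a).2.2 e.symm).symm⟩
    · exact (hpp a b).2
  · exact ((Measurable.of_discrete (f := F)).comp (by fun_prop)).mul
      (Finset.measurable_prod _ fun i _ => (Measurable.of_discrete (f := sgn)).comp (by fun_prop))

/-- Both halves of one tuple move to fresh children. -/
theorem move_node {g : ℕ} (hv : (Sh.node h L R).Valid K g) (y : Fin K → ℕ) {O W : Obs K}
    (hO : Unit1 O) (hW : Unit1 W) (hav : Avoid {p | Agree h p y} W) :
    |A.pair O (W * tup (.node h L R) y) - A.pair O (W * tupF 2 3 (.node h L R) y)| ≤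
      2 * (√(A.dev L h) + √(A.dev R h)) := by
  obtain ⟨-, h2, h3, h4⟩ := hv
  have hsub : ∀ J : Set ℕ, Kid y h J ⊆ {p | Agree h p y} := fun J p hp => hp.1
  have e1 := A.op (i := 0) (k := 2) h3 y (hW.mul (unit_tup R (put y h 1)))
    ((hav.mono (hsub _)).mul (avoid_child h4 y h2 le_rfl (.inl ⟨rfl, by simp⟩)))
  have e2 := A.op (i := 1) (k := 3) h4 y (hW.mul (unit_tup L (put y h 2)))
    ((hav.mono (hsub _)).mul (avoid_child h3 y h2 le_rfl (.inl ⟨rfl, by simp⟩)))
  set a : Obs K := W * tup (.node h L R) y with ha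
  set b : Obs K := W * (tup L (put y h 2) * tup R (put y h 1))
  set c : Obs K := W * tupF 2 3 (.node h L R) y with hc
  have hba : Bdd b := (hW.mul ((unit_tup L _).mul (unit_tup R _))).bdd
  have h5 := A.pair_sub_le_nrm hO (hW.mul (unit_tup (.node h L R) y)).bdd hba
  have h6 := A.pair_sub_le_nrm hO hba (hW.mul (unit_tupF 2 3 (.node h L R) y)).bdd
  rw [show a - b = W * tup R (put y h 1) * (tup L (put y h 0) - tup L (put y h 2)) from by
    funext σ; simp only [a, b, tup, Pi.sub_apply, Pi.mul_apply]; ring] at h5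
  rw [show b - c = W * tup L (put y h 2) * (tup R (put y h 1) - tup R (put y h 3)) from by
    funext σ; simp only [b, c, tupF, Pi.sub_apply, Pi.mul_apply]; ring] at h6
  have h7 := abs_sub_le (A.pair O a) (A.pair O b) (A.pair O c)
  linarith

/-- The halves of several tuples move to fresh children. -/
theorem move_all {g : ℕ} (hv : (Sh.node h L R).Valid K g) (x : Fin m → Fin K → ℕ)
    (hsep : ∀ i j, i ≠ j → com' (x i) (x j) < h) {O : Obs K} (hO : Unit1 O) :
    |A.pair O (∏ i, tup (.node h L R) (x i)) - A.pair O (∏ i, tupF 2 3 (.node h L R) (x i))| ≤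
      m * (2 * (√(A.dev L h) + √(A.dev R h))) := by
  classical
  have hv' : (Sh.node h L R).Valid K h := hv.at_top
  set P : Finset (Fin m) → Fin m → Obs K := fun S i =>
    if i ∈ S then tupF 2 3 (.node h L R) (x i) else tup (.node h L R) (x i) with hP
  have hPu : ∀ S i, Unit1 (P S i) := fun S i => by
    simp only [hP]; split_ifs
    exacts [unit_tupF _ _ _ _, unit_tup _ _]
  suffices ∀ S : Finset (Fin m), |A.pair O (∏ i, P ∅ i) - A.pair O (∏ i, P S i)| ≤
      S.card * (2 * (√(A.dev L h) + √(A.dev R h))) by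
    simpa [hP] using this univ
  intro S
  induction S using Finset.induction_on with
  | empty => simp
  | insert j S hj ih =>
    set W : Obs K := ∏ i ∈ univ.erase j, P S i
    have hW : Avoid {p | Agree h p (x j)} W := by
      refine Avoid.prod _ fun i hi => ?_
      have hne : ∀ w, Agree h w (x i) → w ∉ {p | Agree h p (x j)} := fun w hw hw' => by
        have := (le_com'_iff (x i) (x j) hv'.2.1.le).2 (hw.symm.trans hw')
        have := hsep i j (ne_of_mem_erase hi)
        omega
      simp only [hP]; split_ifs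
      exacts [avoid_tupF _ _ _ _ hv' hne, avoid_tup _ _ hv' hne]
    have e1 : ∏ i, P S i = W * tup (.node h L R) (x j) := by
      rw [← prod_erase_mul _ _ (mem_univ j), show P S j = _ from if_neg hj]
    have e2 : ∏ i, P (insert j S) i = W * tupF 2 3 (.node h L R) (x j) := by
      rw [← prod_erase_mul _ _ (mem_univ j), show P (insert j S) j = _ from
        if_pos (mem_insert_self j S)]
      refine congrArg₂ _ (prod_congr rfl fun i hi => ?_) rfl
      simp only [hP, mem_insert, ne_of_mem_erase hi, false_or]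
    have h1 := A.move_node hv' (x j) hO (Unit1.prod _ fun i _ => hPu S i) hW
    rw [← e1, ← e2] at h1
    have := abs_sub_le (A.pair O (∏ i, P ∅ i)) (A.pair O (∏ i, P S i))
      (A.pair O (∏ i, P (insert j S) i))
    rw [card_insert_of_notMem hj, Nat.cast_succ, add_one_mul]
    linarith

end Arr

/-- The leaves of a tuple with its halves in the children `2` and `3`. -/
def pth23 (h : ℕ) (L R : Sh) (x : Fin K → ℕ) : Fin (L.size + R.size) → Fin K → ℕ :=
  Fin.append (pth L (put x h 2)) (pth R (put x h 3))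

theorem tupF_eq (h : ℕ) (L R : Sh) (x : Fin K → ℕ) :
    tupF 2 3 (.node h L R) x = spinProd fun u => (pth23 h L R x u, 0) := by
  funext σ
  show tup L (put x h 2) σ * tup R (put x h 3) σ = _
  simp only [tup_eq, spinProd, pth23, Fin.prod_univ_add, Fin.append_left, Fin.append_right]

theorem le_com'_pth23 {g : ℕ} (hv : (Sh.node h L R).Valid K g) (x : Fin K → ℕ)
    (u : Fin (L.size + R.size)) :
    ∃ k, (k = 2 ∨ k = 3) ∧ h + 1 ≤ com' (pth23 h L R x u) (put x h k) := by
  induction u using Fin.addCases with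
  | left i => exact ⟨2, .inl rfl, by
      simpa [pth23] using le_com'_pth L (put x h 2) hv.2.2.1 hv.2.1 i⟩
  | right i => exact ⟨3, .inr rfl, by
      simpa [pth23] using le_com'_pth R (put x h 3) hv.2.2.2 hv.2.1 i⟩

/-- The level between a replica outside the fresh children and a moved leaf. -/
theorem com'_pth23 {g : ℕ} (hv : (Sh.node h L R).Valid K g) (x w : Fin K → ℕ)
    (hw : ∀ k, k = 2 ∨ k = 3 → com' w (put x h k) ≤ h) (u : Fin (L.size + R.size)) :
    com' w (pth23 h L R x u) = min (com' w x) h := by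
  obtain ⟨k, hk, hu⟩ := le_com'_pth23 hv x u
  have h1 := com'_min_congr w hu
  have h2 := com'_min_congr w (com'_put_self x hv.2.1.le k)
  have := hw k hk
  omega

namespace Arr

variable (A : Arr K)

/-- A pattern of tuples may be replaced by tuples with fresh halves: only the levels to the nodes
of the tuples matter. -/
theorem value_le {g : ℕ} (hv : (Sh.node h L R).Valid K g) (x : Fin m → Fin K → ℕ)
    (hsep : ∀ i j, i ≠ j → com' (x i) (x j) < h) {F : (Fin n → Bool) → ℝ} (hF : ∀ v, |F v| ≤ 1)
    {o : Fin n → Fin K → ℕ} {o' : Fin n → Pt K} (hoinj : Function.Injective o)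
    (ho'inj : Function.Injective o') (hoo : ∀ a b, com' (o' a).1 (o' b).1 = com' (o a) (o b))
    {p : Fin m × Fin (Sh.node h L R).size → Pt K} (hpinj : Function.Injective p)
    (hp : ∀ a b, com' (p a).1 (p b).1 =
      com' (pth (.node h L R) (x a.1) a.2) (pth (.node h L R) (x b.1) b.2))
    (hcross : ∀ b a, min (com' (o' b).1 (p a).1) h = min (com' (o b) (x a.1)) h)
    (hfree : ∀ b i k, k = 2 ∨ k = 3 → com' (o b) (put (x i) h k) ≤ h) :
    |A.pair (obsAt F o') (spinProd p) -
        A.pair (obsAt F fun b => (o b, 0)) (∏ i, tupF 2 3 (.node h L R) (x i))| ≤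
      m * (2 * (√(A.dev L h) + √(A.dev R h))) := by
  classical
  have hhK : h < K := hv.2.1
  set c : Fin m × Fin (Sh.node h L R).size → Pt K := fun a => (pth (.node h L R) (x a.1) a.2, 0)
    with hc
  have hcinj : Function.Injective c := fun a b e => by
    by_contra hne
    have h1 := hp a b
    simp only [hc, Prod.mk.injEq, and_true] at e
    rw [e, com'_self] at h1
    rcases eq_or_ne a.1 b.1 with h2 | h2
    · have h3 : a.2 ≠ b.2 := fun e2 => hne (Prod.ext h2 e2)
      have := (com'_pth_lt (x b.1) hv h3).2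
      rw [h2] at e
      rw [e, com'_self] at this
      omega
    · have hx := fun i u => le_com'_pth _ (x i) hv.at_top hhK.le u
      have := hx a.1 a.2
      have h4 := hx b.1 b.2
      rw [← e] at h4
      have := com'_ultra (x a.1) (pth (.node h L R) (x a.1) a.2) (x b.1)
      have := hsep _ _ h2
      rw [com'_comm (x a.1) (pth _ _ _)] at *
      simp only [Sh.top] at *
      omega
  -- send the pattern to its canonical place
  obtain ⟨π, hπ, hπp⟩ := exists_treeMap p c (fun a b => hp a b)
    fun a b => by rw [hpinj.eq_iff, hcinj.eq_iff]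
  set M : ℕ := (univ.sup fun b => univ.sup fun l => (π (o' b)).1 l) + 4
  set σ : Equiv.Perm ℕ := Equiv.swap 2 M * Equiv.swap 3 (M + 1)
  set Q : Fin K → (Fin K → ℕ) → Equiv.Perm ℕ := fun l w =>
    if (l : ℕ) = h ∧ ∃ i, Agree h w (x i) then σ else 1 with hQ
  have hQl : Local Q := fun l w w' hw => by
    simp only [hQ]
    refine if_congr (and_congr_right fun hl => exists_congr fun i => ?_) rfl rfl
    rw [← hl]
    exact ⟨fun H => hw.symm.trans H, fun H => hw.trans H⟩
  set π' : Pt K → Pt K := fun a => (permMap Q (π a).1, (π a).2) with hπ'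
  have hπ'c : ∀ a b, com' (π' a).1 (π' b).1 = com' a.1 b.1 := fun a b =>
    ((permMap_tree hQl).2 (π a) (π b)).trans (hπ.2 a b)
  have hπ'i : Function.Injective π' := (permMap_tree hQl).1.comp hπ.1
  have hσ : σ 0 = 0 ∧ σ 1 = 1 ∧ σ M = 2 ∧ σ (M + 1) = 3 := by
    simp [σ, Equiv.swap_apply_def, M]
  have hfix : ∀ a, π' (p a) = c a := fun a => by
    simp only [hπ', hπp, hc]
    refine Prod.ext (funext fun l => ?_) rfl
    simp only [permMap, hQ]
    split_ifs with hl
    swap
    · rfl
    suffices pth (.node h L R) (x a.1) a.2 l = 0 ∨ pth (.node h L R) (x a.1) a.2 l = 1 by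
      rcases this with e | e <;> rw [e]
      exacts [hσ.1, hσ.2.1]
    obtain ⟨i, u⟩ := a
    induction u using Fin.addCases with
    | left u =>
      refine .inl ?_
      have := (le_com'_iff _ _ hhK).1 (le_com'_pth L (put (x i) h 0) hv.2.2.1 hhK u) l (by omega)
      simpa [pth, put_of_eq _ _ hl.1] using this
    | right u =>
      refine .inr ?_
      have := (le_com'_iff _ _ hhK).1 (le_com'_pth R (put (x i) h 1) hv.2.2.2 hhK u) l (by omega)
      simpa [pth, put_of_eq _ _ hl.1] using this
  have hfree' : ∀ b i k, k = 2 ∨ k = 3 → com' (π' (o' b)).1 (put (x i) h k) ≤ h := by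
    intro b i k hk
    by_contra hlt
    have hag := (le_com'_iff _ _ hhK).1 (Nat.succ_le_of_lt (not_le.1 hlt))
    have hag' : Agree h (π (o' b)).1 (x i) := fun l hl => by
      have := hag l (Nat.lt_succ_of_lt hl)
      rw [put_of_lt _ _ hl] at this
      change Q l (π (o' b)).1 ((π (o' b)).1 l) = _ at this
      rwa [show Q l (π (o' b)).1 = 1 from if_neg (by omega)] at this
    have := hag ⟨h, hhK⟩ (Nat.lt_succ_self h)
    rw [put_of_eq (x i) k (l := ⟨h, hhK⟩) rfl] at this
    change Q ⟨h, hhK⟩ (π (o' b)).1 ((π (o' b)).1 ⟨h, hhK⟩) = _ at this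
    rw [show Q ⟨h, hhK⟩ (π (o' b)).1 = σ from if_pos ⟨rfl, i, hag'⟩] at this
    have hle : (π (o' b)).1 ⟨h, hhK⟩ + 4 ≤ M := add_le_add_left
      ((le_sup (f := fun l => (π (o' b)).1 l) (mem_univ ⟨h, hhK⟩)).trans
        (le_sup (f := fun b => univ.sup fun l => (π (o' b)).1 l) (mem_univ b))) 4
    rcases hk with rfl | rfl
    · have := σ.injective (this.trans hσ.2.2.1.symm); omega
    · have := σ.injective (this.trans hσ.2.2.2.symm); omega
  -- the pattern in canonical place
  have e1 : A.pair (obsAt F o') (spinProd p) =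
      A.pair (obsAt F (π' ∘ o')) (∏ i, tup (.node h L R) (x i)) := by
    have e : (∏ i, tup (.node h L R) (x i)) = spinProd (π' ∘ p) := by
      funext σ
      simp only [Finset.prod_apply, tup_eq, spinProd, Function.comp_apply, hfix, hc,
        Fintype.prod_prod_type]
    rw [e]
    exact (A.pair_congr F (fun a b => ⟨(hπ'c _ _).symm, hπ'i.eq_iff.symm⟩)
      (fun a b => ⟨(hπ'c _ _).symm, hπ'i.eq_iff.symm⟩)
      fun a b => ⟨(hπ'c _ _).symm, hπ'i.eq_iff.symm⟩).symm
  -- fresh halves see the old replicas only through the levels of their nodes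
  have e2 : A.pair (obsAt F fun b => (o b, 0)) (∏ i, tupF 2 3 (.node h L R) (x i)) =
      A.pair (obsAt F (π' ∘ o')) (∏ i, tupF 2 3 (.node h L R) (x i)) := by
    set d : Fin m × Fin (L.size + R.size) → Pt K := fun a => (pth23 h L R (x a.1) a.2, 0)
    have e : (∏ i, tupF 2 3 (.node h L R) (x i)) = spinProd d := by
      funext σ
      simp only [Finset.prod_apply, tupF_eq, spinProd, d, Fintype.prod_prod_type]
    rw [e]
    refine A.pair_congr F (fun a b => ⟨?_, ?_⟩) (fun a b => ⟨rfl, Iff.rfl⟩) fun b a => ⟨?_, ?_⟩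
    · simp only [Function.comp_apply, hπ'c, hoo]
    · simp only [Function.comp_apply, hπ'i.eq_iff, ho'inj.eq_iff, Prod.mk.injEq, and_true,
        hoinj.eq_iff]
    · simp only [d, Function.comp_apply, com'_pth23 hv _ _ (hfree' b a.1),
        com'_pth23 hv _ _ (hfree b a.1)]
      obtain ⟨i, u0⟩ := a
      have h1 : min (com' (o' b).1 (p (i, u0)).1) h = min (com' (o b) (x i)) h := hcross b (i, u0)
      have h2 := com'_min_congr (π' (o' b)).1
        (le_com'_pth (.node h L R) (x i) hv.at_top hhK.le u0)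
      have h3 : com' (π' (o' b)).1 (pth (.node h L R) (x i) u0) =
          com' (o' b).1 (p (i, u0)).1 := by
        rw [← hπ'c, hfix]
      simp only [Sh.top] at h2
      show min (com' (π' (o' b)).1 (x i)) h = min (com' (o b) (x i)) h
      omega
    · have key : ∀ w, (∀ k, k = 2 ∨ k = 3 → com' w (put (x a.1) h k) ≤ h) →
          w ≠ pth23 h L R (x a.1) a.2 := by
        intro w hw e
        have h4 := com'_pth23 hv (x a.1) w hw a.2
        rw [← e, com'_self] at h4
        omega
      simp only [d, Function.comp_apply]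
      exact iff_of_false (fun e => key _ (hfree' b a.1) (congrArg Prod.fst e))
        fun e => key _ (hfree b a.1) (congrArg Prod.fst e)
  rw [e1, e2]
  exact A.move_all hv x hsep (unit_obsAt hF _)

end Arr

end Vale.Agent.P168
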