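import Vale.Agent.P168.Tel.Bridge
import Vale.Agent.P168.Tel.Value

/-!
P168, telescope: the sum over completions follows the sum of values, and the identity relates the
values for a test to those for the constant test.
-/

open Finset MeasureTheory

noncomputable section

namespace Vale.Agent.P168.Tel

variable {K n i j q : ℕ}

/-- The test of an observable of the old replicas. -/
def fv (F : (Fin n → Bool) → ℝ) : (Fin n → ℕ → Bool) → ℝ := fun τ => F fun b => τ b 0

theorem measurable_fv (F : (Fin n → Bool) → ℝ) : Measurable (fv F) :=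
  (Measurable.of_discrete (f := F)).comp
    (measurable_pi_lambda _ fun b => (measurable_pi_apply 0).comp (measurable_pi_apply b))

variable {A : Arr K} {U0 : Lvls K n} {V : ℕ → ℕ → Fin (K + 1)} {F : (Fin n → Bool) → ℝ}

/-- One term with the value replaced. -/
theorem term_close (hF : ∀ v, |F v| ≤ 1) {χ : Fin q → Fin (n + j)}
    {ζ η : (Fin n → Fin (K + 1)) → ℝ} (hq : 1 < q)
    (h : ∀ U : Lvls K (n + j), U.IsTree → Fits U0 V χ U →
      |A.pair (obsAt F fun b => place U (Fin.castAdd j b)) (spinProd fun x => place U (χ x)) -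
          ζ (fun b => U (χ ⟨1, hq⟩) (Fin.castAdd j b))| ≤
        η (fun b => U (χ ⟨1, hq⟩) (Fin.castAdd j b))) :
    |term A U0 V (fv F) χ - (-1) ^ j * (n.ascFactorial j : ℝ) * W U0 V ζ χ| ≤
      (n.ascFactorial j : ℝ) * W U0 V η χ := by
  classical
  unfold term Arr.rep W
  rw [← mul_sub, abs_mul, abs_mul, abs_pow, abs_neg, abs_one, one_pow, one_mul,
    abs_of_nonneg (Nat.cast_nonneg' _ : (0 : ℝ) ≤ (n.ascFactorial j : ℝ)), ← sum_sub_distrib]
  refine mul_le_mul_of_nonneg_left ((abs_sum_le_sum_abs _ _).trans (sum_le_sum fun U _ => ?_))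
    (Nat.cast_nonneg' _)
  by_cases hf : Fits U0 V χ U
  swap
  · simp [hf]
  by_cases hU : U.IsTree
  swap
  · simp [treeW_eq_zero hU]
  have hint : ∫ σ, (if Fits U0 V χ U then fv F (fun a i => σ (place U (Fin.castAdd j a)) (i + 1)) *
      ∏ x, sgn (σ (place U (χ x)) 0) else 0) ∂A.law =
      A.pair (obsAt F fun b => place U (Fin.castAdd j b)) (spinProd fun x => place U (χ x)) := by
    simp only [if_pos hf]
    exact A.two_site_eq (unit_obsAt hF fun b => place U (Fin.castAdd j b)).1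
      (unit_spinProd fun x => place U (χ x)).1 (one_ne_zero (α := ℕ))
  rw [hint]
  simp only [if_pos hf, val, dif_pos hq, ← mul_sub, abs_mul, abs_of_nonneg (treeW_nonneg U)]
  exact mul_le_mul_of_nonneg_left (h U hU hf) (treeW_nonneg U)

/-- The sum over completions with the values replaced. -/
theorem cmp_close (hF : ∀ v, |F v| ≤ 1) {ζ η : (Fin n → Fin (K + 1)) → ℝ} (hq : 1 < q) :
    ∀ (r : ℕ) {i j : ℕ} (hir : i + r = q) {χ : Fin i → Fin (n + j)}, Good χ →
    (∀ (j' : ℕ) (χ' : Fin q → Fin (n + j')), Good χ' →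
      (∀ x : Fin i, typ χ' ⟨x, by omega⟩ = typ χ x) →
      ∀ U : Lvls K (n + j'), U.IsTree → Fits U0 V χ' U →
        |A.pair (obsAt F fun b => place U (Fin.castAdd j' b)) (spinProd fun x => place U (χ' x)) -
            ζ (fun b => U (χ' ⟨1, hq⟩) (Fin.castAdd j' b))| ≤
          η (fun b => U (χ' ⟨1, hq⟩) (Fin.castAdd j' b))) →
    |Cmp (fun _ χ => term A U0 V (fv F) χ) r hir χ - Sg U0 V ζ (-1) r χ| ≤ Sg U0 V η 1 r χ
  | 0, i, j, hir, χ, hg, h => by
    obtain rfl : i = q := by omega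
    simp only [Cmp, Sg, one_pow, one_mul, Fin.eta]
    exact term_close hF hq fun U hU hf => h j χ hg (fun x => rfl) U hU hf
  | r + 1, i, j, hir, χ, hg, h => by
    rw [Cmp, Sg, Sg]
    have hext : ∀ {j₁ : ℕ} {χ₁ : Fin (i + 1) → Fin (n + j₁)} (o : Option (Fin n)),
        typ χ₁ = Fin.snoc (typ χ) o → ∀ (j' : ℕ) (χ' : Fin q → Fin (n + j')),
          (∀ x : Fin (i + 1), typ χ' ⟨x, by omega⟩ = typ χ₁ x) →
          ∀ x : Fin i, typ χ' ⟨x, by omega⟩ = typ χ x := by
      intro j₁ χ₁ o ho j' χ' hx x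
      have := hx x.castSucc
      rwa [ho, Fin.snoc_castSucc] at this
    have hold := fun b : Fin n => cmp_close hF hq r (by omega : i + 1 + r = q) (hg.old b)
      fun j' χ' hg' hx => h j' χ' hg' (hext _ (typ_old χ b) j' χ' hx)
    have hnew := cmp_close hF hq r (by omega : i + 1 + r = q) hg.new
      fun j' χ' hg' hx => h j' χ' hg' (hext _ (typ_new χ) j' χ' hx)
    change |_ - ((∑ b, _) + Sg U0 V ζ (-1) r (addNew χ))| ≤
      (∑ b, _) + Sg U0 V η 1 r (addNew χ)
    rw [add_sub_add_comm, ← sum_sub_distrib]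
    exact (abs_add_le _ _).trans
      (add_le_add ((abs_sum_le_sum_abs _ _).trans (sum_le_sum fun b _ => hold b)) hnew)

/-- The pattern seen through a relabelling of the leaves. -/
def rel (V : ℕ → ℕ → Fin (K + 1)) (e : Equiv.Perm (Fin q)) : ℕ → ℕ → Fin (K + 1) := fun x y =>
  if h : x < q ∧ y < q then V (e ⟨x, h.1⟩) (e ⟨y, h.2⟩) else Fin.last K

theorem rel_apply (V : ℕ → ℕ → Fin (K + 1)) (e : Equiv.Perm (Fin q)) (x y : Fin q) :
    rel V e x y = V (e x) (e y) := dif_pos ⟨x.isLt, y.isLt⟩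

theorem Pat.rel (hV : Pat K q V) (e : Equiv.Perm (Fin q)) : Pat K q (rel V e) := by
  have ne : ∀ {x y : ℕ} (hx : x < q) (hy : y < q), x ≠ y →
      (e ⟨x, hx⟩ : ℕ) ≠ (e ⟨y, hy⟩ : ℕ) := fun hx hy h h' =>
    h (congrArg Fin.val (e.injective (Fin.ext h')))
  refine ⟨fun a ha => ?_, fun a ha b hb => ?_, fun a ha b hb c hc => ?_, fun a ha b hb hab => ?_,
    fun a ha b hb c hc hab hbc hac => ?_⟩ <;> simp only [Tel.rel, *, and_self, dif_pos]
  · exact hV.diag _ (e _).isLt
  · exact hV.symm _ (e _).isLt _ (e _).isLt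
  · exact hV.ultra _ (e _).isLt _ (e _).isLt _ (e _).isLt
  · exact hV.off _ (e _).isLt _ (e _).isLt (ne _ _ hab)
  · exact hV.binary _ (e _).isLt _ (e _).isLt _ (e _).isLt (ne _ _ hab) (ne _ _ hbc) (ne _ _ hac)

theorem Good.comp {χ : Fin q → Fin (n + j)} (h : Good χ) (e : Equiv.Perm (Fin q)) :
    Good (χ ∘ e) :=
  ⟨fun z hz => by
    obtain ⟨k, hk⟩ := h.1 z hz
    exact ⟨e.symm k, by simp [hk]⟩,
  fun x y hx hxy => e.injective (h.2 _ _ hx hxy)⟩

/-- Every assignment of kinds is realised. -/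
theorem exists_good (φ : Fin q → Option (Fin n)) :
    ∃ χ : Fin q → Fin (n + Fintype.card {x // φ x = none}), Good χ ∧ typ χ = φ := by
  classical
  refine ⟨fun x => if h : φ x = none then Fin.natAdd n (Fintype.equivFin _ ⟨x, h⟩)
    else Fin.castAdd _ ((φ x).get (Option.isSome_iff_ne_none.2 h)), ⟨fun z hz => ?_,
    fun x y hx hxy => ?_⟩, funext fun x => ?_⟩
  · set w : Fin (Fintype.card {x // φ x = none}) := ⟨(z : ℕ) - n, by omega⟩
    refine ⟨((Fintype.equivFin _).symm w).1, ?_⟩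
    simp only [dif_pos ((Fintype.equivFin _).symm w).2, Subtype.coe_eta, Equiv.apply_symm_apply]
    exact Fin.ext (by simp [w]; omega)
  · by_cases h1 : φ x = none <;> by_cases h2 : φ y = none
    · simp only [dif_pos h1, dif_pos h2, Fin.natAdd_inj] at hxy
      simpa using (Fintype.equivFin _).injective hxy
    all_goals simp [h1, h2, Fin.ext_iff] at hx hxy; omega
  · by_cases h : φ x = none
    · simp [typ, h]
    · simp [typ, h]

theorem termT_comp (hA : A.RepSym) (hn : 0 < n) (e : Equiv.Perm (Fin q))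
    (φ : Fin q → Option (Fin n)) :
    termT A U0 V (fv F) φ = termT A U0 (rel V e) (fv F) (φ ∘ e) := by
  classical
  obtain ⟨χ, hχ, ht⟩ := exists_good φ
  have h1 := term_eq_termT (U0 := U0) (V := V) hA hn (measurable_fv F) hχ
  have h2 := term_eq_termT (U0 := U0) (V := rel V e) hA hn (measurable_fv F) (hχ.comp e)
  rw [ht] at h1
  rw [show typ (χ ∘ e) = φ ∘ e from funext fun x => congrFun ht (e x)] at h2
  rw [← h1, ← h2]
  unfold term
  congr 2
  funext U σ
  refine if_congr (and_congr Iff.rfl ⟨fun h x y => ?_, fun h x y => ?_⟩) ?_ rfl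
  · rw [rel_apply]; exact h (e x) (e y)
  · have := h (e.symm x) (e.symm y)
    rwa [rel_apply, Function.comp_apply, Function.comp_apply, Equiv.apply_symm_apply,
      Equiv.apply_symm_apply] at this
  · rw [← Equiv.prod_comp e fun x => sgn (σ (χ x) 0)]
    rfl

/-- The marked replica alone. -/
def χ₀ (z : Fin n) : Fin 1 → Fin (n + 0) := fun _ => Fin.castAdd 0 z

theorem good_χ₀ (z : Fin n) : Good (χ₀ z) :=
  ⟨fun x hx => absurd x.isLt (by omega), fun x y _ _ => Subsingleton.elim x y⟩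

/-- The identity for a pattern is close to `q` times a common value of the sums over completions. -/
theorem identSum_close (hA : A.RepSym) (hF : ∀ v, |F v| ≤ 1) (hn : 0 < n) (hU0 : U0.IsTree)
    (hV : Pat K q V) (hq : 1 + (q - 1) = q) {X E : ℝ}
    (h : ∀ i₀ : Fin q, ∃ e : Equiv.Perm (Fin q), e ⟨0, by omega⟩ = i₀ ∧
      |Cmp (fun _ χ => term A U0 (rel V e) (fv F) χ) (q - 1) hq (χ₀ ⟨0, hn⟩) - X| ≤ E) :
    |A.identSum hn (patFun q V) (fun U τ => if U = U0 then fv F τ else 0) - q * X| ≤ q * E := by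
  classical
  rw [identSum_eq hA hn hU0 hV (measurable_fv F) ⟨1, fun τ => hF _⟩,
    show (q : ℝ) * X = ∑ _i₀ : Fin q, X by simp,
    show (q : ℝ) * E = ∑ _i₀ : Fin q, E by simp, ← sum_sub_distrib]
  refine (abs_sum_le_sum_abs _ _).trans (sum_le_sum fun i₀ _ => ?_)
  obtain ⟨e, he, hE⟩ := h i₀
  refine le_of_eq_of_le (congrArg _ (congrArg (· - X) ?_)) hE
  rw [Cmp_term hA hn (measurable_fv F) _ hq (good_χ₀ _)]
  set ext' : (Fin (q - 1) → Option (Fin n)) → Fin q → Option (Fin n) := fun ψ x =>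
    if hx : (x : ℕ) < 1 then typ (χ₀ (⟨0, hn⟩ : Fin n)) ⟨x, hx⟩ else ψ ⟨x - 1, by omega⟩
  refine (sum_bij' (fun ψ _ => ext' ψ ∘ e.symm)
    (fun φ _ k => φ (e ⟨k + 1, by omega⟩)) (fun ψ _ => ?_) (fun φ _ => mem_univ _)
    (fun ψ _ => funext fun k => ?_) (fun φ hφ => funext fun x => ?_) fun ψ _ => ?_).symm
  · simp [ext', ← he, typ, χ₀, hn]
  · simp [ext']
  · simp only [mem_filter, mem_univ, true_and] at hφ
    obtain ⟨y, rfl⟩ := e.surjective x
    simp only [ext', Function.comp_apply, Equiv.symm_apply_apply]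
    split_ifs with hy
    · have : e y = i₀ := (congrArg e (Fin.ext (show (y : ℕ) = 0 by omega))).trans he
      refine Eq.trans ?_ ((congrArg φ this).trans hφ).symm
      simp [typ, χ₀, hn]
    · congr 2
      exact Fin.ext (by simp; omega)
  · refine Eq.symm ((termT_comp hA hn e _).trans (congrArg _ (funext fun x => ?_)))
    simp [ext']

/-- The values for a test against those for the constant test. -/
theorem ident_core (hA : A.Ident) (hn : 0 < n) (hq : 1 ≤ q) (hV : Pat K q V)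
    (hF : ∀ v, |F v| ≤ 1) {X₁ X E : ℝ}
    (h₁ : |A.identSum hn (patFun q V) (fun U τ => if U = U0 then fv (fun _ => 1) τ else 0)
      - q * X₁| ≤ q * E)
    (h : |A.identSum hn (patFun q V) (fun U τ => if U = U0 then fv F τ else 0) - q * X| ≤ q * E) :
    |X - X₁ * A.mean (obsAt F (place U0))| ≤ 2 * E := by
  classical
  obtain ⟨c, hc⟩ := hA.2 q hq (patFun q V) (patFun_shape hV)
  set μ := A.mean (obsAt F (place U0)) with hμdef
  have hrep : ∀ G : (Fin n → Bool) → ℝ, A.rep (fun (U : Lvls K n) τ =>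
      if U = U0 then fv G τ else 0) = treeW K n U0 * A.mean (obsAt G (place U0)) := by
    intro G
    unfold Arr.rep
    rw [sum_eq_single U0 (fun U _ hU => by simp [hU]) (by simp)]
    simp only [if_true]
    rfl
  have hsup : ∀ G : (Fin n → Bool) → ℝ, ∀ (U : Lvls K n) (σ τ : Fin n → ℕ → Bool),
      (∀ a, ∀ i < 1, σ a i = τ a i) →
        (if U = U0 then fv G σ else 0) = (if U = U0 then fv G τ else 0) := fun G U σ τ hστ => by
    simp only [fv, fun a => hστ a 0 zero_lt_one]
  rw [hc n hn 1 _ (hsup F), hrep] at h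
  rw [hc n hn 1 _ (hsup _), hrep] at h₁
  have h1 : A.mean (obsAt (fun _ : Fin n → Bool => (1 : ℝ)) (place U0)) = 1 := by
    have := A.prob
    simp [Arr.mean, obsAt]
  rw [h1, mul_one] at h₁
  have hμ : |μ| ≤ 1 := A.abs_mean_le_one (unit_obsAt hF _)
  have hqpos : (0 : ℝ) < q := by exact_mod_cast hq
  have h1' := mul_le_mul_of_nonneg_right h₁ (abs_nonneg μ)
  rw [← abs_mul] at h1'
  have hsplit : (q : ℝ) * (X - X₁ * μ) =
      (c * treeW K n U0 - q * X₁) * μ - (c * (treeW K n U0 * μ) - q * X) := by ring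
  have h2 : |(q : ℝ) * (X - X₁ * μ)| ≤ q * E + q * E := by
    rw [hsplit]
    refine (abs_sub _ _).trans (add_le_add (h1'.trans ?_) h)
    exact mul_le_of_le_one_right ((abs_nonneg _).trans h₁) hμ
  rw [abs_mul, abs_of_pos hqpos, ← mul_add] at h2
  linarith [le_of_mul_le_mul_left h2 hqpos]

end Vale.Agent.P168.Tel
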