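import Vale.Agent.P168.Tel.Shape

/-!
P168, telescope: evaluation of the sums over completions at the root of a pattern.
-/

open Finset

noncomputable section

namespace Vale.Agent.P168.Tel

variable {K n a h k : ℕ} {U0 : Lvls K n} {V : ℕ → ℕ → Fin (K + 1)}

/-- The combination of the values of the identity at the root. -/
def br (K a h : ℕ) (P : ℕ → ℝ) : ℝ :=
  mpar K h * P h - gapK K * ∑ c ∈ Ioo a h, P c - (mpar K (a + 1) + gapK K) * P a

theorem sum_diff (P : ℕ → ℝ) (a : ℕ) : ∀ d : ℕ,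
    ∑ l ∈ Ioc a (a + d), (P l - P (l - 1)) = P (a + d) - P a
  | 0 => by simp
  | d + 1 => by
    rw [show Ioc a (a + (d + 1)) = insert (a + d + 1) (Ioc a (a + d)) from by
      ext x; simp; omega, sum_insert (by simp), sum_diff P a d, Nat.add_sub_cancel,
      show a + (d + 1) = a + d + 1 by omega]
    ring

theorem sum_mpar_diff (K : ℕ) (P : ℕ → ℝ) (a : ℕ) : ∀ d : ℕ,
    ∑ l ∈ Ioc a (a + 1 + d), mpar K l * (P l - P (l - 1)) =
      mpar K (a + 1 + d) * P (a + 1 + d) - mpar K (a + 1) * P a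
        - gapK K * ∑ c ∈ Ioo a (a + 1 + d), P c
  | 0 => by
    rw [show Ioc a (a + 1 + 0) = {a + 1} from by ext x; simp,
      show Ioo a (a + 1 + 0) = ∅ from by ext x; simp]
    simp only [sum_singleton, sum_empty, Nat.add_sub_cancel, add_zero]
    ring
  | d + 1 => by
    rw [show Ioc a (a + 1 + (d + 1)) = insert (a + 1 + d + 1) (Ioc a (a + 1 + d)) from by
      ext x; simp; omega, sum_insert (by simp), sum_mpar_diff K P a d, Nat.add_sub_cancel,
      show Ioo a (a + 1 + (d + 1)) = insert (a + 1 + d) (Ioo a (a + 1 + d)) from by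
        ext x; simp; omega, sum_insert (by simp),
      show a + 1 + (d + 1) = a + 1 + d + 1 by omega, mpar_succ K (a + 1 + d)]
    ring

theorem br_const (hah : a < h) (c : ℝ) : br K a h (fun _ => c) = -(gapK K * c) := by
  obtain ⟨d, rfl⟩ : ∃ d, h = a + 1 + d := ⟨h - (a + 1), by omega⟩
  have := sum_mpar_diff K (fun _ => c) a d
  simp only [sub_self, mul_zero, sum_const_zero] at this
  unfold br
  linarith

/-- The old and the new partners of the mark. -/
theorem root_sum (hU0 : U0.IsTree) (hV : Pat K 2 V) (z b₁ : Fin n) (hah : a < h) (hhK : h ≤ K)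
    (hV01 : (V 0 1 : ℕ) = a) (hzb : (U0 z b₁ : ℕ) = a)
    (hk : (univ.filter fun b => (U0 z b : ℕ) = a).card = k)
    (hin : ∀ b, (U0 z b : ℕ) = a → h ≤ (U0 b b₁ : ℕ))
    (P : ℕ → ℝ) (hP : ∀ c, h ≤ c → P c = P h) :
    (∑ b, wt U0 V (fun R => P (R b₁ : ℕ)) (Fin.snoc (χ₀ z) (Fin.castAdd 0 b))) -
        wt U0 V (fun R => P (R b₁ : ℕ)) (addNew (χ₀ z)) =
      treeW K n U0 * br K a h P := by
  classical
  have hold : ∑ b, wt U0 V (fun R => P (R b₁ : ℕ)) (Fin.snoc (χ₀ z) (Fin.castAdd 0 b)) =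
      treeW K n U0 * (k * P h) := by
    rw [sum_congr rfl (g := fun b => if (U0 z b : ℕ) = a then treeW K n U0 * P h else 0) fun b _ => ?_]
    · rw [← sum_filter, sum_const, hk, nsmul_eq_mul]; ring
    · rw [wt_old hU0 hV]
      by_cases hb : (U0 z b : ℕ) = a
      · rw [if_pos hb, if_pos (Fin.ext (hb.trans hV01.symm)), hP _ (hin b hb)]
      · rw [if_neg hb, if_neg fun e => hb ((congrArg Fin.val e).trans hV01)]
  set c : Lvls K (n + 1) → ℕ := fun U' => (U' b₁.castSucc (Fin.last n) : ℕ)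
  have hpt : ∀ U' : Lvls K (n + 1),
      (if U'.init = U0 ∧ U' z.castSucc (Fin.last n) = V 0 1 then
        treeW K (n + 1) U' * P (U' (Fin.last n) b₁.castSucc : ℕ) else 0) =
      P a * (if U'.init = U0 ∧ (U' z.castSucc (Fin.last n) : ℕ) = a then treeW K (n + 1) U' else 0) +
        ∑ l ∈ Ioc a h, (P l - P (l - 1)) *
          (if U'.init = U0 ∧ l ≤ c U' then treeW K (n + 1) U' else 0) := by
    intro U'
    by_cases hi : U'.init = U0
    swap
    · simp [hi]
    by_cases hU : U'.IsTree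
    swap
    · simp [treeW_eq_zero hU]
    have hz : (U' z.castSucc b₁.castSucc : ℕ) = a := by rw [← hzb, ← hi]; rfl
    have h1 := hU.2.2 z.castSucc b₁.castSucc (Fin.last n)
    have h2 := hU.2.2 b₁.castSucc z.castSucc (Fin.last n)
    have h3 := hU.2.2 z.castSucc (Fin.last n) b₁.castSucc
    rw [hU.2.1 b₁.castSucc z.castSucc] at h2
    rw [hU.2.1 (Fin.last n) b₁.castSucc] at h3
    simp only [Fin.le_def, Fin.coe_min] at h1 h2 h3
    rw [hU.2.1 (Fin.last n) b₁.castSucc]
    simp only [hi, true_and, Fin.ext_iff, hV01, c]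
    by_cases hz' : (U' z.castSucc (Fin.last n) : ℕ) = a
    · rw [if_pos hz', if_pos hz']
      have hca : a ≤ (U' b₁.castSucc (Fin.last n) : ℕ) := by omega
      set m := min (U' b₁.castSucc (Fin.last n) : ℕ) h
      have hf : (Ioc a h).filter (fun l => l ≤ (U' b₁.castSucc (Fin.last n) : ℕ)) = Ioc a m := by
        ext l; simp [m]; omega
      obtain ⟨d, hd⟩ : ∃ d, m = a + d := ⟨m - a, by omega⟩
      have hPm : P (U' b₁.castSucc (Fin.last n) : ℕ) = P m := by
        rcases le_total (U' b₁.castSucc (Fin.last n) : ℕ) h with hle | hle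
        · simp [m, hle]
        · simp [m, hle, hP _ hle]
      rw [sum_congr rfl (g := fun l => if l ≤ (U' b₁.castSucc (Fin.last n) : ℕ) then
          treeW K (n + 1) U' * (P l - P (l - 1)) else 0) fun l _ => by split_ifs <;> ring,
        ← sum_filter, hf, ← mul_sum, hd, sum_diff, ← hd, hPm]
      ring
    · rw [if_neg hz', if_neg hz', mul_zero, zero_add]
      exact (sum_eq_zero fun l hl => by
        rw [mem_Ioc] at hl
        rw [if_neg (by omega), mul_zero]).symm
  have hnew : wt U0 V (fun R => P (R b₁ : ℕ)) (addNew (χ₀ z)) = treeW K n U0 *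
      (P a * (gapK K + k) + ∑ l ∈ Ioc a h, (P l - P (l - 1)) * (k - mpar K l)) := by
    have hex := sum_exact hU0 z (show a < K by omega)
    rw [hk] at hex
    rw [wt_new hV z, sum_congr rfl fun U' _ => hpt U', sum_add_distrib, ← mul_sum, mul_add,
      mul_left_comm, hex, sum_comm]
    conv_rhs => rw [mul_add]
    refine congrArg₂ (fun x y : ℝ => x + y) ?_ ?_
    · ring
    simp only [← mul_sum]
    rw [mul_sum, mul_sum]
    refine sum_congr rfl fun l hl => ?_
    rw [mem_Ioc] at hl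
    have hnode : (U0.node b₁ l).card = k := by
      rw [← hk]
      congr 1
      ext x
      simp only [Lvls.node, mem_filter, mem_univ, true_and]
      have h1 := hU0.2.2 z b₁ x
      have h2 := hU0.2.2 b₁ x z
      rw [hU0.2.1 x z, hU0.2.1 b₁ z] at h2
      simp only [Fin.le_def, Fin.coe_min] at h1 h2
      constructor
      · intro hx; omega
      · intro hx
        have := hin x hx
        rw [hU0.2.1 x b₁] at this
        omega
    rw [treeW_marg hU0 b₁ (L := l) (by omega), hnode]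
    have hn : (n : ℝ) ≠ 0 := by exact_mod_cast (Fin.pos z).ne'
    field_simp
  obtain ⟨d, rfl⟩ : ∃ d, h = a + 1 + d := ⟨h - (a + 1), by omega⟩
  have hs := sum_diff P a (1 + d)
  rw [← add_assoc] at hs
  have hm := sum_mpar_diff K P a d
  rw [hold, hnew, sum_congr rfl (g := fun l => (k : ℝ) * (P l - P (l - 1)) -
      mpar K l * (P l - P (l - 1))) fun l _ => by ring, sum_sub_distrib, ← mul_sum, hs, hm]
  unfold br
  ring

/-- The signed sum at the root. -/
theorem Sg_root {ζ : (Fin n → Fin (K + 1)) → ℝ} (hn : 0 < n) {r : ℕ} (hV : Pat K (r + 2) V)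
    (z : Fin n) :
    Sg U0 V ζ (-1) (r + 1) (χ₀ z) = (-gapK K) ^ r *
      ((∑ b, wt U0 V ζ (Fin.snoc (χ₀ z) (Fin.castAdd 0 b))) - wt U0 V ζ (addNew (χ₀ z))) := by
  rw [Sg]
  change (∑ b, _) + Sg U0 V ζ (-1) r (addNew (χ₀ z)) = _
  rw [sum_congr rfl fun b _ => Sg_signed hn r le_rfl (hV.mono (by omega)) ((good_χ₀ z).1.old b),
    Sg_signed hn r le_rfl (hV.mono (by omega)) (good_χ₀ z).1.new, mul_sub, mul_sum]
  simp only [pow_zero, one_mul, zero_add, pow_one, neg_mul, mul_neg]
  ring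

/-- The absolute sum at the root. -/
theorem Sg_root_le (hn : 0 < n) (hU0 : U0.IsTree) {r : ℕ} (hV : Pat K (r + 2) V)
    (hS : Sep U0 V a (r + 2)) (z : Fin n) :
    Sg U0 V (fun _ => 1) 1 (r + 1) (χ₀ z) ≤
      (n : ℝ) * (2 + 2 * r) * gapK K ^ r * treeW K n U0 := by
  have hp := gapK_pos K
  have hS' : ∀ {q}, q ≤ r + 2 → Sep U0 V a q := fun hq x hx y hy => hS x (by omega) y (by omega)
  have hold : ∀ b, Sg U0 V (fun _ => 1) 1 r (Fin.snoc (χ₀ z) (Fin.castAdd 0 b)) ≤
      gapK K ^ r * treeW K n U0 := by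
    intro b
    rw [Sg_two hn r (a := a) le_rfl (hV.mono (by omega)) (hS' (by omega)) ((good_χ₀ z).1.old b)
      ⟨0, 1, by simp, z, b, rfl, rfl⟩, one_mul, pow_zero, one_mul, wt_old hU0 (hV.mono (by omega))]
    refine mul_le_mul_of_nonneg_left ?_ (by positivity)
    split_ifs
    exacts [(mul_one _).le, treeW_nonneg _]
  have hnew := Sg_abs_le hn hU0 z r 1 le_rfl
    (show Pat K (1 + 1 + r) V from hV.mono (by omega)) (hS' (by omega : 1 + 1 + r ≤ r + 2))
  have hfirst := mul_le_mul_of_nonneg_left (wt_first_le (V := V) hn hU0 z) (pow_nonneg hp.le r)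
  rw [show 1 + r - 1 = r by omega] at hnew
  rw [Sg]
  change (∑ b, _) + Sg U0 V (fun _ => 1) 1 r (markNews z 1) ≤ _
  refine (add_le_add (sum_le_sum fun b _ => hold b) hnew).trans ?_
  rw [sum_const, card_univ, Fintype.card_fin, nsmul_eq_mul]
  linarith

end Vale.Agent.P168.Tel
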