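import Vale.Agent.P168.Tel.Below
import Vale.Agent.P168.Tel.Root

/-!
P168, telescope: a duo attached to a duo at the same level.
-/

open Finset MeasureTheory

noncomputable section

namespace Vale.Agent.P168.Tel

variable {K n a h q : ℕ} {A : Arr K}

/-- The node of the second tuple when the new replica has level `c` from it. -/
def xc (K a h c : ℕ) : Fin K → ℕ :=
  if c ≤ a then put (fun _ => 0) a 2
  else if c < h then put (put (fun _ => 0) a 1) c 2
  else put (fun _ => 0) a 1

/-- Two tuples with fresh halves, in the child `0` and at a given node. -/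
def Uat (a : ℕ) (t : Sh) (x : Fin K → ℕ) : Obs K :=
  fun σ => tupF 2 3 t (put (fun _ => 0) a 0) σ * tupF 2 3 t x σ

theorem com'_xc_one (hah : a < h) (hhK : h ≤ K) {c : ℕ} (hc : a ≤ c) :
    min (com' (put (fun _ => 0) a 1) (xc K a h c)) h = min c h := by
  unfold xc
  split_ifs with h1 h2
  · rw [com'_put_put _ (hah.trans_le hhK) (by norm_num : (1 : ℕ) ≠ 2)]; omega
  · have e : put (put (fun _ : Fin K => (0 : ℕ)) a 1) c 0 = put (fun _ => 0) a 1 := funext fun l => by
      unfold put; split_ifs <;> omega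
    have := com'_put_put (put (fun _ : Fin K => (0 : ℕ)) a 1) (h2.trans_le hhK)
      (by norm_num : (0 : ℕ) ≠ 2)
    rw [e] at this
    rw [this]
  · rw [com'_self]; omega

theorem com'_xc_zero (hah : a < h) (hhK : h ≤ K) (c : ℕ) :
    com' (put (fun _ => 0) a 0) (xc K a h c) = a := by
  have haK := hah.trans_le hhK
  unfold xc
  split_ifs with h1 h2
  · exact com'_put_put _ haK (by norm_num)
  · refine com'_children haK (fun _ => 0) (by norm_num : (0 : ℕ) ≠ 1) (by rw [com'_self]; omega) ?_
    have := com'_put_self (put (fun _ : Fin K => (0 : ℕ)) a 1) (h2.trans_le hhK).le 2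
    omega
  · exact com'_put_put _ haK (by norm_num)

/-- Means of products of spins depend only on the levels. -/
theorem mean_congr_paths {ι : Type*} [Fintype ι] {p p' : ι → Fin K → ℕ}
    (hp : ∀ i j, com' (p i) (p j) = com' (p' i) (p' j)) :
    A.mean (spinProd fun i => (p' i, 0)) = A.mean (spinProd fun i => (p i, 0)) := by
  have heq : ∀ x y : Fin K → ℕ, com' x y = K → x = y := fun x y h => funext fun l =>
    (le_com'_iff x y le_rfl).1 h.ge l l.isLt
  refine A.integral_congr (fun i => (p i, 0)) (fun i => (p' i, 0)) hp (fun i j => ?_) (τ := id)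
    Function.injective_id (g := fun τ => ∏ i, sgn (τ i 0)) ?_
  · simp only [Prod.mk.injEq, and_true]
    exact ⟨fun e => heq _ _ (by rw [← hp, e, com'_self]),
      fun e => heq _ _ (by rw [hp, e, com'_self])⟩
  · exact Finset.measurable_prod _ fun i _ =>
      (Measurable.of_discrete (f := sgn)).comp (by fun_prop)

/-- The copy of a tuple. -/
def cp (k : ℕ) : Fin 2 → Fin k → Fin (k + k) := ![Fin.castAdd k, Fin.natAdd k]

theorem exists_cp {k : ℕ} (w : Fin (k + k)) : ∃ i u, w = cp k i u := by
  induction w using Fin.addCases with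
  | left u => exact ⟨0, u, rfl⟩
  | right u => exact ⟨1, u, rfl⟩

theorem cp_inj {k : ℕ} {i j : Fin 2} {u v : Fin k} (e : cp k i u = cp k j v) : i = j ∧ u = v := by
  fin_cases i <;> fin_cases j <;> simp [cp, Fin.ext_iff] at e ⊢ <;> omega

theorem com'_cp {t : Sh} (ht : t.Valid K (a + 1)) (ha : a < K) (i j : Fin 2) (u v : Fin t.size) :
    com' (pth (K := K) (.node a t t) (fun _ => 0) (cp t.size i u))
        (pth (.node a t t) (fun _ => 0) (cp t.size j v)) =
      if i = j then com' (pth (K := K) t (fun _ => 0) u) (pth t (fun _ => 0) v) else a := by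
  have hT : (Sh.node a t t).Valid K a := ⟨le_rfl, ha, ht, ht⟩
  fin_cases i <;> fin_cases j <;>
    simp only [cp, pth, Matrix.cons_val_zero, Matrix.cons_val_one, Matrix.cons_val', Fin.zero_eta,
      Fin.mk_one, Fin.append_left, Fin.append_right, Fin.isValue, if_true,
      show (0 : Fin 2) ≠ 1 from by decide, show (1 : Fin 2) ≠ 0 from by decide, if_false]
  · exact com'_pth_congr t _ _ ht _ _
  · exact com'_halves hT _ _ _
  · rw [com'_comm]; exact com'_halves hT _ _ _
  · exact com'_pth_congr t _ _ ht _ _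

/-- The old replicas: two tuples of one shape. -/
structure Olds (K a : ℕ) (s : Sh) where
  valid : s.Valid K (a + 1)
  lt : a < K

namespace Olds

variable {s : Sh} (S : Olds K a s)
include S

/-- The paths of the old replicas. -/
theorem node_valid : (Sh.node a s s).Valid K a := ⟨le_rfl, S.lt, S.valid, S.valid⟩

omit S in
/-- The mark. -/
theorem size_pos' : 0 < (Sh.node a s s).size := (Sh.size_pos s).trans (Nat.le_add_right _ _)

theorem top_ge (b : Fin (s.size + s.size)) :
    ∃ i : Fin 2, s.top K ≤ com' (pth (K := K) (.node a s s) (fun _ => 0) b)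
      (put (fun _ => 0) a i) := by
  induction b using Fin.addCases with
  | left u =>
    refine ⟨0, ?_⟩
    simp only [pth, Fin.append_left]
    exact le_com'_pth s _ S.valid.at_top S.valid.top_le u
  | right u =>
    refine ⟨1, ?_⟩
    simp only [pth, Fin.append_right]
    exact le_com'_pth s _ S.valid.at_top S.valid.top_le u

end Olds

/-- From the values at the root to the identity. -/
theorem same_finish (hA : A.Ident) (hah : a < h) {s t : Sh} (S : Olds K a s) {r : ℕ}
    (hq : (Sh.node a t t).size = r + 2) (ht : t.Valid K (a + 1)) (ha : a < K) {E μU : ℝ}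
    (hmean : ∀ c, A.mean (Uat a t (xc K a h c)) = μU)
    (key : ∀ F : (Fin (Sh.node a s s).size → Bool) → ℝ, (∀ v, |F v| ≤ 1) →
      |A.identSum Olds.size_pos' (patFun (Sh.node a t t).size (patOf K (.node a t t)))
          (fun U τ => if U = levs (pth (.node a s s) fun _ => 0) then fv F τ else 0) -
        (Sh.node a t t).size * ((-gapK K) ^ r *
          (treeW K _ (levs (pth (Sh.node a s s) fun _ => 0)) * br K a h fun c =>
            A.pair (obsAt F fun b => (pth (.node a s s) (fun _ => 0) b, 0))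
              (Uat a t (xc K a h c))))| ≤
      (Sh.node a t t).size * (gapK K ^ r *
        (treeW K _ (levs (pth (Sh.node a s s) fun _ => 0)) * E))) :
    |br K a h (fun c => A.pair (duo s s (fun _ => 0) a 0 1) (Uat a t (xc K a h c))) +
        gapK K * A.mean (duo s s (fun _ => 0) a 0 1) * μU| ≤ 2 * E := by
  set o := pth (K := K) (Sh.node a s s) fun _ => 0
  have hoinj : Function.Injective o := pth_injective S.node_valid _
  have hT : (Sh.node a t t).Valid K a := ⟨le_rfl, ha, ht, ht⟩
  set T0 := treeW K _ (levs o)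
  have hT0 : 0 < T0 := treeW_pos (levs_tree o)
  have hI := ident_core hA Olds.size_pos' (by omega) (pat_patOf hT) allF_le
    (key (fun _ => 1) fun _ => le_of_eq abs_one) (key (allF _) allF_le)
  rw [mean_place A _ hoinj, show obsAt (allF _) (fun c => (o c, 0)) = duo s s (fun _ => 0) a 0 1
    from (tup_eq (.node a s s) _).symm] at hI
  have hb : ∀ c, Bdd (Uat a t (xc K a h c)) := fun c =>
    ((unit_tupF 2 3 t _).mul (unit_tupF 2 3 t _)).bdd
  have hone : (fun c => A.pair (obsAt (fun _ : Fin (Sh.node a s s).size → Bool => (1 : ℝ))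
      fun b => (o b, 0)) (Uat a t (xc K a h c))) = fun _ => μU :=
    funext fun c => ((A.pair_const 1 (hb c)).trans (one_mul _)).trans (hmean c)
  rw [hone, br_const hah] at hI
  have e : ∀ x y z : ℝ, (-gapK K) ^ r * (T0 * x) - (-gapK K) ^ r * (T0 * -(gapK K * y)) * z =
      (-gapK K) ^ r * T0 * (x + gapK K * z * y) := fun x y z => by ring
  rw [e, abs_mul, abs_mul, abs_pow, abs_neg, abs_of_pos (gapK_pos K), abs_of_pos hT0,
    ← mul_assoc (gapK K ^ r), mul_left_comm 2] at hI
  exact le_of_mul_le_mul_left hI (mul_pos (pow_pos (gapK_pos K) r) hT0)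

/-- Both tuples are single replicas. -/
theorem same_leaf (hA : A.Ident) (ha : a < K) :
    |br K a K (fun c => A.pair (duo .leaf .leaf (fun _ => 0) a 0 1) (Uat a .leaf (xc K a K c))) +
        gapK K * A.mean (duo .leaf .leaf (fun _ => 0) a 0 1) *
          A.mean (Uat a .leaf (put (fun _ => 0) a 1))| ≤ 4 * gapK K := by
  classical
  have S : Olds K a .leaf := ⟨trivial, ha⟩
  refine (same_finish hA ha S (t := .leaf) (r := 0) rfl trivial ha (E := 2 * gapK K)
    (fun c => ?_) ?_).trans (by linarith)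
  · have e : ∀ y : Fin K → ℕ, Uat a .leaf y =
        spinProd fun i : Fin 2 => (![put (fun _ => 0) a 0, y] i, 0) := fun y => by
      funext σ; simp [Uat, tupF, tup, spinProd, Fin.prod_univ_two]
    rw [e, e]
    refine mean_congr_paths fun i j => ?_
    fin_cases i <;> fin_cases j <;>
      simp [com'_self, com'_xc_zero ha le_rfl, com'_put_put _ ha zero_ne_one,
        com'_comm (xc K a K c), com'_comm (put (fun _ : Fin K => (0 : ℕ)) a 1)]
  intro F hF
  set o := pth (K := K) (Sh.node a .leaf .leaf) fun _ => 0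
  set U0 := levs o
  have hU0 : U0.IsTree := levs_tree o
  set V := patOf K (.node a .leaf .leaf)
  have hV : Pat K (Sh.node a Sh.leaf Sh.leaf).size V := pat_patOf S.node_valid
  set z0 : Fin (Sh.node a Sh.leaf Sh.leaf).size := ⟨0, Olds.size_pos'⟩
  set b1 : Fin (Sh.node a Sh.leaf Sh.leaf).size := ⟨1, by simp [Sh.size]⟩
  have ho0 : o z0 = put (fun _ => 0) a 0 := by
    exact Fin.append_left (pth Sh.leaf _) (pth Sh.leaf _) ⟨0, Sh.size_pos _⟩
  have ho1 : o b1 = put (fun _ => 0) a 1 := by
    exact Fin.append_right (pth Sh.leaf _) (pth Sh.leaf _) ⟨0, Sh.size_pos _⟩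
  have hcases : ∀ b : Fin (Sh.node a Sh.leaf Sh.leaf).size, b = z0 ∨ b = b1 := fun b => by
    have := b.isLt
    simp only [Sh.size] at this
    rcases Nat.eq_zero_or_pos (b : ℕ) with h0 | h0
    · exact .inl (Fin.ext h0)
    · exact .inr (Fin.ext (show (b : ℕ) = 1 by omega))
  have hz1 : (U0 z0 b1 : ℕ) = a := by
    show com' (o z0) (o b1) = a
    rw [ho0, ho1, com'_put_put _ ha zero_ne_one]
  set P : ℕ → ℝ := fun c => A.pair (obsAt F fun b => (o b, 0)) (Uat a .leaf (xc K a K c))
  have hPK : ∀ c, K ≤ c → P c = P K := fun c hc => by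
    simp only [P, xc, show ¬ c ≤ a by omega, show ¬ K ≤ a by omega, show ¬ c < K by omega,
      lt_irrefl, if_false]
  refine identSum_close hA.1 hF Olds.size_pos' hU0 hV
    (show 1 + ((Sh.node a Sh.leaf Sh.leaf).size - 1) = (Sh.node a Sh.leaf Sh.leaf).size by
      simp [Sh.size]) fun i₀ => ?_
  obtain ⟨i₁, hi₁⟩ := exists_opp S.node_valid i₀
  have hne : i₀ ≠ i₁ := fun e => by
    rw [← e] at hi₁
    have h' : (V i₀ i₀ : ℕ) = a := hi₁
    have : (V i₀ i₀ : ℕ) = K := congrArg Fin.val (hV.diag _ i₀.isLt)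
    omega
  obtain ⟨e, he0, he1⟩ := exists_perm₂ (by simp [Sh.size] : 1 < (Sh.node a Sh.leaf Sh.leaf).size) hne
  refine ⟨e, he0, ?_⟩
  have hV' : Pat K (Sh.node a Sh.leaf Sh.leaf).size (rel V e) := Pat.rel hV e
  have hV01 : (rel V e 0 1 : ℕ) = a := by
    show (rel V e (⟨0, by simp [Sh.size]⟩ : Fin (Sh.node a Sh.leaf Sh.leaf).size)
      (⟨1, by simp [Sh.size]⟩ : Fin (Sh.node a Sh.leaf Sh.leaf).size) : ℕ) = a
    rw [rel_apply, he0, he1, hi₁]
  -- one completion
  have hval : ∀ {j : ℕ} (χ : Fin (Sh.node a Sh.leaf Sh.leaf).size →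
      Fin ((Sh.node a Sh.leaf Sh.leaf).size + j)) (U : Lvls K _), U.IsTree → Fits U0 (rel V e) χ U →
      χ z0 = Fin.castAdd j z0 →
      ((U (χ b1) (Fin.castAdd j b1) : ℕ) < K ∨ χ b1 = Fin.castAdd j b1) →
      A.pair (obsAt F fun b => place U (Fin.castAdd j b)) (spinProd fun x => place U (χ x)) =
        P (U (χ b1) (Fin.castAdd j b1) : ℕ) := by
    intro j χ U hU hf h0 hc
    set c : ℕ := (U (χ b1) (Fin.castAdd j b1) : ℕ) with hc'
    have h01 : (U (Fin.castAdd j z0) (χ b1) : ℕ) = a := by rw [← h0, hf.2]; exact hV01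
    have hzb : (U (Fin.castAdd j z0) (Fin.castAdd j b1) : ℕ) = a := by rw [hf.1]; exact hz1
    have h2 := hU.2.2 (χ b1) (Fin.castAdd j z0) (Fin.castAdd j b1)
    rw [hU.2.1 (χ b1) (Fin.castAdd j z0)] at h2
    simp only [Fin.le_def, Fin.coe_min] at h2
    have hca : a ≤ c := by omega
    have hcK : c ≤ K := Fin.is_le _
    have hx : com' (put (fun _ => 0) a 1) (xc K a K c) = c := by
      have := com'_xc_one ha le_rfl hca
      have := com'_le (put (fun _ : Fin K => (0 : ℕ)) a 1) (xc K a K c)
      omega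
    set p : Fin (Sh.node a Sh.leaf Sh.leaf).size → Pt K := fun x =>
      if x = z0 then (put (fun _ => 0) a 0, 0) else (xc K a K c, 0)
    have hb10 : b1 ≠ z0 := by simp [b1, z0, Fin.ext_iff]
    have hp : Uat a .leaf (xc K a K c) = spinProd p := by
      funext σ
      show _ = ∏ x : Fin (1 + 1), sgn (σ (p x))
      rw [Fin.prod_univ_two]
      simp [p, Uat, tupF, tup, z0, Fin.ext_iff]
    show _ = A.pair _ (Uat a .leaf (xc K a K c))
    rw [hp]
    refine (A.pair_congr F (fun x y => ⟨?_, ?_⟩) (fun x y => ?_) (fun x y => ?_)).symm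
    · rw [com'_place hU, hf.1]; rfl
    · simp [(place_injective U).eq_iff, (pth_injective S.node_valid _).eq_iff, o]
    · have hne' : χ b1 ≠ Fin.castAdd j z0 := fun e' => by
        rw [e', hU.1] at h01; simp at h01; omega
      rcases hcases x with rfl | rfl <;> rcases hcases y with rfl | rfl
      · simp [com'_self]
      · simp only [p, h0, if_true, hb10, if_false, (place_injective U).eq_iff, com'_place hU, h01,
          com'_xc_zero ha le_rfl, true_and]
        refine iff_of_false (fun e' => hne' e'.symm) fun e' => ?_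
        have := com'_xc_zero (K := K) ha le_rfl c
        have e'' : put (fun _ : Fin K => (0 : ℕ)) a 0 = xc K a K c := congrArg Prod.fst e'
        rw [← e'', com'_self] at this
        omega
      · simp only [p, h0, if_true, hb10, if_false, (place_injective U).eq_iff, com'_place hU,
          com'_comm (xc K a K c), com'_xc_zero ha le_rfl, hU.2.1 (χ b1), h01, true_and]
        refine iff_of_false hne' fun e' => ?_
        have := com'_xc_zero (K := K) ha le_rfl c
        have e'' : xc K a K c = put (fun _ : Fin K => (0 : ℕ)) a 0 := congrArg Prod.fst e'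
        rw [e'', com'_self] at this
        omega
      · simp [com'_self]
    · rw [com'_place hU]
      rcases hcases y with rfl | rfl
      · simp only [p, if_true, h0, hf.1, (place_injective U).eq_iff, ← ho0]
        exact ⟨rfl, by simp [(pth_injective S.node_valid _).eq_iff, o]⟩
      · simp only [p, hb10, if_false, (place_injective U).eq_iff, Prod.mk.injEq, and_true]
        rcases hcases x with rfl | rfl
        · rw [h01, ho0, com'_xc_zero ha le_rfl]
          refine ⟨rfl, iff_of_false (fun e' => ?_) fun e' => ?_⟩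
          · rw [← e', hU.1] at h01; simp at h01; omega
          · have := com'_xc_zero (K := K) ha le_rfl c
            rw [← e', com'_self] at this; omega
        · rw [hU.2.1, ho1, hx]
          refine ⟨rfl, ⟨fun e' => ?_, fun e' => ?_⟩⟩
          · have : c = K := by rw [hc', ← e', hU.1]; rfl
            simp [xc, this, show ¬ K ≤ a by omega]
          · rcases hc with hlt | heq
            · rw [← e', com'_self] at hx; omega
            · exact heq.symm
  rw [cmp_congr _ _ (show 1 + (0 + 1) = (Sh.node a Sh.leaf Sh.leaf).size from rfl), pow_zero, one_mul, pow_zero, one_mul]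
  rw [← root_sum hU0 hV' z0 b1 ha le_rfl hV01 hz1 (k := 1) ?_ ?_ P hPK]
  rotate_left
  · rw [card_eq_one]
    refine ⟨b1, ?_⟩
    ext b
    simp only [mem_filter, mem_univ, true_and, mem_singleton]
    rcases hcases b with rfl | rfl
    · exact iff_of_false (fun e' => by rw [hU0.1, Fin.val_last] at e'; omega)
        (by simp [z0, b1, Fin.ext_iff])
    · simp [hz1]
  · intro b hb
    rcases hcases b with rfl | rfl
    · rw [hU0.1, Fin.val_last] at hb; omega
    · rw [hU0.1, Fin.val_last]
  set ζ : (Fin (Sh.node a Sh.leaf Sh.leaf).size → Fin (K + 1)) → ℝ := fun R => P (R b1 : ℕ)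
  set η : (Fin (Sh.node a Sh.leaf Sh.leaf).size → Fin (K + 1)) → ℝ :=
    fun R => if K ≤ (R b1 : ℕ) then 2 else 0
  have hmark : ∀ {j : ℕ} {χ : Fin (Sh.node a Sh.leaf Sh.leaf).size →
      Fin ((Sh.node a Sh.leaf Sh.leaf).size + j)}, typ χ z0 = some z0 → χ z0 = Fin.castAdd j z0 := by
    intro j χ hz
    unfold typ at hz
    split_ifs at hz with hlt
    exact Fin.ext (Fin.val_eq_of_eq (Option.some.inj hz) : _)
  have hzt : typ (χ₀ z0) 0 = some z0 := dif_pos Olds.size_pos'
  have hold : ∀ b, |Cmp (fun _ χ => term A U0 (rel V e) (fv F) χ) 0 (rfl : 1 + 1 + 0 = _)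
        (Fin.snoc (χ₀ z0) (Fin.castAdd 0 b)) -
      wt U0 (rel V e) ζ (Fin.snoc (χ₀ z0) (Fin.castAdd 0 b))| ≤ 0 := by
    intro b
    have := cmp_close (A := A) (U0 := U0) (V := rel V e) (ζ := ζ) (η := fun _ => 0) hF
      (show 1 < (Sh.node a Sh.leaf Sh.leaf).size by simp [Sh.size]) 0 (rfl : 1 + 1 + 0 = _)
      ((good_χ₀ z0).old b) fun j χ _ hx U hU hf => ?_
    · rw [show Sg U0 (rel V e) (fun _ => (0 : ℝ)) 1 0 (Fin.snoc (χ₀ z0) (Fin.castAdd 0 b)) = 0 from by
          simp [Sg, W, val],
        show Sg U0 (rel V e) ζ (-1) 0 (Fin.snoc (χ₀ z0) (Fin.castAdd 0 b)) =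
          wt U0 (rel V e) ζ (Fin.snoc (χ₀ z0) (Fin.castAdd 0 b)) from by simp [Sg, wt]] at this
      exact this
    have h0 : χ z0 = Fin.castAdd j z0 := hmark ((hx 0).trans ((congrFun (typ_old _ b) 0).trans hzt))
    have h1 : χ b1 = Fin.castAdd j b := by
      have hz : typ χ b1 = some b := (hx 1).trans (congrFun (typ_old (χ₀ z0) b) 1)
      unfold typ at hz
      split_ifs at hz with hlt
      exact Fin.ext (Fin.val_eq_of_eq (Option.some.inj hz) : _)
    rw [hval χ U hU hf h0 (.inr ?_), sub_self, abs_zero]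
    rcases hcases b with rfl | rfl
    · exfalso
      have h := hf.2 z0 b1
      rw [h0, h1, hf.1, hU0.1] at h
      exact absurd ((congrArg Fin.val h).symm.trans (Fin.val_last K)) (by
        change (rel V e 0 1 : ℕ) ≠ K; omega)
    · exact h1
  have hnew : |Cmp (fun _ χ => term A U0 (rel V e) (fv F) χ) 0 (rfl : 1 + 1 + 0 = _)
        (addNew (χ₀ z0)) - (-1) * wt U0 (rel V e) ζ (addNew (χ₀ z0))| ≤
      2 * gapK K * treeW K _ U0 := by
    have := cmp_close (A := A) (U0 := U0) (V := rel V e) (ζ := ζ) (η := η) hF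
      (show 1 < (Sh.node a Sh.leaf Sh.leaf).size by simp [Sh.size]) 0 (rfl : 1 + 1 + 0 = _)
      (good_χ₀ z0).new fun j χ _ hx U hU hf => ?_
    · rw [show Sg U0 (rel V e) ζ (-1) 0 (addNew (χ₀ z0)) =
          (-1) * wt U0 (rel V e) ζ (addNew (χ₀ z0)) from by simp [Sg, wt]] at this
      refine this.trans ?_
      rw [Sg, one_pow, one_mul]
      change wt U0 (rel V e) η (addNew (χ₀ z0)) ≤ _
      rw [wt_new hV' z0]
      refine le_of_le_of_eq (mul_le_mul_of_nonneg_left (sum_le_sum (g := fun U' => 2 *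
        if U'.init = U0 ∧ K ≤ (U' b1.castSucc (Fin.last _) : ℕ) then
          treeW K ((Sh.node a Sh.leaf Sh.leaf).size + 1) U' else 0) fun U' _ => ?_)
        (Nat.cast_nonneg' _)) ?_
      · by_cases hU' : U'.IsTree
        swap
        · simp [treeW_eq_zero hU']
        have := treeW_nonneg U'
        simp only [η, hU'.2.1 (Fin.last _) b1.castSucc]
        split_ifs with h1 h2 h3 h3 <;> first | linarith | (exfalso; exact h3 ⟨h1.1, h2⟩)
      · rw [← mul_sum, treeW_marg hU0 b1 le_rfl]
        have hn1 : (U0.node b1 K).card = 1 := by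
          rw [card_eq_one]
          refine ⟨b1, ?_⟩
          ext b
          simp only [Lvls.node, mem_filter, mem_univ, true_and, mem_singleton]
          rcases hcases b with rfl | rfl
          · refine iff_of_false (fun e' => ?_) (by simp [z0, b1, Fin.ext_iff])
            rw [hU0.2.1, hz1] at e'; omega
          · simp [hU0.1]
        rw [hn1, show mpar K K = 1 - gapK K from by
          unfold mpar gapK; field_simp; ring]
        simp [Sh.size]
        ring
    have h0 : χ z0 = Fin.castAdd j z0 := hmark ((hx 0).trans ((congrFun (typ_new (χ₀ z0)) 0).trans hzt))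
    simp only [η]
    split_ifs with hK
    · refine (abs_sub _ _).trans ?_
      have hU1 : ∀ x, Unit1 (Uat a Sh.leaf x : Obs K) := fun x =>
        (unit_tupF 2 3 .leaf _).mul (unit_tupF 2 3 .leaf _)
      have b1' := A.abs_pair_le (unit_obsAt hF fun b => place U (Fin.castAdd j b)).bdd
        (unit_spinProd fun x => place U (χ x)).bdd
      have b2' := A.abs_pair_le (unit_obsAt hF fun b => (o b, 0)).bdd (hU1 (xc K a K
        (U (χ b1) (Fin.castAdd j b1)))).bdd
      have n1 := mul_le_one₀ (A.nrm_le_one (unit_obsAt hF fun b => place U (Fin.castAdd j b)))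
        (A.nrm_nonneg _) (A.nrm_le_one (unit_spinProd fun x => place U (χ x)))
      have n2 := mul_le_one₀ (A.nrm_le_one (unit_obsAt hF fun b => (o b, 0))) (A.nrm_nonneg _)
        (A.nrm_le_one (hU1 (xc K a K (U (χ b1) (Fin.castAdd j b1)))))
      show _ + |P _| ≤ 2
      simp only [P]
      linarith
    · exact le_of_eq ((congrArg _ (sub_eq_zero.2
        (hval χ U hU hf h0 (.inl (not_le.1 hK))))).trans abs_zero)
  rw [Cmp]
  change |(∑ b, _) + Cmp _ 0 _ (addNew (χ₀ z0)) - _| ≤ _
  have hs : |(∑ b, Cmp (fun _ χ => term A U0 (rel V e) (fv F) χ) 0 (rfl : 1 + 1 + 0 = _)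
        (Fin.snoc (χ₀ z0) (Fin.castAdd 0 b))) -
      ∑ b, wt U0 (rel V e) ζ (Fin.snoc (χ₀ z0) (Fin.castAdd 0 b))| ≤ 0 := by
    rw [← sum_sub_distrib]
    exact (abs_sum_le_sum_abs _ _).trans (sum_nonpos fun b _ => hold b)
  have fin : ∀ x y c d g T : ℝ, |x - c| ≤ 0 → |y - (-1) * d| ≤ 2 * g * T →
      |x + y - (c - d)| ≤ T * (2 * g) := fun x y c d g T h1 h2 => by
    rw [abs_le] at h1 h2 ⊢
    constructor <;> linarith [h1.1, h1.2, h2.1, h2.2]
  exact fin _ _ _ _ _ _ hs hnew

end Vale.Agent.P168.Tel
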