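import Vale.Agent.P168.Core.Sums
import Vale.Agent.P168.Tel.Engine

/-!
P168, telescope: the levels of the leaves of shapes, and the sums over completions at the root of
a pattern.
-/

open Finset MeasureTheory

noncomputable section

namespace Vale.Agent.P168.Tel

variable {K n i j q g h : ℕ} {L R : Sh}

/-- The levels of given paths. -/
def levs (o : Fin n → Fin K → ℕ) : Lvls K n :=
  fun a b => ⟨com' (o a) (o b), Nat.lt_succ_of_le (com'_le _ _)⟩

theorem levs_tree (o : Fin n → Fin K → ℕ) : (levs o).IsTree :=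
  ⟨fun a => Fin.ext (com'_self _), fun a b => Fin.ext (com'_comm _ _), fun a b c => by
    rw [Fin.le_def, Fin.coe_min]; exact com'_ultra _ _ _⟩

/-- The levels of a shape as a pattern. -/
def patOf (K : ℕ) (T : Sh) : ℕ → ℕ → Fin (K + 1) := fun x y =>
  if hxy : x < T.size ∧ y < T.size then
    levs (pth T (fun _ => 0)) ⟨x, hxy.1⟩ ⟨y, hxy.2⟩
  else Fin.last K

theorem patOf_apply (T : Sh) (u v : Fin T.size) :
    (patOf K T u v : ℕ) = com' (pth (K := K) T (fun _ => 0) u) (pth T (fun _ => 0) v) := by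
  unfold patOf
  rw [dif_pos ⟨u.isLt, v.isLt⟩]
  rfl

theorem pat_patOf {T : Sh} (hT : T.Valid K g) : Pat K T.size (patOf K T) := by
  set p := pth (K := K) T fun _ => 0
  have e : ∀ a (ha : a < T.size) b (hb : b < T.size),
      patOf K T a b = levs p ⟨a, ha⟩ ⟨b, hb⟩ := fun a ha b hb => dif_pos ⟨ha, hb⟩
  refine ⟨fun a ha => ?_, fun a ha b hb => ?_, fun a ha b hb c hc => ?_,
    fun a ha b hb hab => ?_, fun a ha b hb c hc hab hbc hac => ?_⟩
  · rw [e a ha a ha]; exact (levs_tree p).1 _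
  · rw [e a ha b hb, e b hb a ha]; exact (levs_tree p).2.1 _ _
  · rw [e a ha b hb, e b hb c hc, e a ha c hc]; exact (levs_tree p).2.2 _ _ _
  · rw [e a ha b hb]
    exact (com'_pth_lt _ hT fun h => hab (Fin.val_eq_of_eq h)).2
  · rw [e a ha b hb, e b hb c hc, e a ha c hc]
    exact fun h => com'_pth_binary T _ hT ⟨a, ha⟩ ⟨b, hb⟩ ⟨c, hc⟩
      (fun h => hab (Fin.val_eq_of_eq h)) (fun h => hbc (Fin.val_eq_of_eq h))
      (fun h => hac (Fin.val_eq_of_eq h)) ⟨congrArg Fin.val h.1, congrArg Fin.val h.2⟩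

theorem pth_injective {T : Sh} (hT : T.Valid K g) (x : Fin K → ℕ) :
    Function.Injective (pth T x) := fun u v e => by
  by_contra hne
  have := (com'_pth_lt x hT hne).2
  rw [e, com'_self] at this
  omega

theorem pth_le_one : ∀ (T : Sh) {x : Fin K → ℕ}, (∀ l, x l ≤ 1) → ∀ u l, pth T x u l ≤ 1
  | .leaf, x, hx, u, l => hx l
  | .node h L R, x, hx, u, l => by
    have hp : ∀ k, k ≤ 1 → ∀ l, put x h k l ≤ 1 := fun k hk l => by
      unfold put; split_ifs
      exacts [hx l, hk, zero_le_one]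
    induction u using Fin.addCases with
    | left u => simpa [pth] using pth_le_one L (hp 0 zero_le_one) u l
    | right u => simpa [pth] using pth_le_one R (hp 1 le_rfl) u l

/-- A path with coordinates at most one avoids the fresh children. -/
theorem com'_fresh_le {w : Fin K → ℕ} (hw : ∀ l, w l ≤ 1) (x : Fin K → ℕ) (hh : h < K) {k : ℕ}
    (hk : k = 2 ∨ k = 3) : com' w (put x h k) ≤ h := by
  by_contra hlt
  have := (le_com'_iff _ _ hh).1 (Nat.succ_le_of_lt (not_le.1 hlt)) ⟨h, hh⟩ (Nat.lt_succ_self h)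
  rw [put_of_eq x k (l := ⟨h, hh⟩) rfl] at this
  have := hw ⟨h, hh⟩
  omega

/-- Every leaf has a partner in the other half. -/
theorem exists_opp (hT : (Sh.node h L R).Valid K g) (i₀ : Fin (Sh.node h L R).size) :
    ∃ i₁ : Fin (Sh.node h L R).size, (patOf K (.node h L R) i₀ i₁ : ℕ) = h := by
  induction i₀ using Fin.addCases with
  | left u =>
    refine ⟨Fin.natAdd L.size ⟨0, R.size_pos⟩, (patOf_apply _ _ _).trans ?_⟩
    simp only [pth, Fin.append_left, Fin.append_right]
    exact com'_halves hT _ u ⟨0, R.size_pos⟩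
  | right v =>
    refine ⟨Fin.castAdd R.size ⟨0, L.size_pos⟩, (patOf_apply _ _ _).trans ?_⟩
    simp only [pth, Fin.append_left, Fin.append_right]
    rw [com'_comm]
    exact com'_halves hT _ _ v

/-- A relabelling with prescribed first two leaves. -/
theorem exists_perm₂ {i₀ i₁ : Fin q} (hq : 1 < q) (hne : i₀ ≠ i₁) :
    ∃ e : Equiv.Perm (Fin q), e ⟨0, by omega⟩ = i₀ ∧ e ⟨1, hq⟩ = i₁ := by
  set a : Fin q := ⟨0, by omega⟩
  set e₁ : Equiv.Perm (Fin q) := Equiv.swap a i₀
  have h0 : e₁ a = i₀ := Equiv.swap_apply_left _ _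
  refine ⟨e₁ * Equiv.swap ⟨1, hq⟩ (e₁.symm i₁), ?_, ?_⟩
  · refine (congrArg e₁ (Equiv.swap_apply_of_ne_of_ne ?_ ?_)).trans h0
    · simp [a, Fin.ext_iff]
    · intro e
      exact hne (h0.symm.trans ((congrArg e₁ e).trans (e₁.apply_symm_apply i₁)))
  · simp [Equiv.Perm.mul_apply]

/-- The mean at placed replicas is the mean at the given paths. -/
theorem mean_place (A : Arr K) (F : (Fin n → Bool) → ℝ) {o : Fin n → Fin K → ℕ}
    (ho : Function.Injective o) :
    A.mean (obsAt F (place (levs o))) = A.mean (obsAt F fun b => (o b, 0)) := by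
  refine A.integral_congr (fun b => (o b, 0)) (place (levs o))
    (fun a b => by rw [com'_place (levs_tree o)]; rfl)
    (fun a b => by simp [(place_injective (levs o)).eq_iff, ho.eq_iff])
    (τ := id) Function.injective_id (g := fun τ => F fun b => τ b 0) ?_
  exact measurable_fv F

variable {U0 : Lvls K n} {V : ℕ → ℕ → Fin (K + 1)}

theorem W_smul (c : ℝ) (ζ : (Fin n → Fin (K + 1)) → ℝ) (χ : Fin i → Fin (n + j)) :
    W U0 V (fun R => c * ζ R) χ = c * W U0 V ζ χ := by
  unfold W
  rw [mul_sum]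
  refine sum_congr rfl fun U _ => ?_
  split_ifs
  · unfold val
    split_ifs <;> ring
  · ring

theorem Sg_smul (c : ℝ) (ζ : (Fin n → Fin (K + 1)) → ℝ) (s : ℝ) :
    ∀ (r : ℕ) {i j : ℕ} (χ : Fin i → Fin (n + j)),
      Sg U0 V (fun R => c * ζ R) s r χ = c * Sg U0 V ζ s r χ
  | 0, i, j, χ => by simp only [Sg, W_smul]; ring
  | r + 1, i, j, χ => by
    simp only [Sg, Sg_smul c ζ s r, mul_add, mul_sum]

/-- When no other old replica can follow the marked one, only new replicas complete. -/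
theorem Sg_none {ζ : (Fin n → Fin (K + 1)) → ℝ} {s : ℝ} (hn : 0 < n) (z : Fin n) :
    ∀ (r : ℕ) {i j : ℕ} {χ : Fin i → Fin (n + j)} (hi : 2 ≤ i), Pat K (i + r) V → Cov χ →
    χ ⟨0, by omega⟩ = Fin.castAdd j z →
    (∀ x < i + r, x ≠ 0 → ∀ b, U0 z b ≠ V 0 x) →
    Sg U0 V ζ s r χ = (s * gapK K) ^ r * (s ^ j * wt U0 V ζ χ)
  | 0, i, j, χ, _, _, _, _, _ => by simp [Sg, wt, mul_assoc]
  | r + 1, i, j, χ, hi, hV, hc, h0, hN => by
    have hno : ∀ b, NoFit U0 V (Fin.snoc χ (Fin.castAdd j b)) := fun b U _ hf => by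
      have h1 := hf.2 (⟨0, by omega⟩ : Fin i).castSucc (Fin.last i)
      rw [Fin.snoc_castSucc, Fin.snoc_last, h0, hf.1] at h1
      exact hN i (by omega) (by omega) b h1
    rw [Sg]
    change (∑ b, _) + Sg U0 V ζ s r (addNew χ) = _
    rw [sum_eq_zero fun b _ => Sg_noFit r (hno b), zero_add,
      Sg_none hn z r (by omega) (hV.mono (by omega)) hc.new (by
        show Fin.snoc (α := fun _ => Fin (n + j + 1)) (fun x => (χ x).castSucc) (Fin.last (n + j))
          (⟨0, by omega⟩ : Fin i).castSucc = _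
        rw [Fin.snoc_castSucc, h0]; rfl) fun x hx => hN x (by omega),
      peel_wt hn hi (hV.mono (by omega)) hc,
      sum_eq_zero fun b _ => show wt U0 V ζ _ = 0 by rw [wt, (hno b).W_eq, mul_zero], add_zero]
    ring

variable {ζ : (Fin n → Fin (K + 1)) → ℝ}

/-- The weight of the mark and one old replica. -/
theorem wt_old (hU0 : U0.IsTree) (hV : Pat K 2 V) (z b : Fin n) :
    wt U0 V ζ (Fin.snoc (χ₀ z) (Fin.castAdd 0 b)) =
      if U0 z b = V 0 1 then treeW K n U0 * ζ (fun b' => U0 b b') else 0 := by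
  classical
  simp only [wt, Nat.ascFactorial_zero, Nat.cast_one, one_mul, W]
  have hfit : ∀ U : Lvls K (n + 0),
      Fits U0 V (Fin.snoc (χ₀ z) (Fin.castAdd 0 b)) U ↔ U = U0 ∧ U0 z b = V 0 1 := by
    intro U
    constructor
    · intro hf
      have e : U = U0 := funext fun a => funext fun c => hf.1 a c
      refine ⟨e, ?_⟩
      rw [← hf.1 z b]
      exact hf.2 0 1
    · rintro ⟨rfl, e⟩
      refine ⟨fun a c => rfl, fun x y => ?_⟩
      fin_cases x <;> fin_cases y
      · exact (hU0.1 _).trans (hV.diag 0 (by omega)).symm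
      · exact e
      · exact (hU0.2.1 _ _).trans (e.trans (hV.symm 0 (by omega) 1 (by omega)))
      · exact (hU0.1 _).trans (hV.diag 1 (by omega)).symm
  simp only [hfit]
  refine (Fintype.sum_eq_single U0 fun U hU => by simp [hU]).trans ?_
  by_cases h : U0 z b = V 0 1
  · simp only [h, and_self, if_true, val]
    rfl
  · simp [h]

open Classical in
/-- The weight of the mark and one new replica. -/
theorem wt_new (hV : Pat K 2 V) (z : Fin n) :
    wt U0 V ζ (addNew (χ₀ z)) = n * ∑ U' : Lvls K (n + 1),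
      if U'.init = U0 ∧ U' z.castSucc (Fin.last n) = V 0 1 then
        treeW K (n + 1) U' * ζ (fun b => U' (Fin.last n) b.castSucc) else 0 := by
  simp only [wt, W, Nat.ascFactorial_succ, Nat.ascFactorial_zero, add_zero, mul_one]
  congr 1
  refine sum_congr rfl fun U _ => ?_
  by_cases hU : U.IsTree
  swap
  · simp [treeW_eq_zero hU]
  have hfit : Fits U0 V (addNew (χ₀ z)) U ↔
      Lvls.init U = U0 ∧ U z.castSucc (Fin.last n) = V 0 1 := by
    constructor
    · exact fun hf => ⟨funext fun a => funext fun c => hf.1 a c, hf.2 0 1⟩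
    · rintro ⟨rfl, e⟩
      refine ⟨fun a c => rfl, fun x y => ?_⟩
      fin_cases x <;> fin_cases y
      · exact (hU.1 _).trans (hV.diag 0 (by omega)).symm
      · exact e
      · exact (hU.2.1 _ _).trans (e.trans (hV.symm 0 (by omega) 1 (by omega)))
      · exact (hU.1 _).trans (hV.diag 1 (by omega)).symm
  refine if_congr hfit ?_ rfl
  rw [val, dif_pos (by omega : 1 < 1 + 1)]
  rfl

/-- The weights of the events where a new replica has exact level `l` from the replica `c`. -/
theorem sum_exact (hU0 : U0.IsTree) (c : Fin n) {l : ℕ} (hl : l < K) :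
    (n : ℝ) * ∑ U' : Lvls K (n + 1),
      (if U'.init = U0 ∧ (U' c.castSucc (Fin.last n) : ℕ) = l then treeW K (n + 1) U' else 0) =
      treeW K n U0 * (gapK K + ((univ.filter fun x => (U0 c x : ℕ) = l).card : ℝ)) := by
  classical
  have hn : (n : ℝ) ≠ 0 := by exact_mod_cast (Fin.pos c).ne'
  have e : ((U0.node c l).card : ℝ) =
      (U0.node c (l + 1)).card + ((univ.filter fun x => (U0 c x : ℕ) = l).card : ℝ) := by
    rw [← Nat.cast_add, ← card_union_of_disjoint (disjoint_left.2 fun x hx hx' => by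
      simp [Lvls.node] at hx hx'; omega)]
    congr 2
    ext x
    simp [Lvls.node]
    omega
  rw [sum_congr rfl (g := fun U' : Lvls K (n + 1) =>
      (if U'.init = U0 ∧ l ≤ (U' c.castSucc (Fin.last n) : ℕ) then treeW K (n + 1) U' else 0) -
      (if U'.init = U0 ∧ l + 1 ≤ (U' c.castSucc (Fin.last n) : ℕ) then treeW K (n + 1) U' else 0))
      fun U' _ => ?_]
  · rw [sum_sub_distrib, treeW_marg hU0 c hl.le, treeW_marg hU0 c hl, e, mpar_succ]
    field_simp
    ring
  · by_cases hi : U'.init = U0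
    · rcases lt_trichotomy (U' c.castSucc (Fin.last n) : ℕ) l with hlt | heq | hgt
      · simp [hlt.ne, show ¬ l ≤ (U' c.castSucc (Fin.last n) : ℕ) by omega,
          show ¬ l + 1 ≤ (U' c.castSucc (Fin.last n) : ℕ) by omega]
      · simp [hi, heq]
      · simp [hgt.ne', hgt.le, show l + 1 ≤ (U' c.castSucc (Fin.last n) : ℕ) by omega]
    · simp [hi]

end Vale.Agent.P168.Tel
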