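import Vale.Agent.P168.Tel.Comb

/-!
P168, telescope: signed and absolute sums over the completions of an assignment.
-/

open Finset

noncomputable section

namespace Vale.Agent.P168.Tel

variable {K n i j q r : ℕ} {U0 : Lvls K n} {V : ℕ → ℕ → Fin (K + 1)}
  {ζ : (Fin n → Fin (K + 1)) → ℝ}

/-- All new replicas are chosen. -/
def Cov (χ : Fin i → Fin (n + j)) : Prop :=
  ∀ x : Fin (n + j), n ≤ (x : ℕ) → ∃ k, χ k = x

/-- Append a new replica. -/
def addNew (χ : Fin i → Fin (n + j)) : Fin (i + 1) → Fin (n + (j + 1)) :=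
  Fin.snoc (fun x => (χ x).castSucc) (Fin.last (n + j))

theorem Cov.old {χ : Fin i → Fin (n + j)} (h : Cov χ) (b : Fin n) :
    Cov (Fin.snoc χ (Fin.castAdd j b)) := fun x hx => by
  obtain ⟨k, hk⟩ := h x hx
  exact ⟨k.castSucc, by rw [Fin.snoc_castSucc, hk]⟩

theorem Cov.new {χ : Fin i → Fin (n + j)} (h : Cov χ) : Cov (addNew χ) := fun x hx => by
  induction x using Fin.lastCases with
  | last => exact ⟨Fin.last i, by simp [addNew]⟩
  | cast x =>
    obtain ⟨k, hk⟩ := h x hx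
    exact ⟨k.castSucc, by simp [addNew, hk]⟩

/-- A weight times the number of orders of the new replicas. -/
def wt (U0 : Lvls K n) (V : ℕ → ℕ → Fin (K + 1)) (ζ : (Fin n → Fin (K + 1)) → ℝ)
    (χ : Fin i → Fin (n + j)) : ℝ :=
  (n.ascFactorial j : ℝ) * W U0 V ζ χ

theorem peel_wt (_hn : 0 < n) {χ : Fin i → Fin (n + j)} (hi : 2 ≤ i) (hV : Pat K (i + 1) V)
    (hc : Cov χ) :
    wt U0 V ζ (addNew χ) =
      gapK K * wt U0 V ζ χ + ∑ b : Fin n, wt U0 V ζ (Fin.snoc χ (Fin.castAdd j b)) := by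
  have := peel (U0 := U0) (ζ := ζ) hi hV hc
  unfold wt addNew
  rw [← mul_sum, Nat.ascFactorial_succ, Nat.cast_mul, mul_comm ((n + j : ℕ) : ℝ), mul_assoc, this]
  ring

/-- Signed sums telescope. -/
theorem Sg_signed (hn : 0 < n) : ∀ (r : ℕ) {i j : ℕ} {χ : Fin i → Fin (n + j)}, 2 ≤ i →
    Pat K (i + r) V → Cov χ →
    Sg U0 V ζ (-1) r χ = (-gapK K) ^ r * ((-1) ^ j * wt U0 V ζ χ)
  | 0, i, j, χ, _, _, _ => by simp [Sg, wt, mul_assoc]
  | r + 1, i, j, χ, hi, hV, hc => by
    have hV' : Pat K (i + 1 + r) V := hV.mono (by omega)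
    rw [Sg]
    change (∑ b, _) + Sg U0 V ζ (-1) r (addNew χ) = _
    rw [Finset.sum_congr rfl fun b _ => Sg_signed hn r (by omega) hV' (hc.old b),
      Sg_signed hn r (by omega) hV' hc.new, peel_wt hn hi (hV.mono (by omega)) hc]
    simp only [← mul_sum]
    ring

/-- No levels fit the assignment. -/
def NoFit (U0 : Lvls K n) (V : ℕ → ℕ → Fin (K + 1)) (χ : Fin i → Fin (n + j)) : Prop :=
  ∀ U : Lvls K (n + j), U.IsTree → ¬ Fits U0 V χ U

theorem NoFit.W_eq {χ : Fin i → Fin (n + j)} (h : NoFit U0 V χ) : W U0 V ζ χ = 0 :=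
  sum_eq_zero fun U _ => by
    by_cases hU : U.IsTree
    · exact if_neg (h U hU)
    · simp [treeW_eq_zero hU]

theorem NoFit.old {χ : Fin i → Fin (n + j)} (h : NoFit U0 V χ) (b : Fin n) :
    NoFit U0 V (Fin.snoc χ (Fin.castAdd j b)) := fun U hU hf =>
  h U hU ⟨hf.1, fun x y => by simpa using hf.2 x.castSucc y.castSucc⟩

theorem NoFit.new {χ : Fin i → Fin (n + j)} (h : NoFit U0 V χ) : NoFit U0 V (addNew χ) :=
  fun U hU hf => h U.init (Lvls.IsTree.init (U := U) hU)
    ⟨fun a b => hf.1 a b, fun x y => by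
      simpa [addNew, Lvls.init] using hf.2 x.castSucc y.castSucc⟩

theorem Sg_noFit {s : ℝ} : ∀ (r : ℕ) {i j : ℕ} {χ : Fin i → Fin (n + j)}, NoFit U0 V χ →
    Sg U0 V ζ s r χ = 0
  | 0, i, j, χ, h => by simp [Sg, h.W_eq]
  | r + 1, i, j, χ, h => by
    rw [Sg]
    change (∑ b, _) + Sg U0 V ζ s r (addNew χ) = _
    rw [Sg_noFit r h.new, add_zero]
    exact sum_eq_zero fun b _ => Sg_noFit r (h.old b)

/-- The old levels meet the pattern only at the level `a`. -/
def Sep (U0 : Lvls K n) (V : ℕ → ℕ → Fin (K + 1)) (a q : ℕ) : Prop :=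
  ∀ x < q, ∀ y < q, x ≠ y → ∀ b b' : Fin n, U0 b b' = V x y → (V x y : ℕ) = a

theorem noFit_three {a : ℕ} {χ : Fin i → Fin (n + j)} (hV : Pat K (i + 1) V)
    (hS : Sep U0 V a (i + 1)) {x y : Fin i} (hxy : x ≠ y) {b₁ b₂ : Fin n}
    (hx : χ x = Fin.castAdd j b₁) (hy : χ y = Fin.castAdd j b₂) (b : Fin n) :
    NoFit U0 V (Fin.snoc χ (Fin.castAdd j b)) := by
  intro U hU hf
  have h1 := hf.2 x.castSucc y.castSucc
  have h2 := hf.2 x.castSucc (Fin.last i)
  have h3 := hf.2 y.castSucc (Fin.last i)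
  simp only [Fin.snoc_castSucc, Fin.snoc_last, hx, hy, hf.1, Fin.val_castSucc, Fin.val_last]
    at h1 h2 h3
  have hx' : (x : ℕ) < i + 1 := Nat.lt_succ_of_lt x.isLt
  have hy' : (y : ℕ) < i + 1 := Nat.lt_succ_of_lt y.isLt
  have hi' : i < i + 1 := Nat.lt_succ_self i
  have hne : (x : ℕ) ≠ y := Fin.val_ne_of_ne hxy
  have e1 := hS _ hx' _ hy' hne _ _ h1
  have e2 := hS _ hx' _ hi' x.isLt.ne _ _ h2
  have e3 := hS _ hy' _ hi' y.isLt.ne _ _ h3
  exact hV.binary _ hx' _ hy' _ hi' hne y.isLt.ne x.isLt.ne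
    ⟨Fin.ext (e1.trans e3.symm), Fin.ext (e1.trans e2.symm)⟩

theorem snoc_two {χ : Fin i → Fin (n + j)} {b : Fin n} (hi : 0 < i) {b₀ : Fin n}
    (h0 : χ ⟨0, hi⟩ = Fin.castAdd j b₀) :
    (⟨0, hi⟩ : Fin i).castSucc ≠ Fin.last i ∧
      (Fin.snoc (α := fun _ => Fin (n + j)) χ (Fin.castAdd j b)) (⟨0, hi⟩ : Fin i).castSucc
        = Fin.castAdd j b₀ ∧
      (Fin.snoc (α := fun _ => Fin (n + j)) χ (Fin.castAdd j b)) (Fin.last i) = Fin.castAdd j b :=
  ⟨(Fin.castSucc_lt_last _).ne, by rw [Fin.snoc_castSucc, h0], by simp⟩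

/-- With two old replicas chosen, only new replicas complete. -/
theorem Sg_two (hn : 0 < n) {s : ℝ} {a : ℕ} : ∀ (r : ℕ) {i j : ℕ} {χ : Fin i → Fin (n + j)},
    2 ≤ i → Pat K (i + r) V → Sep U0 V a (i + r) → Cov χ →
    (∃ x y, x ≠ y ∧ ∃ b₁ b₂, χ x = Fin.castAdd j b₁ ∧ χ y = Fin.castAdd j b₂) →
    Sg U0 V ζ s r χ = (s * gapK K) ^ r * (s ^ j * wt U0 V ζ χ)
  | 0, i, j, χ, _, _, _, _, _ => by simp [Sg, wt, mul_assoc]
  | r + 1, i, j, χ, hi, hV, hS, hc, ⟨x, y, hxy, b₁, b₂, hx, hy⟩ => by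
    have hno : ∀ b, NoFit U0 V (Fin.snoc χ (Fin.castAdd j b)) := fun b =>
      noFit_three (hV.mono (by omega))
        (fun u hu v hv => hS u (by omega) v (by omega)) hxy hx hy b
    rw [Sg]
    change (∑ b, _) + Sg U0 V ζ s r (addNew χ) = _
    rw [sum_eq_zero fun b _ => Sg_noFit r (hno b), zero_add,
      Sg_two hn r (a := a) (by omega) (hV.mono (by omega))
        (fun u hu v hv => hS u (by omega) v (by omega)) hc.new
        ⟨x.castSucc, y.castSucc, fun h => hxy (Fin.castSucc_injective _ h), b₁, b₂,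
          by simp [addNew, hx]; rfl, by simp [addNew, hy]; rfl⟩,
      peel_wt hn hi (hV.mono (by omega)) hc,
      sum_eq_zero fun b _ => show wt U0 V ζ _ = 0 by rw [wt, (hno b).W_eq, mul_zero], add_zero]
    ring

/-- The assignment of two old replicas followed by new ones. -/
def chain (b₀ b : Fin n) : (t : ℕ) → Fin (2 + t) → Fin (n + t)
  | 0 => ![Fin.castAdd 0 b₀, Fin.castAdd 0 b]
  | t + 1 => addNew (chain b₀ b t)

theorem chain_spec (b₀ b : Fin n) : ∀ t : ℕ, Cov (chain b₀ b t) ∧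
    chain b₀ b t ⟨0, by omega⟩ = Fin.castAdd t b₀ ∧ chain b₀ b t ⟨1, by omega⟩ = Fin.castAdd t b ∧
    ∀ k : Fin t, chain b₀ b t ⟨2 + k, by omega⟩ = Fin.natAdd n k
  | 0 => ⟨fun x hx => absurd x.isLt (by omega), rfl, rfl, fun k => k.elim0⟩
  | t + 1 => by
    obtain ⟨h1, h2, h3, h4⟩ := chain_spec b₀ b t
    refine ⟨h1.new, ?_, ?_, fun k => ?_⟩
    · rw [chain, addNew, show (⟨0, by omega⟩ : Fin (2 + t + 1)) =
        (⟨0, by omega⟩ : Fin (2 + t)).castSucc from rfl, Fin.snoc_castSucc, h2]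
      rfl
    · rw [chain, addNew, show (⟨1, by omega⟩ : Fin (2 + t + 1)) =
        (⟨1, by omega⟩ : Fin (2 + t)).castSucc from rfl, Fin.snoc_castSucc, h3]
      rfl
    · induction k using Fin.lastCases with
      | last =>
        rw [chain, addNew, show (⟨2 + (Fin.last t : ℕ), by simp⟩ : Fin (2 + t + 1)) =
          Fin.last (2 + t) from rfl]
        exact Fin.snoc_last _ _
      | cast k =>
        rw [chain, addNew, show (⟨2 + (k.castSucc : ℕ), by omega⟩ : Fin (2 + t + 1)) =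
          (⟨2 + k, by omega⟩ : Fin (2 + t)).castSucc from rfl, Fin.snoc_castSucc, h4]
        rfl

theorem wt_chain_le (hn : 0 < n) (hU0 : U0.IsTree) (b₀ b : Fin n) {a : ℕ} :
    ∀ t : ℕ, Pat K (2 + t) V → Sep U0 V a (2 + t) →
      wt U0 V (fun _ => 1) (chain b₀ b t) ≤ gapK K ^ t * treeW K n U0
  | 0, _, _ => by
    classical
    simp only [wt, Nat.ascFactorial_zero, Nat.cast_one, one_mul, pow_zero, W, val,
      show 1 < 2 + 0 from by norm_num, dif_pos, mul_one]
    calc ∑ U : Lvls K (n + 0), (if Fits U0 V (chain b₀ b 0) U then treeW K (n + 0) U else 0)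
        ≤ ∑ U : Lvls K (n + 0), (if U = U0 then treeW K (n + 0) U else 0) := by
          refine sum_le_sum fun U _ => ?_
          by_cases h : Fits U0 V (chain b₀ b 0) U
          · have e : U = U0 := funext fun x => funext fun y => h.1 x y
            rw [if_pos h, if_pos e]
          · rw [if_neg h]
            split_ifs
            exacts [treeW_nonneg _, le_rfl]
      _ = treeW K n U0 := (Fintype.sum_ite_eq' U0 _)
  | t + 1, hV, hS => by
    obtain ⟨hc, h0, h1, -⟩ := chain_spec b₀ b t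
    rw [chain, peel_wt hn (Nat.le_add_right 2 t) hV hc, sum_eq_zero fun c _ => ?_, add_zero, pow_succ']
    · rw [mul_assoc]
      exact mul_le_mul_of_nonneg_left (wt_chain_le hn hU0 b₀ b t (hV.mono (by omega))
        (fun u hu v hv => hS u (by omega) v (by omega))) (gapK_pos K).le
    · rw [wt, (noFit_three hV hS (by simp [Fin.ext_iff]) h0 h1 c).W_eq, mul_zero]

/-- The pattern with label `i` moved to position `1`. -/
def moved (V : ℕ → ℕ → Fin (K + 1)) (i : ℕ) : ℕ → ℕ → Fin (K + 1) := fun x y =>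
  V (if x = 1 then i else if 1 < x ∧ x ≤ i then x - 1 else x)
    (if y = 1 then i else if 1 < y ∧ y ≤ i then y - 1 else y)

/-- The chain with the mark, one old and new replicas, as built by appending new ones. -/
def markNews (b₀ : Fin n) : (t : ℕ) → Fin (1 + t) → Fin (n + t)
  | 0 => fun _ => Fin.castAdd 0 b₀
  | t + 1 => addNew (markNews b₀ t)

theorem markNews_spec (b₀ : Fin n) : ∀ t : ℕ, Cov (markNews b₀ t) ∧
    markNews b₀ t ⟨0, by omega⟩ = Fin.castAdd t b₀ ∧
    ∀ k : Fin t, markNews b₀ t ⟨1 + k, by omega⟩ = Fin.natAdd n k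
  | 0 => ⟨fun x hx => absurd x.isLt (by omega), rfl, fun k => k.elim0⟩
  | t + 1 => by
    obtain ⟨h1, h2, h4⟩ := markNews_spec b₀ t
    refine ⟨h1.new, ?_, fun k => ?_⟩
    · rw [markNews, addNew, show (⟨0, by omega⟩ : Fin (1 + t + 1)) =
        (⟨0, by omega⟩ : Fin (1 + t)).castSucc from rfl, Fin.snoc_castSucc, h2]
      rfl
    · induction k using Fin.lastCases with
      | last =>
        rw [markNews, addNew, show (⟨1 + (Fin.last t : ℕ), by simp⟩ : Fin (1 + t + 1)) =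
          Fin.last (1 + t) from rfl]
        exact Fin.snoc_last _ _
      | cast k =>
        rw [markNews, addNew, show (⟨1 + (k.castSucc : ℕ), by omega⟩ : Fin (1 + t + 1)) =
          (⟨1 + k, by omega⟩ : Fin (1 + t)).castSucc from rfl, Fin.snoc_castSucc, h4]
        rfl

theorem wt_moved_le (hn : 0 < n) (hU0 : U0.IsTree) (b₀ b : Fin n) {a t : ℕ}
    (hV : Pat K (2 + t) V) (hS : Sep U0 V a (2 + t)) :
    wt U0 V (fun _ => 1) (Fin.snoc (markNews b₀ t) (Fin.castAdd t b)) ≤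
      gapK K ^ t * treeW K n U0 := by
  classical
  set p : ℕ → ℕ := fun x => if x = 1 then 1 + t else if 1 < x ∧ x ≤ 1 + t then x - 1 else x with hp
  have hp_lt : ∀ x < 2 + t, p x < 2 + t := fun x hx => by simp only [hp]; split_ifs <;> omega
  have hp_inj : ∀ x < 2 + t, ∀ y < 2 + t, p x = p y → x = y := fun x hx y hy h => by
    simp only [hp] at h; split_ifs at h <;> omega
  have hV' : Pat K (2 + t) (moved V (1 + t)) :=
    { diag := fun x hx => hV.diag _ (hp_lt x hx)
      symm := fun x hx y hy => hV.symm _ (hp_lt x hx) _ (hp_lt y hy)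
      ultra := fun x hx y hy z hz => hV.ultra _ (hp_lt x hx) _ (hp_lt y hy) _ (hp_lt z hz)
      off := fun x hx y hy h => hV.off _ (hp_lt x hx) _ (hp_lt y hy)
        fun e => h (hp_inj x hx y hy e)
      binary := fun x hx y hy z hz h1 h2 h3 => hV.binary _ (hp_lt x hx) _ (hp_lt y hy) _ (hp_lt z hz)
        (fun e => h1 (hp_inj x hx y hy e)) (fun e => h2 (hp_inj y hy z hz e))
        (fun e => h3 (hp_inj x hx z hz e)) }
  have hS' : Sep U0 (moved V (1 + t)) a (2 + t) := fun x hx y hy h =>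
    hS _ (hp_lt x hx) _ (hp_lt y hy) fun e => h (hp_inj x hx y hy e)
  refine le_of_eq_of_le ?_ (wt_chain_le hn hU0 b₀ b t hV' hS')
  obtain ⟨-, h0, h4⟩ := markNews_spec b₀ t
  obtain ⟨-, c0, c1, c4⟩ := chain_spec b₀ b t
  set e : Fin (2 + t) → Fin (1 + t + 1) := fun x =>
    ⟨p x, by have := hp_lt x x.isLt; omega⟩ with he
  have he_surj : Function.Surjective e := by
    have hb : Function.Bijective e := by
      refine (Fintype.bijective_iff_injective_and_card e).2 ⟨fun x y h => ?_, by simp; omega⟩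
      exact Fin.ext (hp_inj x x.isLt y y.isLt (congrArg Fin.val h))
    exact hb.2
  have key : ∀ x, (Fin.snoc (α := fun _ => Fin (n + t)) (markNews b₀ t) (Fin.castAdd t b)) (e x) =
      chain b₀ b t x := by
    rintro ⟨x, hx⟩
    rcases x with _ | _ | x
    · rw [c0, show e ⟨0, hx⟩ = (⟨0, by omega⟩ : Fin (1 + t)).castSucc from Fin.ext (by simp [he, hp]),
        Fin.snoc_castSucc, h0]
    · rw [c1, show e ⟨1, hx⟩ = Fin.last (1 + t) from Fin.ext (by simp [he, hp]), Fin.snoc_last]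
    · have hxt : x < t := by omega
      rw [show (⟨x + 1 + 1, hx⟩ : Fin (2 + t)) = ⟨2 + x, by omega⟩ from
          Fin.ext (show x + 1 + 1 = 2 + x by omega),
        show (⟨2 + x, by omega⟩ : Fin (2 + t)) = ⟨2 + (⟨x, hxt⟩ : Fin t), by omega⟩ from rfl, c4,
        show e ⟨2 + x, by omega⟩ = (⟨1 + x, by omega⟩ : Fin (1 + t)).castSucc from Fin.ext (by
          simp only [he, hp, Fin.val_castSucc]; split_ifs <;> omega), Fin.snoc_castSucc]
      exact h4 ⟨x, hxt⟩
  simp only [wt, W, val, show 1 < 1 + t + 1 from by omega, show 1 < 2 + t from by omega, dif_pos,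
    mul_one]
  congr 1
  refine sum_congr rfl fun U _ => ?_
  congr 1
  refine propext ⟨fun h => ⟨h.1, fun x y => ?_⟩, fun h => ⟨h.1, fun x y => ?_⟩⟩
  · rw [← key, ← key]; exact h.2 (e x) (e y)
  · obtain ⟨x, rfl⟩ := he_surj x
    obtain ⟨y, rfl⟩ := he_surj y
    rw [key, key]; exact h.2 x y

theorem wt_first_le (hn : 0 < n) (hU0 : U0.IsTree) (b₀ : Fin n) :
    wt U0 V (fun _ => 1) (markNews b₀ 1) ≤ (n : ℝ) * treeW K n U0 := by
  classical
  simp only [wt, W, val, show 1 < 1 + 1 from by norm_num, dif_pos, mul_one]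
  rw [show n.ascFactorial 1 = n from by simp [Nat.ascFactorial_succ]]
  refine mul_le_mul_of_nonneg_left ?_ (Nat.cast_nonneg n)
  have hm := treeW_marg hU0 b₀ (L := 0) (Nat.zero_le K)
  rw [Lvls.node_zero, card_univ, Fintype.card_fin, mpar] at hm
  rw [Nat.cast_zero, zero_div, sub_zero, div_self (by exact_mod_cast hn.ne'), mul_one] at hm
  rw [← hm]
  refine sum_le_sum fun U _ => ?_
  by_cases h : Fits U0 V (markNews b₀ 1) U
  · rw [if_pos h, if_pos ⟨funext fun x => funext fun y => h.1 x y, Nat.zero_le _⟩]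
  · rw [if_neg h]
    split_ifs
    exacts [treeW_nonneg _, le_rfl]

/-- The absolute sum after the mark and new replicas. -/
theorem Sg_abs_le (hn : 0 < n) (hU0 : U0.IsTree) (b₀ : Fin n) {a : ℕ} : ∀ (r t : ℕ), 1 ≤ t →
    Pat K (1 + t + r) V → Sep U0 V a (1 + t + r) →
    Sg U0 V (fun _ => 1) 1 r (markNews b₀ t) ≤
      gapK K ^ r * wt U0 V (fun _ => 1) (markNews b₀ t) +
        2 * (r * n) * gapK K ^ (t + r - 1) * treeW K n U0
  | 0, t, _, _, _ => by simp [Sg, wt]
  | r + 1, t, ht, hV, hS => by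
    have hp := gapK_pos K
    have hV1 : Pat K (2 + t) V := hV.mono (by omega)
    have hS1 : Sep U0 V a (2 + t) := fun u hu v hv => hS u (by omega) v (by omega)
    have hold : ∀ b : Fin n, Sg U0 V (fun _ => 1) 1 r
        (Fin.snoc (markNews b₀ t) (Fin.castAdd t b)) ≤ gapK K ^ (t + r) * treeW K n U0 := by
      intro b
      obtain ⟨hc, h0, -⟩ := markNews_spec b₀ t
      obtain ⟨e1, e2, e3⟩ := snoc_two (b := b) (by omega : 0 < 1 + t) h0
      rw [Sg_two hn r (a := a) (by omega) (hV.mono (by omega))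
        (fun u hu v hv => hS u (by omega) v (by omega)) (hc.old b)
        ⟨_, _, e1, b₀, b, e2, e3⟩, one_mul, one_pow, one_mul, pow_add, mul_assoc, mul_left_comm]
      exact mul_le_mul_of_nonneg_left (wt_moved_le hn hU0 b₀ b hV1 hS1) (by positivity)
    have hnew := Sg_abs_le hn hU0 b₀ r (t + 1) (by omega)
      ((show Pat K (1 + (t + 1) + r) V from hV.mono (by omega)))
      (fun u hu v hv => hS u (by omega) v (by omega))
    have hpeel : wt U0 V (fun _ => 1) (markNews b₀ (t + 1)) ≤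
        gapK K * wt U0 V (fun _ => 1) (markNews b₀ t) + n * (gapK K ^ t * treeW K n U0) := by
      rw [markNews, peel_wt hn (by omega) (hV.mono (by omega)) (markNews_spec b₀ t).1]
      refine add_le_add_right (le_trans (sum_le_sum fun b _ => wt_moved_le hn hU0 b₀ b hV1 hS1)
        (by simp)) _
    rw [Sg]
    change (∑ b, _) + Sg U0 V (fun _ => 1) 1 r (markNews b₀ (t + 1)) ≤ _
    refine (add_le_add (sum_le_sum fun b _ => hold b) hnew).trans ?_
    rw [sum_const, card_univ, Fintype.card_fin, nsmul_eq_mul,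
      show t + 1 + r - 1 = t + r by omega, show t + (r + 1) - 1 = t + r by omega]
    have := mul_le_mul_of_nonneg_left hpeel (pow_nonneg hp.le r)
    have e : gapK K ^ (t + r) = gapK K ^ r * gapK K ^ t := by rw [pow_add]; ring
    push_cast
    rw [pow_succ, e]
    nlinarith [this]

end Vale.Agent.P168.Tel
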